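import Crest.Agent.R187.SN.KC.Def

/-!
# Row 187, PLAN S, block E2: sources 0 to 50 of level (4, 6) (generated)
-/

set_option autoImplicit false
set_option maxRecDepth 100000
set_option Elab.async false

namespace Crest.Agent.R187.SN.KC

open Crest.Agent.R187.SN Crest.Agent.R187.SN.Spec Crest.Agent.R187.SN.Kern
open Crest.Agent.R187.SN.KKey Crest.Agent.R187.SN.KD Crest.Agent.R187.SN.KE
open Crest.Agent.R187.SN.KRel Crest.Agent.R187.SN.KDec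

theorem k_4_6_0 : ck_4_6 ⟨nat_lit 0xc000000000, nat_lit 1, nat_lit 0⟩ = true := by decide +kernel

theorem k_4_6_1 : ck_4_6 ⟨nat_lit 0xb020000000, nat_lit 1, nat_lit 1⟩ = true := by decide +kernel

theorem k_4_6_2 : ck_4_6 ⟨nat_lit 0xa830000000, nat_lit 1, nat_lit 2⟩ = true := by decide +kernel

theorem k_4_6_3 : ck_4_6 ⟨nat_lit 0xa040000000, nat_lit 2, nat_lit 3⟩ = true := by decide +kernel

theorem k_4_6_4 : ck_4_6 ⟨nat_lit 0xa020400000, nat_lit 1, nat_lit 5⟩ = true := by decide +kernel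

theorem k_4_6_5 : ck_4_6 ⟨nat_lit 0x9850000000, nat_lit 1, nat_lit 6⟩ = true := by decide +kernel

theorem k_4_6_6 : ck_4_6 ⟨nat_lit 0x9840200000, nat_lit 1, nat_lit 7⟩ = true := by decide +kernel

theorem k_4_6_7 : ck_4_6 ⟨nat_lit 0x9830400000, nat_lit 1, nat_lit 8⟩ = true := by decide +kernel

theorem k_4_6_8 : ck_4_6 ⟨nat_lit 0x9060000000, nat_lit 3, nat_lit 9⟩ = true := by decide +kernel

theorem k_4_6_9 : ck_4_6 ⟨nat_lit 0x9050200000, nat_lit 1, nat_lit 12⟩ = true := by decide +kernel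

theorem k_4_6_10 : ck_4_6 ⟨nat_lit 0x9040400000, nat_lit 2, nat_lit 13⟩ = true := by decide +kernel

theorem k_4_6_11 : ck_4_6 ⟨nat_lit 0x9020408000, nat_lit 1, nat_lit 15⟩ = true := by decide +kernel

theorem k_4_6_12 : ck_4_6 ⟨nat_lit 0x8870000000, nat_lit 1, nat_lit 16⟩ = true := by decide +kernel

theorem k_4_6_13 : ck_4_6 ⟨nat_lit 0x8860200000, nat_lit 2, nat_lit 17⟩ = true := by decide +kernel

theorem k_4_6_14 : ck_4_6 ⟨nat_lit 0x8850400000, nat_lit 2, nat_lit 19⟩ = true := by decide +kernel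

theorem k_4_6_15 : ck_4_6 ⟨nat_lit 0x8840600000, nat_lit 1, nat_lit 21⟩ = true := by decide +kernel

theorem k_4_6_16 : ck_4_6 ⟨nat_lit 0x8840404000, nat_lit 1, nat_lit 22⟩ = true := by decide +kernel

theorem k_4_6_17 : ck_4_6 ⟨nat_lit 0x8080000000, nat_lit 3, nat_lit 23⟩ = true := by decide +kernel

theorem k_4_6_18 : ck_4_6 ⟨nat_lit 0x8070200000, nat_lit 2, nat_lit 26⟩ = true := by decide +kernel

theorem k_4_6_19 : ck_4_6 ⟨nat_lit 0x8060400000, nat_lit 4, nat_lit 28⟩ = true := by decide +kernel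

theorem k_4_6_20 : ck_4_6 ⟨nat_lit 0x8050600000, nat_lit 1, nat_lit 32⟩ = true := by decide +kernel

theorem k_4_6_21 : ck_4_6 ⟨nat_lit 0x8050404000, nat_lit 1, nat_lit 33⟩ = true := by decide +kernel

theorem k_4_6_22 : ck_4_6 ⟨nat_lit 0x8040800000, nat_lit 2, nat_lit 34⟩ = true := by decide +kernel

theorem k_4_6_23 : ck_4_6 ⟨nat_lit 0x8040408000, nat_lit 1, nat_lit 36⟩ = true := by decide +kernel

theorem k_4_6_24 : ck_4_6 ⟨nat_lit 0x7890000000, nat_lit 1, nat_lit 37⟩ = true := by decide +kernel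

theorem k_4_6_25 : ck_4_6 ⟨nat_lit 0x7880200000, nat_lit 2, nat_lit 38⟩ = true := by decide +kernel

theorem k_4_6_26 : ck_4_6 ⟨nat_lit 0x7870400000, nat_lit 3, nat_lit 40⟩ = true := by decide +kernel

theorem k_4_6_27 : ck_4_6 ⟨nat_lit 0x7870204000, nat_lit 1, nat_lit 43⟩ = true := by decide +kernel

theorem k_4_6_28 : ck_4_6 ⟨nat_lit 0x7860600000, nat_lit 3, nat_lit 44⟩ = true := by decide +kernel

theorem k_4_6_29 : ck_4_6 ⟨nat_lit 0x7860404000, nat_lit 1, nat_lit 47⟩ = true := by decide +kernel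

theorem k_4_6_30 : ck_4_6 ⟨nat_lit 0x7850800000, nat_lit 1, nat_lit 48⟩ = true := by decide +kernel

theorem k_4_6_31 : ck_4_6 ⟨nat_lit 0x7850604000, nat_lit 1, nat_lit 49⟩ = true := by decide +kernel

theorem k_4_6_32 : ck_4_6 ⟨nat_lit 0x7850408000, nat_lit 1, nat_lit 50⟩ = true := by decide +kernel

theorem k_4_6_33 : ck_4_6 ⟨nat_lit 0x7840804000, nat_lit 1, nat_lit 51⟩ = true := by decide +kernel

theorem k_4_6_34 : ck_4_6 ⟨nat_lit 0x70a0000000, nat_lit 2, nat_lit 52⟩ = true := by decide +kernel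

theorem k_4_6_35 : ck_4_6 ⟨nat_lit 0x7090200000, nat_lit 2, nat_lit 54⟩ = true := by decide +kernel

theorem k_4_6_36 : ck_4_6 ⟨nat_lit 0x7080400000, nat_lit 4, nat_lit 56⟩ = true := by decide +kernel

theorem k_4_6_37 : ck_4_6 ⟨nat_lit 0x7070600000, nat_lit 2, nat_lit 60⟩ = true := by decide +kernel

theorem k_4_6_38 : ck_4_6 ⟨nat_lit 0x7070404000, nat_lit 2, nat_lit 62⟩ = true := by decide +kernel

theorem k_4_6_39 : ck_4_6 ⟨nat_lit 0x7060800000, nat_lit 4, nat_lit 64⟩ = true := by decide +kernel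

theorem k_4_6_40 : ck_4_6 ⟨nat_lit 0x7060604000, nat_lit 1, nat_lit 68⟩ = true := by decide +kernel

theorem k_4_6_41 : ck_4_6 ⟨nat_lit 0x7060408000, nat_lit 2, nat_lit 69⟩ = true := by decide +kernel

theorem k_4_6_42 : ck_4_6 ⟨nat_lit 0x7050804000, nat_lit 1, nat_lit 71⟩ = true := by decide +kernel

theorem k_4_6_43 : ck_4_6 ⟨nat_lit 0x7040808000, nat_lit 1, nat_lit 72⟩ = true := by decide +kernel

theorem k_4_6_44 : ck_4_6 ⟨nat_lit 0x68a0200000, nat_lit 2, nat_lit 73⟩ = true := by decide +kernel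

theorem k_4_6_45 : ck_4_6 ⟨nat_lit 0x6890400000, nat_lit 2, nat_lit 75⟩ = true := by decide +kernel

theorem k_4_6_46 : ck_4_6 ⟨nat_lit 0x6890204000, nat_lit 1, nat_lit 77⟩ = true := by decide +kernel

theorem k_4_6_47 : ck_4_6 ⟨nat_lit 0x6880600000, nat_lit 3, nat_lit 78⟩ = true := by decide +kernel

theorem k_4_6_48 : ck_4_6 ⟨nat_lit 0x6880404000, nat_lit 2, nat_lit 81⟩ = true := by decide +kernel

theorem k_4_6_49 : ck_4_6 ⟨nat_lit 0x6870800000, nat_lit 3, nat_lit 83⟩ = true := by decide +kernel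

theorem k_4_6_50 : ck_4_6 ⟨nat_lit 0x6870604000, nat_lit 2, nat_lit 86⟩ = true := by decide +kernel

/-- sources 0 to 50 -/
noncomputable def c_4_6_0 : List IE := [⟨nat_lit 0xc000000000, nat_lit 1, nat_lit 0⟩,
  ⟨nat_lit 0xb020000000, nat_lit 1, nat_lit 1⟩,
  ⟨nat_lit 0xa830000000, nat_lit 1, nat_lit 2⟩,
  ⟨nat_lit 0xa040000000, nat_lit 2, nat_lit 3⟩,
  ⟨nat_lit 0xa020400000, nat_lit 1, nat_lit 5⟩,
  ⟨nat_lit 0x9850000000, nat_lit 1, nat_lit 6⟩,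
  ⟨nat_lit 0x9840200000, nat_lit 1, nat_lit 7⟩,
  ⟨nat_lit 0x9830400000, nat_lit 1, nat_lit 8⟩,
  ⟨nat_lit 0x9060000000, nat_lit 3, nat_lit 9⟩,
  ⟨nat_lit 0x9050200000, nat_lit 1, nat_lit 12⟩,
  ⟨nat_lit 0x9040400000, nat_lit 2, nat_lit 13⟩,
  ⟨nat_lit 0x9020408000, nat_lit 1, nat_lit 15⟩,
  ⟨nat_lit 0x8870000000, nat_lit 1, nat_lit 16⟩,
  ⟨nat_lit 0x8860200000, nat_lit 2, nat_lit 17⟩,
  ⟨nat_lit 0x8850400000, nat_lit 2, nat_lit 19⟩,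
  ⟨nat_lit 0x8840600000, nat_lit 1, nat_lit 21⟩,
  ⟨nat_lit 0x8840404000, nat_lit 1, nat_lit 22⟩,
  ⟨nat_lit 0x8080000000, nat_lit 3, nat_lit 23⟩,
  ⟨nat_lit 0x8070200000, nat_lit 2, nat_lit 26⟩,
  ⟨nat_lit 0x8060400000, nat_lit 4, nat_lit 28⟩,
  ⟨nat_lit 0x8050600000, nat_lit 1, nat_lit 32⟩,
  ⟨nat_lit 0x8050404000, nat_lit 1, nat_lit 33⟩,
  ⟨nat_lit 0x8040800000, nat_lit 2, nat_lit 34⟩,
  ⟨nat_lit 0x8040408000, nat_lit 1, nat_lit 36⟩,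
  ⟨nat_lit 0x7890000000, nat_lit 1, nat_lit 37⟩,
  ⟨nat_lit 0x7880200000, nat_lit 2, nat_lit 38⟩,
  ⟨nat_lit 0x7870400000, nat_lit 3, nat_lit 40⟩,
  ⟨nat_lit 0x7870204000, nat_lit 1, nat_lit 43⟩,
  ⟨nat_lit 0x7860600000, nat_lit 3, nat_lit 44⟩,
  ⟨nat_lit 0x7860404000, nat_lit 1, nat_lit 47⟩,
  ⟨nat_lit 0x7850800000, nat_lit 1, nat_lit 48⟩,
  ⟨nat_lit 0x7850604000, nat_lit 1, nat_lit 49⟩,
  ⟨nat_lit 0x7850408000, nat_lit 1, nat_lit 50⟩,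
  ⟨nat_lit 0x7840804000, nat_lit 1, nat_lit 51⟩,
  ⟨nat_lit 0x70a0000000, nat_lit 2, nat_lit 52⟩,
  ⟨nat_lit 0x7090200000, nat_lit 2, nat_lit 54⟩,
  ⟨nat_lit 0x7080400000, nat_lit 4, nat_lit 56⟩,
  ⟨nat_lit 0x7070600000, nat_lit 2, nat_lit 60⟩,
  ⟨nat_lit 0x7070404000, nat_lit 2, nat_lit 62⟩,
  ⟨nat_lit 0x7060800000, nat_lit 4, nat_lit 64⟩,
  ⟨nat_lit 0x7060604000, nat_lit 1, nat_lit 68⟩,
  ⟨nat_lit 0x7060408000, nat_lit 2, nat_lit 69⟩,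
  ⟨nat_lit 0x7050804000, nat_lit 1, nat_lit 71⟩,
  ⟨nat_lit 0x7040808000, nat_lit 1, nat_lit 72⟩,
  ⟨nat_lit 0x68a0200000, nat_lit 2, nat_lit 73⟩,
  ⟨nat_lit 0x6890400000, nat_lit 2, nat_lit 75⟩,
  ⟨nat_lit 0x6890204000, nat_lit 1, nat_lit 77⟩,
  ⟨nat_lit 0x6880600000, nat_lit 3, nat_lit 78⟩,
  ⟨nat_lit 0x6880404000, nat_lit 2, nat_lit 81⟩,
  ⟨nat_lit 0x6870800000, nat_lit 3, nat_lit 83⟩,
  ⟨nat_lit 0x6870604000, nat_lit 2, nat_lit 86⟩]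

theorem C_4_6_0 : allL ck_4_6 c_4_6_0 = true :=
  (allL_cons k_4_6_0 (allL_cons k_4_6_1 (allL_cons k_4_6_2 (allL_cons k_4_6_3 (allL_cons k_4_6_4 (allL_cons k_4_6_5 (allL_cons k_4_6_6 (allL_cons k_4_6_7 (allL_cons k_4_6_8 (allL_cons k_4_6_9 (allL_cons k_4_6_10 (allL_cons k_4_6_11 (allL_cons k_4_6_12 (allL_cons k_4_6_13 (allL_cons k_4_6_14 (allL_cons k_4_6_15 (allL_cons k_4_6_16 (allL_cons k_4_6_17 (allL_cons k_4_6_18 (allL_cons k_4_6_19 (allL_cons k_4_6_20 (allL_cons k_4_6_21 (allL_cons k_4_6_22 (allL_cons k_4_6_23 (allL_cons k_4_6_24 (allL_cons k_4_6_25 (allL_cons k_4_6_26 (allL_cons k_4_6_27 (allL_cons k_4_6_28 (allL_cons k_4_6_29 (allL_cons k_4_6_30 (allL_cons k_4_6_31 (allL_cons k_4_6_32 (allL_cons k_4_6_33 (allL_cons k_4_6_34 (allL_cons k_4_6_35 (allL_cons k_4_6_36 (allL_cons k_4_6_37 (allL_cons k_4_6_38 (allL_cons k_4_6_39 (allL_cons k_4_6_40 (allL_cons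 k_4_6_41 (allL_cons k_4_6_42 (allL_cons k_4_6_43 (allL_cons k_4_6_44 (allL_cons k_4_6_45 (allL_cons k_4_6_46 (allL_cons k_4_6_47 (allL_cons k_4_6_48 (allL_cons k_4_6_49 (allL_cons k_4_6_50 (allL_nil _))))))))))))))))))))))))))))))))))))))))))))))))))))

end Crest.Agent.R187.SN.KC
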