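import Crest.Agent.R187.SN.KC.Def

/-!
# Row 187, PLAN S, block E2: sources 51 to 103 of level (4, 6) (generated)
-/

set_option autoImplicit false
set_option maxRecDepth 100000
set_option Elab.async false

namespace Crest.Agent.R187.SN.KC

open Crest.Agent.R187.SN Crest.Agent.R187.SN.Spec Crest.Agent.R187.SN.Kern
open Crest.Agent.R187.SN.KKey Crest.Agent.R187.SN.KD Crest.Agent.R187.SN.KE
open Crest.Agent.R187.SN.KRel Crest.Agent.R187.SN.KDec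

theorem k_4_6_51 : ck_4_6 ⟨nat_lit 0x6860a00000, nat_lit 2, nat_lit 88⟩ = true := by decide +kernel

theorem k_4_6_52 : ck_4_6 ⟨nat_lit 0x6860804000, nat_lit 2, nat_lit 90⟩ = true := by decide +kernel

theorem k_4_6_53 : ck_4_6 ⟨nat_lit 0x6860608000, nat_lit 1, nat_lit 92⟩ = true := by decide +kernel

theorem k_4_6_54 : ck_4_6 ⟨nat_lit 0x6850808000, nat_lit 1, nat_lit 93⟩ = true := by decide +kernel

theorem k_4_6_55 : ck_4_6 ⟨nat_lit 0x60c0000000, nat_lit 2, nat_lit 94⟩ = true := by decide +kernel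

theorem k_4_6_56 : ck_4_6 ⟨nat_lit 0x60a0400000, nat_lit 3, nat_lit 96⟩ = true := by decide +kernel

theorem k_4_6_57 : ck_4_6 ⟨nat_lit 0x6090600000, nat_lit 2, nat_lit 99⟩ = true := by decide +kernel

theorem k_4_6_58 : ck_4_6 ⟨nat_lit 0x6090404000, nat_lit 1, nat_lit 101⟩ = true := by decide +kernel

theorem k_4_6_59 : ck_4_6 ⟨nat_lit 0x6080800000, nat_lit 4, nat_lit 102⟩ = true := by decide +kernel

theorem k_4_6_60 : ck_4_6 ⟨nat_lit 0x6080604000, nat_lit 1, nat_lit 106⟩ = true := by decide +kernel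

theorem k_4_6_61 : ck_4_6 ⟨nat_lit 0x6080408000, nat_lit 2, nat_lit 107⟩ = true := by decide +kernel

theorem k_4_6_62 : ck_4_6 ⟨nat_lit 0x6070a00000, nat_lit 1, nat_lit 109⟩ = true := by decide +kernel

theorem k_4_6_63 : ck_4_6 ⟨nat_lit 0x6070804000, nat_lit 2, nat_lit 110⟩ = true := by decide +kernel

theorem k_4_6_64 : ck_4_6 ⟨nat_lit 0x6070608000, nat_lit 1, nat_lit 112⟩ = true := by decide +kernel

theorem k_4_6_65 : ck_4_6 ⟨nat_lit 0x6060c00000, nat_lit 3, nat_lit 113⟩ = true := by decide +kernel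

theorem k_4_6_66 : ck_4_6 ⟨nat_lit 0x6060a04000, nat_lit 1, nat_lit 116⟩ = true := by decide +kernel

theorem k_4_6_67 : ck_4_6 ⟨nat_lit 0x6060808000, nat_lit 2, nat_lit 117⟩ = true := by decide +kernel

theorem k_4_6_68 : ck_4_6 ⟨nat_lit 0x6040810000, nat_lit 1, nat_lit 119⟩ = true := by decide +kernel

theorem k_4_6_69 : ck_4_6 ⟨nat_lit 0x58b0204000, nat_lit 1, nat_lit 120⟩ = true := by decide +kernel

theorem k_4_6_70 : ck_4_6 ⟨nat_lit 0x58a0600000, nat_lit 1, nat_lit 121⟩ = true := by decide +kernel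

theorem k_4_6_71 : ck_4_6 ⟨nat_lit 0x58a0404000, nat_lit 1, nat_lit 122⟩ = true := by decide +kernel

theorem k_4_6_72 : ck_4_6 ⟨nat_lit 0x5890800000, nat_lit 1, nat_lit 123⟩ = true := by decide +kernel

theorem k_4_6_73 : ck_4_6 ⟨nat_lit 0x5890604000, nat_lit 2, nat_lit 124⟩ = true := by decide +kernel

theorem k_4_6_74 : ck_4_6 ⟨nat_lit 0x5880a00000, nat_lit 2, nat_lit 126⟩ = true := by decide +kernel

theorem k_4_6_75 : ck_4_6 ⟨nat_lit 0x5880804000, nat_lit 2, nat_lit 128⟩ = true := by decide +kernel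

theorem k_4_6_76 : ck_4_6 ⟨nat_lit 0x5880608000, nat_lit 1, nat_lit 130⟩ = true := by decide +kernel

theorem k_4_6_77 : ck_4_6 ⟨nat_lit 0x5870c00000, nat_lit 1, nat_lit 131⟩ = true := by decide +kernel

theorem k_4_6_78 : ck_4_6 ⟨nat_lit 0x5870a04000, nat_lit 2, nat_lit 132⟩ = true := by decide +kernel

theorem k_4_6_79 : ck_4_6 ⟨nat_lit 0x5870808000, nat_lit 1, nat_lit 134⟩ = true := by decide +kernel

theorem k_4_6_80 : ck_4_6 ⟨nat_lit 0x5860c04000, nat_lit 1, nat_lit 135⟩ = true := by decide +kernel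

theorem k_4_6_81 : ck_4_6 ⟨nat_lit 0x5860a08000, nat_lit 1, nat_lit 136⟩ = true := by decide +kernel

theorem k_4_6_82 : ck_4_6 ⟨nat_lit 0x586080c000, nat_lit 1, nat_lit 137⟩ = true := by decide +kernel

theorem k_4_6_83 : ck_4_6 ⟨nat_lit 0x50a0800000, nat_lit 2, nat_lit 138⟩ = true := by decide +kernel

theorem k_4_6_84 : ck_4_6 ⟨nat_lit 0x50a0408000, nat_lit 1, nat_lit 140⟩ = true := by decide +kernel

theorem k_4_6_85 : ck_4_6 ⟨nat_lit 0x5090a00000, nat_lit 1, nat_lit 141⟩ = true := by decide +kernel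

theorem k_4_6_86 : ck_4_6 ⟨nat_lit 0x5090804000, nat_lit 1, nat_lit 142⟩ = true := by decide +kernel

theorem k_4_6_87 : ck_4_6 ⟨nat_lit 0x5080c00000, nat_lit 2, nat_lit 143⟩ = true := by decide +kernel

theorem k_4_6_88 : ck_4_6 ⟨nat_lit 0x5080a04000, nat_lit 1, nat_lit 145⟩ = true := by decide +kernel

theorem k_4_6_89 : ck_4_6 ⟨nat_lit 0x5080808000, nat_lit 2, nat_lit 146⟩ = true := by decide +kernel

theorem k_4_6_90 : ck_4_6 ⟨nat_lit 0x5070c04000, nat_lit 1, nat_lit 148⟩ = true := by decide +kernel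

theorem k_4_6_91 : ck_4_6 ⟨nat_lit 0x507080c000, nat_lit 1, nat_lit 149⟩ = true := by decide +kernel

theorem k_4_6_92 : ck_4_6 ⟨nat_lit 0x5060c08000, nat_lit 2, nat_lit 150⟩ = true := by decide +kernel

theorem k_4_6_93 : ck_4_6 ⟨nat_lit 0x5060810000, nat_lit 1, nat_lit 152⟩ = true := by decide +kernel

theorem k_4_6_94 : ck_4_6 ⟨nat_lit 0x489060c000, nat_lit 1, nat_lit 153⟩ = true := by decide +kernel

theorem k_4_6_95 : ck_4_6 ⟨nat_lit 0x4880c04000, nat_lit 1, nat_lit 154⟩ = true := by decide +kernel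

theorem k_4_6_96 : ck_4_6 ⟨nat_lit 0x4880a08000, nat_lit 1, nat_lit 155⟩ = true := by decide +kernel

theorem k_4_6_97 : ck_4_6 ⟨nat_lit 0x4870a0c000, nat_lit 1, nat_lit 156⟩ = true := by decide +kernel

theorem k_4_6_98 : ck_4_6 ⟨nat_lit 0x4860c0c000, nat_lit 1, nat_lit 157⟩ = true := by decide +kernel

theorem k_4_6_99 : ck_4_6 ⟨nat_lit 0x4081000000, nat_lit 1, nat_lit 158⟩ = true := by decide +kernel

theorem k_4_6_100 : ck_4_6 ⟨nat_lit 0x4080c08000, nat_lit 1, nat_lit 159⟩ = true := by decide +kernel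

theorem k_4_6_101 : ck_4_6 ⟨nat_lit 0x4080810000, nat_lit 1, nat_lit 160⟩ = true := by decide +kernel

theorem k_4_6_102 : ck_4_6 ⟨nat_lit 0x4060c10000, nat_lit 1, nat_lit 161⟩ = true := by decide +kernel

theorem k_4_6_103 : ck_4_6 ⟨nat_lit 0x3060c18000, nat_lit 1, nat_lit 162⟩ = true := by decide +kernel

/-- sources 51 to 103 -/
noncomputable def c_4_6_1 : List IE := [⟨nat_lit 0x6860a00000, nat_lit 2, nat_lit 88⟩,
  ⟨nat_lit 0x6860804000, nat_lit 2, nat_lit 90⟩,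
  ⟨nat_lit 0x6860608000, nat_lit 1, nat_lit 92⟩,
  ⟨nat_lit 0x6850808000, nat_lit 1, nat_lit 93⟩,
  ⟨nat_lit 0x60c0000000, nat_lit 2, nat_lit 94⟩,
  ⟨nat_lit 0x60a0400000, nat_lit 3, nat_lit 96⟩,
  ⟨nat_lit 0x6090600000, nat_lit 2, nat_lit 99⟩,
  ⟨nat_lit 0x6090404000, nat_lit 1, nat_lit 101⟩,
  ⟨nat_lit 0x6080800000, nat_lit 4, nat_lit 102⟩,
  ⟨nat_lit 0x6080604000, nat_lit 1, nat_lit 106⟩,
  ⟨nat_lit 0x6080408000, nat_lit 2, nat_lit 107⟩,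
  ⟨nat_lit 0x6070a00000, nat_lit 1, nat_lit 109⟩,
  ⟨nat_lit 0x6070804000, nat_lit 2, nat_lit 110⟩,
  ⟨nat_lit 0x6070608000, nat_lit 1, nat_lit 112⟩,
  ⟨nat_lit 0x6060c00000, nat_lit 3, nat_lit 113⟩,
  ⟨nat_lit 0x6060a04000, nat_lit 1, nat_lit 116⟩,
  ⟨nat_lit 0x6060808000, nat_lit 2, nat_lit 117⟩,
  ⟨nat_lit 0x6040810000, nat_lit 1, nat_lit 119⟩,
  ⟨nat_lit 0x58b0204000, nat_lit 1, nat_lit 120⟩,
  ⟨nat_lit 0x58a0600000, nat_lit 1, nat_lit 121⟩,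
  ⟨nat_lit 0x58a0404000, nat_lit 1, nat_lit 122⟩,
  ⟨nat_lit 0x5890800000, nat_lit 1, nat_lit 123⟩,
  ⟨nat_lit 0x5890604000, nat_lit 2, nat_lit 124⟩,
  ⟨nat_lit 0x5880a00000, nat_lit 2, nat_lit 126⟩,
  ⟨nat_lit 0x5880804000, nat_lit 2, nat_lit 128⟩,
  ⟨nat_lit 0x5880608000, nat_lit 1, nat_lit 130⟩,
  ⟨nat_lit 0x5870c00000, nat_lit 1, nat_lit 131⟩,
  ⟨nat_lit 0x5870a04000, nat_lit 2, nat_lit 132⟩,
  ⟨nat_lit 0x5870808000, nat_lit 1, nat_lit 134⟩,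
  ⟨nat_lit 0x5860c04000, nat_lit 1, nat_lit 135⟩,
  ⟨nat_lit 0x5860a08000, nat_lit 1, nat_lit 136⟩,
  ⟨nat_lit 0x586080c000, nat_lit 1, nat_lit 137⟩,
  ⟨nat_lit 0x50a0800000, nat_lit 2, nat_lit 138⟩,
  ⟨nat_lit 0x50a0408000, nat_lit 1, nat_lit 140⟩,
  ⟨nat_lit 0x5090a00000, nat_lit 1, nat_lit 141⟩,
  ⟨nat_lit 0x5090804000, nat_lit 1, nat_lit 142⟩,
  ⟨nat_lit 0x5080c00000, nat_lit 2, nat_lit 143⟩,
  ⟨nat_lit 0x5080a04000, nat_lit 1, nat_lit 145⟩,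
  ⟨nat_lit 0x5080808000, nat_lit 2, nat_lit 146⟩,
  ⟨nat_lit 0x5070c04000, nat_lit 1, nat_lit 148⟩,
  ⟨nat_lit 0x507080c000, nat_lit 1, nat_lit 149⟩,
  ⟨nat_lit 0x5060c08000, nat_lit 2, nat_lit 150⟩,
  ⟨nat_lit 0x5060810000, nat_lit 1, nat_lit 152⟩,
  ⟨nat_lit 0x489060c000, nat_lit 1, nat_lit 153⟩,
  ⟨nat_lit 0x4880c04000, nat_lit 1, nat_lit 154⟩,
  ⟨nat_lit 0x4880a08000, nat_lit 1, nat_lit 155⟩,
  ⟨nat_lit 0x4870a0c000, nat_lit 1, nat_lit 156⟩,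
  ⟨nat_lit 0x4860c0c000, nat_lit 1, nat_lit 157⟩,
  ⟨nat_lit 0x4081000000, nat_lit 1, nat_lit 158⟩,
  ⟨nat_lit 0x4080c08000, nat_lit 1, nat_lit 159⟩,
  ⟨nat_lit 0x4080810000, nat_lit 1, nat_lit 160⟩,
  ⟨nat_lit 0x4060c10000, nat_lit 1, nat_lit 161⟩,
  ⟨nat_lit 0x3060c18000, nat_lit 1, nat_lit 162⟩]

theorem C_4_6_1 : allL ck_4_6 c_4_6_1 = true :=
  (allL_cons k_4_6_51 (allL_cons k_4_6_52 (allL_cons k_4_6_53 (allL_cons k_4_6_54 (allL_cons k_4_6_55 (allL_cons k_4_6_56 (allL_cons k_4_6_57 (allL_cons k_4_6_58 (allL_cons k_4_6_59 (allL_cons k_4_6_60 (allL_cons k_4_6_61 (allL_cons k_4_6_62 (allL_cons k_4_6_63 (allL_cons k_4_6_64 (allL_cons k_4_6_65 (allL_cons k_4_6_66 (allL_cons k_4_6_67 (allL_cons k_4_6_68 (allL_cons k_4_6_69 (allL_cons k_4_6_70 (allL_cons k_4_6_71 (allL_cons k_4_6_72 (allL_cons k_4_6_73 (allL_cons k_4_6_74 (allL_cons k_4_6_75 (allL_cons k_4_6_76 (allL_cons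 k_4_6_77 (allL_cons k_4_6_78 (allL_cons k_4_6_79 (allL_cons k_4_6_80 (allL_cons k_4_6_81 (allL_cons k_4_6_82 (allL_cons k_4_6_83 (allL_cons k_4_6_84 (allL_cons k_4_6_85 (allL_cons k_4_6_86 (allL_cons k_4_6_87 (allL_cons k_4_6_88 (allL_cons k_4_6_89 (allL_cons k_4_6_90 (allL_cons k_4_6_91 (allL_cons k_4_6_92 (allL_cons k_4_6_93 (allL_cons k_4_6_94 (allL_cons k_4_6_95 (allL_cons k_4_6_96 (allL_cons k_4_6_97 (allL_cons k_4_6_98 (allL_cons k_4_6_99 (allL_cons k_4_6_100 (allL_cons k_4_6_101 (allL_cons k_4_6_102 (allL_cons k_4_6_103 (allL_nil _))))))))))))))))))))))))))))))))))))))))))))))))))))))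

end Crest.Agent.R187.SN.KC
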