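import Crest.Agent.R187.SN.KC.Def

/-!
# Row 187, PLAN S, block E2: sources 0 to 59 of level (5, 4) (generated)
-/

set_option autoImplicit false
set_option maxRecDepth 100000
set_option Elab.async false

namespace Crest.Agent.R187.SN.KC

open Crest.Agent.R187.SN Crest.Agent.R187.SN.Spec Crest.Agent.R187.SN.Kern
open Crest.Agent.R187.SN.KKey Crest.Agent.R187.SN.KD Crest.Agent.R187.SN.KE
open Crest.Agent.R187.SN.KRel Crest.Agent.R187.SN.KDec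

theorem k_5_4_0 : ck_5_4 ⟨nat_lit 0xa000000000, nat_lit 1, nat_lit 0⟩ = true := by decide +kernel

theorem k_5_4_1 : ck_5_4 ⟨nat_lit 0x9020000000, nat_lit 1, nat_lit 1⟩ = true := by decide +kernel

theorem k_5_4_2 : ck_5_4 ⟨nat_lit 0x8830000000, nat_lit 1, nat_lit 2⟩ = true := by decide +kernel

theorem k_5_4_3 : ck_5_4 ⟨nat_lit 0x8040000000, nat_lit 2, nat_lit 3⟩ = true := by decide +kernel

theorem k_5_4_4 : ck_5_4 ⟨nat_lit 0x8020400000, nat_lit 1, nat_lit 5⟩ = true := by decide +kernel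

theorem k_5_4_5 : ck_5_4 ⟨nat_lit 0x7850000000, nat_lit 1, nat_lit 6⟩ = true := by decide +kernel

theorem k_5_4_6 : ck_5_4 ⟨nat_lit 0x7840200000, nat_lit 1, nat_lit 7⟩ = true := by decide +kernel

theorem k_5_4_7 : ck_5_4 ⟨nat_lit 0x7830400000, nat_lit 1, nat_lit 8⟩ = true := by decide +kernel

theorem k_5_4_8 : ck_5_4 ⟨nat_lit 0x7060000000, nat_lit 2, nat_lit 9⟩ = true := by decide +kernel

theorem k_5_4_9 : ck_5_4 ⟨nat_lit 0x7050200000, nat_lit 1, nat_lit 11⟩ = true := by decide +kernel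

theorem k_5_4_10 : ck_5_4 ⟨nat_lit 0x7040400000, nat_lit 2, nat_lit 12⟩ = true := by decide +kernel

theorem k_5_4_11 : ck_5_4 ⟨nat_lit 0x7020408000, nat_lit 1, nat_lit 14⟩ = true := by decide +kernel

theorem k_5_4_12 : ck_5_4 ⟨nat_lit 0x6870000000, nat_lit 1, nat_lit 15⟩ = true := by decide +kernel

theorem k_5_4_13 : ck_5_4 ⟨nat_lit 0x6860200000, nat_lit 2, nat_lit 16⟩ = true := by decide +kernel

theorem k_5_4_14 : ck_5_4 ⟨nat_lit 0x6850400000, nat_lit 2, nat_lit 18⟩ = true := by decide +kernel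

theorem k_5_4_15 : ck_5_4 ⟨nat_lit 0x6840600000, nat_lit 1, nat_lit 20⟩ = true := by decide +kernel

theorem k_5_4_16 : ck_5_4 ⟨nat_lit 0x6840404000, nat_lit 1, nat_lit 21⟩ = true := by decide +kernel

theorem k_5_4_17 : ck_5_4 ⟨nat_lit 0x6080000000, nat_lit 2, nat_lit 22⟩ = true := by decide +kernel

theorem k_5_4_18 : ck_5_4 ⟨nat_lit 0x6070200000, nat_lit 1, nat_lit 24⟩ = true := by decide +kernel

theorem k_5_4_19 : ck_5_4 ⟨nat_lit 0x6060400000, nat_lit 3, nat_lit 25⟩ = true := by decide +kernel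

theorem k_5_4_20 : ck_5_4 ⟨nat_lit 0x6050600000, nat_lit 1, nat_lit 28⟩ = true := by decide +kernel

theorem k_5_4_21 : ck_5_4 ⟨nat_lit 0x6050404000, nat_lit 1, nat_lit 29⟩ = true := by decide +kernel

theorem k_5_4_22 : ck_5_4 ⟨nat_lit 0x6040800000, nat_lit 2, nat_lit 30⟩ = true := by decide +kernel

theorem k_5_4_23 : ck_5_4 ⟨nat_lit 0x6040408000, nat_lit 1, nat_lit 32⟩ = true := by decide +kernel

theorem k_5_4_24 : ck_5_4 ⟨nat_lit 0x5880200000, nat_lit 1, nat_lit 33⟩ = true := by decide +kernel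

theorem k_5_4_25 : ck_5_4 ⟨nat_lit 0x5870400000, nat_lit 2, nat_lit 34⟩ = true := by decide +kernel

theorem k_5_4_26 : ck_5_4 ⟨nat_lit 0x5870204000, nat_lit 1, nat_lit 36⟩ = true := by decide +kernel

theorem k_5_4_27 : ck_5_4 ⟨nat_lit 0x5860600000, nat_lit 2, nat_lit 37⟩ = true := by decide +kernel

theorem k_5_4_28 : ck_5_4 ⟨nat_lit 0x5860404000, nat_lit 1, nat_lit 39⟩ = true := by decide +kernel

theorem k_5_4_29 : ck_5_4 ⟨nat_lit 0x5850800000, nat_lit 1, nat_lit 40⟩ = true := by decide +kernel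

theorem k_5_4_30 : ck_5_4 ⟨nat_lit 0x5850604000, nat_lit 1, nat_lit 41⟩ = true := by decide +kernel

theorem k_5_4_31 : ck_5_4 ⟨nat_lit 0x5850408000, nat_lit 1, nat_lit 42⟩ = true := by decide +kernel

theorem k_5_4_32 : ck_5_4 ⟨nat_lit 0x5840804000, nat_lit 1, nat_lit 43⟩ = true := by decide +kernel

theorem k_5_4_33 : ck_5_4 ⟨nat_lit 0x50a0000000, nat_lit 1, nat_lit 44⟩ = true := by decide +kernel

theorem k_5_4_34 : ck_5_4 ⟨nat_lit 0x5090200000, nat_lit 1, nat_lit 45⟩ = true := by decide +kernel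

theorem k_5_4_35 : ck_5_4 ⟨nat_lit 0x5080400000, nat_lit 2, nat_lit 46⟩ = true := by decide +kernel

theorem k_5_4_36 : ck_5_4 ⟨nat_lit 0x5070600000, nat_lit 1, nat_lit 48⟩ = true := by decide +kernel

theorem k_5_4_37 : ck_5_4 ⟨nat_lit 0x5070404000, nat_lit 1, nat_lit 49⟩ = true := by decide +kernel

theorem k_5_4_38 : ck_5_4 ⟨nat_lit 0x5060800000, nat_lit 3, nat_lit 50⟩ = true := by decide +kernel

theorem k_5_4_39 : ck_5_4 ⟨nat_lit 0x5060604000, nat_lit 1, nat_lit 53⟩ = true := by decide +kernel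

theorem k_5_4_40 : ck_5_4 ⟨nat_lit 0x5060408000, nat_lit 1, nat_lit 54⟩ = true := by decide +kernel

theorem k_5_4_41 : ck_5_4 ⟨nat_lit 0x5050804000, nat_lit 1, nat_lit 55⟩ = true := by decide +kernel

theorem k_5_4_42 : ck_5_4 ⟨nat_lit 0x5040808000, nat_lit 1, nat_lit 56⟩ = true := by decide +kernel

theorem k_5_4_43 : ck_5_4 ⟨nat_lit 0x4880600000, nat_lit 1, nat_lit 57⟩ = true := by decide +kernel

theorem k_5_4_44 : ck_5_4 ⟨nat_lit 0x4880404000, nat_lit 1, nat_lit 58⟩ = true := by decide +kernel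

theorem k_5_4_45 : ck_5_4 ⟨nat_lit 0x4870800000, nat_lit 1, nat_lit 59⟩ = true := by decide +kernel

theorem k_5_4_46 : ck_5_4 ⟨nat_lit 0x4870604000, nat_lit 1, nat_lit 60⟩ = true := by decide +kernel

theorem k_5_4_47 : ck_5_4 ⟨nat_lit 0x4860a00000, nat_lit 1, nat_lit 61⟩ = true := by decide +kernel

theorem k_5_4_48 : ck_5_4 ⟨nat_lit 0x4860804000, nat_lit 1, nat_lit 62⟩ = true := by decide +kernel

theorem k_5_4_49 : ck_5_4 ⟨nat_lit 0x4860608000, nat_lit 1, nat_lit 63⟩ = true := by decide +kernel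

theorem k_5_4_50 : ck_5_4 ⟨nat_lit 0x4850808000, nat_lit 1, nat_lit 64⟩ = true := by decide +kernel

theorem k_5_4_51 : ck_5_4 ⟨nat_lit 0x4080800000, nat_lit 1, nat_lit 65⟩ = true := by decide +kernel

theorem k_5_4_52 : ck_5_4 ⟨nat_lit 0x4080408000, nat_lit 1, nat_lit 66⟩ = true := by decide +kernel

theorem k_5_4_53 : ck_5_4 ⟨nat_lit 0x4070804000, nat_lit 1, nat_lit 67⟩ = true := by decide +kernel

theorem k_5_4_54 : ck_5_4 ⟨nat_lit 0x4060c00000, nat_lit 1, nat_lit 68⟩ = true := by decide +kernel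

theorem k_5_4_55 : ck_5_4 ⟨nat_lit 0x4060a04000, nat_lit 1, nat_lit 69⟩ = true := by decide +kernel

theorem k_5_4_56 : ck_5_4 ⟨nat_lit 0x4060808000, nat_lit 1, nat_lit 70⟩ = true := by decide +kernel

theorem k_5_4_57 : ck_5_4 ⟨nat_lit 0x4040810000, nat_lit 1, nat_lit 71⟩ = true := by decide +kernel

theorem k_5_4_58 : ck_5_4 ⟨nat_lit 0x386080c000, nat_lit 1, nat_lit 72⟩ = true := by decide +kernel

theorem k_5_4_59 : ck_5_4 ⟨nat_lit 0x3060c08000, nat_lit 1, nat_lit 73⟩ = true := by decide +kernel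

/-- sources 0 to 59 -/
noncomputable def c_5_4_0 : List IE := [⟨nat_lit 0xa000000000, nat_lit 1, nat_lit 0⟩,
  ⟨nat_lit 0x9020000000, nat_lit 1, nat_lit 1⟩,
  ⟨nat_lit 0x8830000000, nat_lit 1, nat_lit 2⟩,
  ⟨nat_lit 0x8040000000, nat_lit 2, nat_lit 3⟩,
  ⟨nat_lit 0x8020400000, nat_lit 1, nat_lit 5⟩,
  ⟨nat_lit 0x7850000000, nat_lit 1, nat_lit 6⟩,
  ⟨nat_lit 0x7840200000, nat_lit 1, nat_lit 7⟩,
  ⟨nat_lit 0x7830400000, nat_lit 1, nat_lit 8⟩,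
  ⟨nat_lit 0x7060000000, nat_lit 2, nat_lit 9⟩,
  ⟨nat_lit 0x7050200000, nat_lit 1, nat_lit 11⟩,
  ⟨nat_lit 0x7040400000, nat_lit 2, nat_lit 12⟩,
  ⟨nat_lit 0x7020408000, nat_lit 1, nat_lit 14⟩,
  ⟨nat_lit 0x6870000000, nat_lit 1, nat_lit 15⟩,
  ⟨nat_lit 0x6860200000, nat_lit 2, nat_lit 16⟩,
  ⟨nat_lit 0x6850400000, nat_lit 2, nat_lit 18⟩,
  ⟨nat_lit 0x6840600000, nat_lit 1, nat_lit 20⟩,
  ⟨nat_lit 0x6840404000, nat_lit 1, nat_lit 21⟩,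
  ⟨nat_lit 0x6080000000, nat_lit 2, nat_lit 22⟩,
  ⟨nat_lit 0x6070200000, nat_lit 1, nat_lit 24⟩,
  ⟨nat_lit 0x6060400000, nat_lit 3, nat_lit 25⟩,
  ⟨nat_lit 0x6050600000, nat_lit 1, nat_lit 28⟩,
  ⟨nat_lit 0x6050404000, nat_lit 1, nat_lit 29⟩,
  ⟨nat_lit 0x6040800000, nat_lit 2, nat_lit 30⟩,
  ⟨nat_lit 0x6040408000, nat_lit 1, nat_lit 32⟩,
  ⟨nat_lit 0x5880200000, nat_lit 1, nat_lit 33⟩,
  ⟨nat_lit 0x5870400000, nat_lit 2, nat_lit 34⟩,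
  ⟨nat_lit 0x5870204000, nat_lit 1, nat_lit 36⟩,
  ⟨nat_lit 0x5860600000, nat_lit 2, nat_lit 37⟩,
  ⟨nat_lit 0x5860404000, nat_lit 1, nat_lit 39⟩,
  ⟨nat_lit 0x5850800000, nat_lit 1, nat_lit 40⟩,
  ⟨nat_lit 0x5850604000, nat_lit 1, nat_lit 41⟩,
  ⟨nat_lit 0x5850408000, nat_lit 1, nat_lit 42⟩,
  ⟨nat_lit 0x5840804000, nat_lit 1, nat_lit 43⟩,
  ⟨nat_lit 0x50a0000000, nat_lit 1, nat_lit 44⟩,
  ⟨nat_lit 0x5090200000, nat_lit 1, nat_lit 45⟩,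
  ⟨nat_lit 0x5080400000, nat_lit 2, nat_lit 46⟩,
  ⟨nat_lit 0x5070600000, nat_lit 1, nat_lit 48⟩,
  ⟨nat_lit 0x5070404000, nat_lit 1, nat_lit 49⟩,
  ⟨nat_lit 0x5060800000, nat_lit 3, nat_lit 50⟩,
  ⟨nat_lit 0x5060604000, nat_lit 1, nat_lit 53⟩,
  ⟨nat_lit 0x5060408000, nat_lit 1, nat_lit 54⟩,
  ⟨nat_lit 0x5050804000, nat_lit 1, nat_lit 55⟩,
  ⟨nat_lit 0x5040808000, nat_lit 1, nat_lit 56⟩,
  ⟨nat_lit 0x4880600000, nat_lit 1, nat_lit 57⟩,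
  ⟨nat_lit 0x4880404000, nat_lit 1, nat_lit 58⟩,
  ⟨nat_lit 0x4870800000, nat_lit 1, nat_lit 59⟩,
  ⟨nat_lit 0x4870604000, nat_lit 1, nat_lit 60⟩,
  ⟨nat_lit 0x4860a00000, nat_lit 1, nat_lit 61⟩,
  ⟨nat_lit 0x4860804000, nat_lit 1, nat_lit 62⟩,
  ⟨nat_lit 0x4860608000, nat_lit 1, nat_lit 63⟩,
  ⟨nat_lit 0x4850808000, nat_lit 1, nat_lit 64⟩,
  ⟨nat_lit 0x4080800000, nat_lit 1, nat_lit 65⟩,
  ⟨nat_lit 0x4080408000, nat_lit 1, nat_lit 66⟩,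
  ⟨nat_lit 0x4070804000, nat_lit 1, nat_lit 67⟩,
  ⟨nat_lit 0x4060c00000, nat_lit 1, nat_lit 68⟩,
  ⟨nat_lit 0x4060a04000, nat_lit 1, nat_lit 69⟩,
  ⟨nat_lit 0x4060808000, nat_lit 1, nat_lit 70⟩,
  ⟨nat_lit 0x4040810000, nat_lit 1, nat_lit 71⟩,
  ⟨nat_lit 0x386080c000, nat_lit 1, nat_lit 72⟩,
  ⟨nat_lit 0x3060c08000, nat_lit 1, nat_lit 73⟩]

theorem C_5_4_0 : allL ck_5_4 c_5_4_0 = true :=
  (allL_cons k_5_4_0 (allL_cons k_5_4_1 (allL_cons k_5_4_2 (allL_cons k_5_4_3 (allL_cons k_5_4_4 (allL_cons k_5_4_5 (allL_cons k_5_4_6 (allL_cons k_5_4_7 (allL_cons k_5_4_8 (allL_cons k_5_4_9 (allL_cons k_5_4_10 (allL_cons k_5_4_11 (allL_cons k_5_4_12 (allL_cons k_5_4_13 (allL_cons k_5_4_14 (allL_cons k_5_4_15 (allL_cons k_5_4_16 (allL_cons k_5_4_17 (allL_cons k_5_4_18 (allL_cons k_5_4_19 (allL_cons k_5_4_20 (allL_cons k_5_4_21 (allL_cons k_5_4_22 (allL_cons k_5_4_23 (allL_cons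 k_5_4_24 (allL_cons k_5_4_25 (allL_cons k_5_4_26 (allL_cons k_5_4_27 (allL_cons k_5_4_28 (allL_cons k_5_4_29 (allL_cons k_5_4_30 (allL_cons k_5_4_31 (allL_cons k_5_4_32 (allL_cons k_5_4_33 (allL_cons k_5_4_34 (allL_cons k_5_4_35 (allL_cons k_5_4_36 (allL_cons k_5_4_37 (allL_cons k_5_4_38 (allL_cons k_5_4_39 (allL_cons k_5_4_40 (allL_cons k_5_4_41 (allL_cons k_5_4_42 (allL_cons k_5_4_43 (allL_cons k_5_4_44 (allL_cons k_5_4_45 (allL_cons k_5_4_46 (allL_cons k_5_4_47 (allL_cons k_5_4_48 (allL_cons k_5_4_49 (allL_cons k_5_4_50 (allL_cons k_5_4_51 (allL_cons k_5_4_52 (allL_cons k_5_4_53 (allL_cons k_5_4_54 (allL_cons k_5_4_55 (allL_cons k_5_4_56 (allL_cons k_5_4_57 (allL_cons k_5_4_58 (allL_cons k_5_4_59 (allL_nil _)))))))))))))))))))))))))))))))))))))))))))))))))))))))))))))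

end Crest.Agent.R187.SN.KC
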