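import Crest.Agent.R187.SN.KC.Def

/-!
# Row 187, PLAN S, block E2: sources 0 to 40 of level (5, 5) (generated)
-/

set_option autoImplicit false
set_option maxRecDepth 100000
set_option Elab.async false

namespace Crest.Agent.R187.SN.KC

open Crest.Agent.R187.SN Crest.Agent.R187.SN.Spec Crest.Agent.R187.SN.Kern
open Crest.Agent.R187.SN.KKey Crest.Agent.R187.SN.KD Crest.Agent.R187.SN.KE
open Crest.Agent.R187.SN.KRel Crest.Agent.R187.SN.KDec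

theorem k_5_5_0 : ck_5_5 ⟨nat_lit 0xc800000000, nat_lit 1, nat_lit 0⟩ = true := by decide +kernel

theorem k_5_5_1 : ck_5_5 ⟨nat_lit 0xb820000000, nat_lit 1, nat_lit 1⟩ = true := by decide +kernel

theorem k_5_5_2 : ck_5_5 ⟨nat_lit 0xb030000000, nat_lit 1, nat_lit 2⟩ = true := by decide +kernel

theorem k_5_5_3 : ck_5_5 ⟨nat_lit 0xa840000000, nat_lit 2, nat_lit 3⟩ = true := by decide +kernel

theorem k_5_5_4 : ck_5_5 ⟨nat_lit 0xa820400000, nat_lit 1, nat_lit 5⟩ = true := by decide +kernel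

theorem k_5_5_5 : ck_5_5 ⟨nat_lit 0xa050000000, nat_lit 2, nat_lit 6⟩ = true := by decide +kernel

theorem k_5_5_6 : ck_5_5 ⟨nat_lit 0xa040200000, nat_lit 1, nat_lit 8⟩ = true := by decide +kernel

theorem k_5_5_7 : ck_5_5 ⟨nat_lit 0xa030400000, nat_lit 1, nat_lit 9⟩ = true := by decide +kernel

theorem k_5_5_8 : ck_5_5 ⟨nat_lit 0x9860000000, nat_lit 2, nat_lit 10⟩ = true := by decide +kernel

theorem k_5_5_9 : ck_5_5 ⟨nat_lit 0x9850200000, nat_lit 1, nat_lit 12⟩ = true := by decide +kernel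

theorem k_5_5_10 : ck_5_5 ⟨nat_lit 0x9840400000, nat_lit 3, nat_lit 13⟩ = true := by decide +kernel

theorem k_5_5_11 : ck_5_5 ⟨nat_lit 0x9820408000, nat_lit 1, nat_lit 16⟩ = true := by decide +kernel

theorem k_5_5_12 : ck_5_5 ⟨nat_lit 0x9070000000, nat_lit 2, nat_lit 17⟩ = true := by decide +kernel

theorem k_5_5_13 : ck_5_5 ⟨nat_lit 0x9060200000, nat_lit 3, nat_lit 19⟩ = true := by decide +kernel

theorem k_5_5_14 : ck_5_5 ⟨nat_lit 0x9050400000, nat_lit 3, nat_lit 22⟩ = true := by decide +kernel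

theorem k_5_5_15 : ck_5_5 ⟨nat_lit 0x9040600000, nat_lit 2, nat_lit 25⟩ = true := by decide +kernel

theorem k_5_5_16 : ck_5_5 ⟨nat_lit 0x9040404000, nat_lit 1, nat_lit 27⟩ = true := by decide +kernel

theorem k_5_5_17 : ck_5_5 ⟨nat_lit 0x9030408000, nat_lit 1, nat_lit 28⟩ = true := by decide +kernel

theorem k_5_5_18 : ck_5_5 ⟨nat_lit 0x8880000000, nat_lit 3, nat_lit 29⟩ = true := by decide +kernel

theorem k_5_5_19 : ck_5_5 ⟨nat_lit 0x8870200000, nat_lit 2, nat_lit 32⟩ = true := by decide +kernel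

theorem k_5_5_20 : ck_5_5 ⟨nat_lit 0x8860400000, nat_lit 5, nat_lit 34⟩ = true := by decide +kernel

theorem k_5_5_21 : ck_5_5 ⟨nat_lit 0x8850600000, nat_lit 2, nat_lit 39⟩ = true := by decide +kernel

theorem k_5_5_22 : ck_5_5 ⟨nat_lit 0x8850404000, nat_lit 2, nat_lit 41⟩ = true := by decide +kernel

theorem k_5_5_23 : ck_5_5 ⟨nat_lit 0x8840800000, nat_lit 3, nat_lit 43⟩ = true := by decide +kernel

theorem k_5_5_24 : ck_5_5 ⟨nat_lit 0x8840604000, nat_lit 1, nat_lit 46⟩ = true := by decide +kernel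

theorem k_5_5_25 : ck_5_5 ⟨nat_lit 0x8840408000, nat_lit 2, nat_lit 47⟩ = true := by decide +kernel

theorem k_5_5_26 : ck_5_5 ⟨nat_lit 0x8820408100, nat_lit 1, nat_lit 49⟩ = true := by decide +kernel

theorem k_5_5_27 : ck_5_5 ⟨nat_lit 0x8090000000, nat_lit 2, nat_lit 50⟩ = true := by decide +kernel

theorem k_5_5_28 : ck_5_5 ⟨nat_lit 0x8080200000, nat_lit 3, nat_lit 52⟩ = true := by decide +kernel

theorem k_5_5_29 : ck_5_5 ⟨nat_lit 0x8070400000, nat_lit 5, nat_lit 55⟩ = true := by decide +kernel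

theorem k_5_5_30 : ck_5_5 ⟨nat_lit 0x8070204000, nat_lit 1, nat_lit 60⟩ = true := by decide +kernel

theorem k_5_5_31 : ck_5_5 ⟨nat_lit 0x8060600000, nat_lit 5, nat_lit 61⟩ = true := by decide +kernel

theorem k_5_5_32 : ck_5_5 ⟨nat_lit 0x8060404000, nat_lit 3, nat_lit 66⟩ = true := by decide +kernel

theorem k_5_5_33 : ck_5_5 ⟨nat_lit 0x8050800000, nat_lit 3, nat_lit 69⟩ = true := by decide +kernel

theorem k_5_5_34 : ck_5_5 ⟨nat_lit 0x8050604000, nat_lit 2, nat_lit 72⟩ = true := by decide +kernel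

theorem k_5_5_35 : ck_5_5 ⟨nat_lit 0x8050408000, nat_lit 3, nat_lit 74⟩ = true := by decide +kernel

theorem k_5_5_36 : ck_5_5 ⟨nat_lit 0x8040804000, nat_lit 2, nat_lit 77⟩ = true := by decide +kernel

theorem k_5_5_37 : ck_5_5 ⟨nat_lit 0x8040608000, nat_lit 1, nat_lit 79⟩ = true := by decide +kernel

theorem k_5_5_38 : ck_5_5 ⟨nat_lit 0x8040408080, nat_lit 1, nat_lit 80⟩ = true := by decide +kernel

theorem k_5_5_39 : ck_5_5 ⟨nat_lit 0x78a0000000, nat_lit 2, nat_lit 81⟩ = true := by decide +kernel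

theorem k_5_5_40 : ck_5_5 ⟨nat_lit 0x7890200000, nat_lit 2, nat_lit 83⟩ = true := by decide +kernel

/-- sources 0 to 40 -/
noncomputable def c_5_5_0 : List IE := [⟨nat_lit 0xc800000000, nat_lit 1, nat_lit 0⟩,
  ⟨nat_lit 0xb820000000, nat_lit 1, nat_lit 1⟩,
  ⟨nat_lit 0xb030000000, nat_lit 1, nat_lit 2⟩,
  ⟨nat_lit 0xa840000000, nat_lit 2, nat_lit 3⟩,
  ⟨nat_lit 0xa820400000, nat_lit 1, nat_lit 5⟩,
  ⟨nat_lit 0xa050000000, nat_lit 2, nat_lit 6⟩,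
  ⟨nat_lit 0xa040200000, nat_lit 1, nat_lit 8⟩,
  ⟨nat_lit 0xa030400000, nat_lit 1, nat_lit 9⟩,
  ⟨nat_lit 0x9860000000, nat_lit 2, nat_lit 10⟩,
  ⟨nat_lit 0x9850200000, nat_lit 1, nat_lit 12⟩,
  ⟨nat_lit 0x9840400000, nat_lit 3, nat_lit 13⟩,
  ⟨nat_lit 0x9820408000, nat_lit 1, nat_lit 16⟩,
  ⟨nat_lit 0x9070000000, nat_lit 2, nat_lit 17⟩,
  ⟨nat_lit 0x9060200000, nat_lit 3, nat_lit 19⟩,
  ⟨nat_lit 0x9050400000, nat_lit 3, nat_lit 22⟩,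
  ⟨nat_lit 0x9040600000, nat_lit 2, nat_lit 25⟩,
  ⟨nat_lit 0x9040404000, nat_lit 1, nat_lit 27⟩,
  ⟨nat_lit 0x9030408000, nat_lit 1, nat_lit 28⟩,
  ⟨nat_lit 0x8880000000, nat_lit 3, nat_lit 29⟩,
  ⟨nat_lit 0x8870200000, nat_lit 2, nat_lit 32⟩,
  ⟨nat_lit 0x8860400000, nat_lit 5, nat_lit 34⟩,
  ⟨nat_lit 0x8850600000, nat_lit 2, nat_lit 39⟩,
  ⟨nat_lit 0x8850404000, nat_lit 2, nat_lit 41⟩,
  ⟨nat_lit 0x8840800000, nat_lit 3, nat_lit 43⟩,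
  ⟨nat_lit 0x8840604000, nat_lit 1, nat_lit 46⟩,
  ⟨nat_lit 0x8840408000, nat_lit 2, nat_lit 47⟩,
  ⟨nat_lit 0x8820408100, nat_lit 1, nat_lit 49⟩,
  ⟨nat_lit 0x8090000000, nat_lit 2, nat_lit 50⟩,
  ⟨nat_lit 0x8080200000, nat_lit 3, nat_lit 52⟩,
  ⟨nat_lit 0x8070400000, nat_lit 5, nat_lit 55⟩,
  ⟨nat_lit 0x8070204000, nat_lit 1, nat_lit 60⟩,
  ⟨nat_lit 0x8060600000, nat_lit 5, nat_lit 61⟩,
  ⟨nat_lit 0x8060404000, nat_lit 3, nat_lit 66⟩,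
  ⟨nat_lit 0x8050800000, nat_lit 3, nat_lit 69⟩,
  ⟨nat_lit 0x8050604000, nat_lit 2, nat_lit 72⟩,
  ⟨nat_lit 0x8050408000, nat_lit 3, nat_lit 74⟩,
  ⟨nat_lit 0x8040804000, nat_lit 2, nat_lit 77⟩,
  ⟨nat_lit 0x8040608000, nat_lit 1, nat_lit 79⟩,
  ⟨nat_lit 0x8040408080, nat_lit 1, nat_lit 80⟩,
  ⟨nat_lit 0x78a0000000, nat_lit 2, nat_lit 81⟩,
  ⟨nat_lit 0x7890200000, nat_lit 2, nat_lit 83⟩]

theorem C_5_5_0 : allL ck_5_5 c_5_5_0 = true :=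
  (allL_cons k_5_5_0 (allL_cons k_5_5_1 (allL_cons k_5_5_2 (allL_cons k_5_5_3 (allL_cons k_5_5_4 (allL_cons k_5_5_5 (allL_cons k_5_5_6 (allL_cons k_5_5_7 (allL_cons k_5_5_8 (allL_cons k_5_5_9 (allL_cons k_5_5_10 (allL_cons k_5_5_11 (allL_cons k_5_5_12 (allL_cons k_5_5_13 (allL_cons k_5_5_14 (allL_cons k_5_5_15 (allL_cons k_5_5_16 (allL_cons k_5_5_17 (allL_cons k_5_5_18 (allL_cons k_5_5_19 (allL_cons k_5_5_20 (allL_cons k_5_5_21 (allL_cons k_5_5_22 (allL_cons k_5_5_23 (allL_cons k_5_5_24 (allL_cons k_5_5_25 (allL_cons k_5_5_26 (allL_cons k_5_5_27 (allL_cons k_5_5_28 (allL_cons k_5_5_29 (allL_cons k_5_5_30 (allL_cons k_5_5_31 (allL_cons k_5_5_32 (allL_cons k_5_5_33 (allL_cons k_5_5_34 (allL_cons k_5_5_35 (allL_cons k_5_5_36 (allL_cons k_5_5_37 (allL_cons k_5_5_38 (allL_cons k_5_5_39 (allL_cons k_5_5_40 (allL_nil _))))))))))))))))))))))))))))))))))))))))))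

end Crest.Agent.R187.SN.KC
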