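import Crest.Agent.R187.SN.KC.Def

/-!
# Row 187, PLAN S, block E2: sources 41 to 65 of level (5, 5) (generated)
-/

set_option autoImplicit false
set_option maxRecDepth 100000
set_option Elab.async false

namespace Crest.Agent.R187.SN.KC

open Crest.Agent.R187.SN Crest.Agent.R187.SN.Spec Crest.Agent.R187.SN.Kern
open Crest.Agent.R187.SN.KKey Crest.Agent.R187.SN.KD Crest.Agent.R187.SN.KE
open Crest.Agent.R187.SN.KRel Crest.Agent.R187.SN.KDec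

theorem k_5_5_41 : ck_5_5 ⟨nat_lit 0x7880400000, nat_lit 6, nat_lit 85⟩ = true := by decide +kernel

theorem k_5_5_42 : ck_5_5 ⟨nat_lit 0x7880204000, nat_lit 1, nat_lit 91⟩ = true := by decide +kernel

theorem k_5_5_43 : ck_5_5 ⟨nat_lit 0x7870600000, nat_lit 4, nat_lit 92⟩ = true := by decide +kernel

theorem k_5_5_44 : ck_5_5 ⟨nat_lit 0x7870404000, nat_lit 4, nat_lit 96⟩ = true := by decide +kernel

theorem k_5_5_45 : ck_5_5 ⟨nat_lit 0x7860800000, nat_lit 6, nat_lit 100⟩ = true := by decide +kernel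

theorem k_5_5_46 : ck_5_5 ⟨nat_lit 0x7860604000, nat_lit 4, nat_lit 106⟩ = true := by decide +kernel

theorem k_5_5_47 : ck_5_5 ⟨nat_lit 0x7860408000, nat_lit 4, nat_lit 110⟩ = true := by decide +kernel

theorem k_5_5_48 : ck_5_5 ⟨nat_lit 0x7850804000, nat_lit 3, nat_lit 114⟩ = true := by decide +kernel

theorem k_5_5_49 : ck_5_5 ⟨nat_lit 0x7850608000, nat_lit 2, nat_lit 117⟩ = true := by decide +kernel

theorem k_5_5_50 : ck_5_5 ⟨nat_lit 0x7850604080, nat_lit 1, nat_lit 119⟩ = true := by decide +kernel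

theorem k_5_5_51 : ck_5_5 ⟨nat_lit 0x7850408080, nat_lit 1, nat_lit 120⟩ = true := by decide +kernel

theorem k_5_5_52 : ck_5_5 ⟨nat_lit 0x7840808000, nat_lit 3, nat_lit 121⟩ = true := by decide +kernel

theorem k_5_5_53 : ck_5_5 ⟨nat_lit 0x7840408100, nat_lit 1, nat_lit 124⟩ = true := by decide +kernel

theorem k_5_5_54 : ck_5_5 ⟨nat_lit 0x70b0000000, nat_lit 1, nat_lit 125⟩ = true := by decide +kernel

theorem k_5_5_55 : ck_5_5 ⟨nat_lit 0x70a0200000, nat_lit 3, nat_lit 126⟩ = true := by decide +kernel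

theorem k_5_5_56 : ck_5_5 ⟨nat_lit 0x7090400000, nat_lit 5, nat_lit 129⟩ = true := by decide +kernel

theorem k_5_5_57 : ck_5_5 ⟨nat_lit 0x7090204000, nat_lit 1, nat_lit 134⟩ = true := by decide +kernel

theorem k_5_5_58 : ck_5_5 ⟨nat_lit 0x7080600000, nat_lit 6, nat_lit 135⟩ = true := by decide +kernel

theorem k_5_5_59 : ck_5_5 ⟨nat_lit 0x7080404000, nat_lit 4, nat_lit 141⟩ = true := by decide +kernel

theorem k_5_5_60 : ck_5_5 ⟨nat_lit 0x7070800000, nat_lit 6, nat_lit 145⟩ = true := by decide +kernel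

theorem k_5_5_61 : ck_5_5 ⟨nat_lit 0x7070604000, nat_lit 5, nat_lit 151⟩ = true := by decide +kernel

theorem k_5_5_62 : ck_5_5 ⟨nat_lit 0x7070408000, nat_lit 3, nat_lit 156⟩ = true := by decide +kernel

theorem k_5_5_63 : ck_5_5 ⟨nat_lit 0x7070404080, nat_lit 1, nat_lit 159⟩ = true := by decide +kernel

theorem k_5_5_64 : ck_5_5 ⟨nat_lit 0x7060a00000, nat_lit 4, nat_lit 160⟩ = true := by decide +kernel

theorem k_5_5_65 : ck_5_5 ⟨nat_lit 0x7060804000, nat_lit 6, nat_lit 164⟩ = true := by decide +kernel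

/-- sources 41 to 65 -/
noncomputable def c_5_5_1 : List IE := [⟨nat_lit 0x7880400000, nat_lit 6, nat_lit 85⟩,
  ⟨nat_lit 0x7880204000, nat_lit 1, nat_lit 91⟩,
  ⟨nat_lit 0x7870600000, nat_lit 4, nat_lit 92⟩,
  ⟨nat_lit 0x7870404000, nat_lit 4, nat_lit 96⟩,
  ⟨nat_lit 0x7860800000, nat_lit 6, nat_lit 100⟩,
  ⟨nat_lit 0x7860604000, nat_lit 4, nat_lit 106⟩,
  ⟨nat_lit 0x7860408000, nat_lit 4, nat_lit 110⟩,
  ⟨nat_lit 0x7850804000, nat_lit 3, nat_lit 114⟩,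
  ⟨nat_lit 0x7850608000, nat_lit 2, nat_lit 117⟩,
  ⟨nat_lit 0x7850604080, nat_lit 1, nat_lit 119⟩,
  ⟨nat_lit 0x7850408080, nat_lit 1, nat_lit 120⟩,
  ⟨nat_lit 0x7840808000, nat_lit 3, nat_lit 121⟩,
  ⟨nat_lit 0x7840408100, nat_lit 1, nat_lit 124⟩,
  ⟨nat_lit 0x70b0000000, nat_lit 1, nat_lit 125⟩,
  ⟨nat_lit 0x70a0200000, nat_lit 3, nat_lit 126⟩,
  ⟨nat_lit 0x7090400000, nat_lit 5, nat_lit 129⟩,
  ⟨nat_lit 0x7090204000, nat_lit 1, nat_lit 134⟩,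
  ⟨nat_lit 0x7080600000, nat_lit 6, nat_lit 135⟩,
  ⟨nat_lit 0x7080404000, nat_lit 4, nat_lit 141⟩,
  ⟨nat_lit 0x7070800000, nat_lit 6, nat_lit 145⟩,
  ⟨nat_lit 0x7070604000, nat_lit 5, nat_lit 151⟩,
  ⟨nat_lit 0x7070408000, nat_lit 3, nat_lit 156⟩,
  ⟨nat_lit 0x7070404080, nat_lit 1, nat_lit 159⟩,
  ⟨nat_lit 0x7060a00000, nat_lit 4, nat_lit 160⟩,
  ⟨nat_lit 0x7060804000, nat_lit 6, nat_lit 164⟩]

theorem C_5_5_1 : allL ck_5_5 c_5_5_1 = true :=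
  (allL_cons k_5_5_41 (allL_cons k_5_5_42 (allL_cons k_5_5_43 (allL_cons k_5_5_44 (allL_cons k_5_5_45 (allL_cons k_5_5_46 (allL_cons k_5_5_47 (allL_cons k_5_5_48 (allL_cons k_5_5_49 (allL_cons k_5_5_50 (allL_cons k_5_5_51 (allL_cons k_5_5_52 (allL_cons k_5_5_53 (allL_cons k_5_5_54 (allL_cons k_5_5_55 (allL_cons k_5_5_56 (allL_cons k_5_5_57 (allL_cons k_5_5_58 (allL_cons k_5_5_59 (allL_cons k_5_5_60 (allL_cons k_5_5_61 (allL_cons k_5_5_62 (allL_cons k_5_5_63 (allL_cons k_5_5_64 (allL_cons k_5_5_65 (allL_nil _))))))))))))))))))))))))))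

end Crest.Agent.R187.SN.KC
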