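import Crest.Agent.R187.SN.KC.Def

/-!
# Row 187, PLAN S, block E2: sources 66 to 90 of level (5, 5) (generated)
-/

set_option autoImplicit false
set_option maxRecDepth 100000
set_option Elab.async false

namespace Crest.Agent.R187.SN.KC

open Crest.Agent.R187.SN Crest.Agent.R187.SN.Spec Crest.Agent.R187.SN.Kern
open Crest.Agent.R187.SN.KKey Crest.Agent.R187.SN.KD Crest.Agent.R187.SN.KE
open Crest.Agent.R187.SN.KRel Crest.Agent.R187.SN.KDec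

theorem k_5_5_66 : ck_5_5 ⟨nat_lit 0x7060608000, nat_lit 4, nat_lit 170⟩ = true := by decide +kernel

theorem k_5_5_67 : ck_5_5 ⟨nat_lit 0x7060408080, nat_lit 2, nat_lit 174⟩ = true := by decide +kernel

theorem k_5_5_68 : ck_5_5 ⟨nat_lit 0x7050a04000, nat_lit 1, nat_lit 176⟩ = true := by decide +kernel

theorem k_5_5_69 : ck_5_5 ⟨nat_lit 0x7050808000, nat_lit 4, nat_lit 177⟩ = true := by decide +kernel

theorem k_5_5_70 : ck_5_5 ⟨nat_lit 0x7050804080, nat_lit 1, nat_lit 181⟩ = true := by decide +kernel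

theorem k_5_5_71 : ck_5_5 ⟨nat_lit 0x7050608080, nat_lit 1, nat_lit 182⟩ = true := by decide +kernel

theorem k_5_5_72 : ck_5_5 ⟨nat_lit 0x7050408100, nat_lit 1, nat_lit 183⟩ = true := by decide +kernel

theorem k_5_5_73 : ck_5_5 ⟨nat_lit 0x704080c000, nat_lit 1, nat_lit 184⟩ = true := by decide +kernel

theorem k_5_5_74 : ck_5_5 ⟨nat_lit 0x7040808080, nat_lit 1, nat_lit 185⟩ = true := by decide +kernel

theorem k_5_5_75 : ck_5_5 ⟨nat_lit 0x68c0000000, nat_lit 1, nat_lit 186⟩ = true := by decide +kernel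

theorem k_5_5_76 : ck_5_5 ⟨nat_lit 0x68b0200000, nat_lit 1, nat_lit 187⟩ = true := by decide +kernel

theorem k_5_5_77 : ck_5_5 ⟨nat_lit 0x68a0400000, nat_lit 4, nat_lit 188⟩ = true := by decide +kernel

theorem k_5_5_78 : ck_5_5 ⟨nat_lit 0x68a0204000, nat_lit 1, nat_lit 192⟩ = true := by decide +kernel

theorem k_5_5_79 : ck_5_5 ⟨nat_lit 0x6890600000, nat_lit 4, nat_lit 193⟩ = true := by decide +kernel

theorem k_5_5_80 : ck_5_5 ⟨nat_lit 0x6890404000, nat_lit 4, nat_lit 197⟩ = true := by decide +kernel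

theorem k_5_5_81 : ck_5_5 ⟨nat_lit 0x6880800000, nat_lit 7, nat_lit 201⟩ = true := by decide +kernel

theorem k_5_5_82 : ck_5_5 ⟨nat_lit 0x6880604000, nat_lit 5, nat_lit 208⟩ = true := by decide +kernel

theorem k_5_5_83 : ck_5_5 ⟨nat_lit 0x6880408000, nat_lit 5, nat_lit 213⟩ = true := by decide +kernel

theorem k_5_5_84 : ck_5_5 ⟨nat_lit 0x6880404080, nat_lit 1, nat_lit 218⟩ = true := by decide +kernel

theorem k_5_5_85 : ck_5_5 ⟨nat_lit 0x6870a00000, nat_lit 3, nat_lit 219⟩ = true := by decide +kernel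

theorem k_5_5_86 : ck_5_5 ⟨nat_lit 0x6870804000, nat_lit 7, nat_lit 222⟩ = true := by decide +kernel

theorem k_5_5_87 : ck_5_5 ⟨nat_lit 0x6870608000, nat_lit 4, nat_lit 229⟩ = true := by decide +kernel

theorem k_5_5_88 : ck_5_5 ⟨nat_lit 0x6870604080, nat_lit 2, nat_lit 233⟩ = true := by decide +kernel

theorem k_5_5_89 : ck_5_5 ⟨nat_lit 0x6860c00000, nat_lit 4, nat_lit 235⟩ = true := by decide +kernel

theorem k_5_5_90 : ck_5_5 ⟨nat_lit 0x6860a04000, nat_lit 4, nat_lit 239⟩ = true := by decide +kernel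

/-- sources 66 to 90 -/
noncomputable def c_5_5_2 : List IE := [⟨nat_lit 0x7060608000, nat_lit 4, nat_lit 170⟩,
  ⟨nat_lit 0x7060408080, nat_lit 2, nat_lit 174⟩,
  ⟨nat_lit 0x7050a04000, nat_lit 1, nat_lit 176⟩,
  ⟨nat_lit 0x7050808000, nat_lit 4, nat_lit 177⟩,
  ⟨nat_lit 0x7050804080, nat_lit 1, nat_lit 181⟩,
  ⟨nat_lit 0x7050608080, nat_lit 1, nat_lit 182⟩,
  ⟨nat_lit 0x7050408100, nat_lit 1, nat_lit 183⟩,
  ⟨nat_lit 0x704080c000, nat_lit 1, nat_lit 184⟩,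
  ⟨nat_lit 0x7040808080, nat_lit 1, nat_lit 185⟩,
  ⟨nat_lit 0x68c0000000, nat_lit 1, nat_lit 186⟩,
  ⟨nat_lit 0x68b0200000, nat_lit 1, nat_lit 187⟩,
  ⟨nat_lit 0x68a0400000, nat_lit 4, nat_lit 188⟩,
  ⟨nat_lit 0x68a0204000, nat_lit 1, nat_lit 192⟩,
  ⟨nat_lit 0x6890600000, nat_lit 4, nat_lit 193⟩,
  ⟨nat_lit 0x6890404000, nat_lit 4, nat_lit 197⟩,
  ⟨nat_lit 0x6880800000, nat_lit 7, nat_lit 201⟩,
  ⟨nat_lit 0x6880604000, nat_lit 5, nat_lit 208⟩,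
  ⟨nat_lit 0x6880408000, nat_lit 5, nat_lit 213⟩,
  ⟨nat_lit 0x6880404080, nat_lit 1, nat_lit 218⟩,
  ⟨nat_lit 0x6870a00000, nat_lit 3, nat_lit 219⟩,
  ⟨nat_lit 0x6870804000, nat_lit 7, nat_lit 222⟩,
  ⟨nat_lit 0x6870608000, nat_lit 4, nat_lit 229⟩,
  ⟨nat_lit 0x6870604080, nat_lit 2, nat_lit 233⟩,
  ⟨nat_lit 0x6860c00000, nat_lit 4, nat_lit 235⟩,
  ⟨nat_lit 0x6860a04000, nat_lit 4, nat_lit 239⟩]

theorem C_5_5_2 : allL ck_5_5 c_5_5_2 = true :=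
  (allL_cons k_5_5_66 (allL_cons k_5_5_67 (allL_cons k_5_5_68 (allL_cons k_5_5_69 (allL_cons k_5_5_70 (allL_cons k_5_5_71 (allL_cons k_5_5_72 (allL_cons k_5_5_73 (allL_cons k_5_5_74 (allL_cons k_5_5_75 (allL_cons k_5_5_76 (allL_cons k_5_5_77 (allL_cons k_5_5_78 (allL_cons k_5_5_79 (allL_cons k_5_5_80 (allL_cons k_5_5_81 (allL_cons k_5_5_82 (allL_cons k_5_5_83 (allL_cons k_5_5_84 (allL_cons k_5_5_85 (allL_cons k_5_5_86 (allL_cons k_5_5_87 (allL_cons k_5_5_88 (allL_cons k_5_5_89 (allL_cons k_5_5_90 (allL_nil _))))))))))))))))))))))))))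

end Crest.Agent.R187.SN.KC
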