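import Crest.Agent.R187.SN.KC.Def

/-!
# Row 187, PLAN S, block E2: sources 91 to 116 of level (5, 5) (generated)
-/

set_option autoImplicit false
set_option maxRecDepth 100000
set_option Elab.async false

namespace Crest.Agent.R187.SN.KC

open Crest.Agent.R187.SN Crest.Agent.R187.SN.Spec Crest.Agent.R187.SN.Kern
open Crest.Agent.R187.SN.KKey Crest.Agent.R187.SN.KD Crest.Agent.R187.SN.KE
open Crest.Agent.R187.SN.KRel Crest.Agent.R187.SN.KDec

theorem k_5_5_91 : ck_5_5 ⟨nat_lit 0x6860808000, nat_lit 7, nat_lit 243⟩ = true := by decide +kernel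

theorem k_5_5_92 : ck_5_5 ⟨nat_lit 0x6860804080, nat_lit 1, nat_lit 250⟩ = true := by decide +kernel

theorem k_5_5_93 : ck_5_5 ⟨nat_lit 0x686060c000, nat_lit 1, nat_lit 251⟩ = true := by decide +kernel

theorem k_5_5_94 : ck_5_5 ⟨nat_lit 0x6860608080, nat_lit 2, nat_lit 252⟩ = true := by decide +kernel

theorem k_5_5_95 : ck_5_5 ⟨nat_lit 0x6860408100, nat_lit 1, nat_lit 254⟩ = true := by decide +kernel

theorem k_5_5_96 : ck_5_5 ⟨nat_lit 0x6850a08000, nat_lit 1, nat_lit 255⟩ = true := by decide +kernel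

theorem k_5_5_97 : ck_5_5 ⟨nat_lit 0x6850a04080, nat_lit 1, nat_lit 256⟩ = true := by decide +kernel

theorem k_5_5_98 : ck_5_5 ⟨nat_lit 0x685080c000, nat_lit 2, nat_lit 257⟩ = true := by decide +kernel

theorem k_5_5_99 : ck_5_5 ⟨nat_lit 0x6850808080, nat_lit 2, nat_lit 259⟩ = true := by decide +kernel

theorem k_5_5_100 : ck_5_5 ⟨nat_lit 0x6840810000, nat_lit 2, nat_lit 261⟩ = true := by decide +kernel

theorem k_5_5_101 : ck_5_5 ⟨nat_lit 0x6840808100, nat_lit 1, nat_lit 263⟩ = true := by decide +kernel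

theorem k_5_5_102 : ck_5_5 ⟨nat_lit 0x60c0200000, nat_lit 1, nat_lit 264⟩ = true := by decide +kernel

theorem k_5_5_103 : ck_5_5 ⟨nat_lit 0x60b0400000, nat_lit 2, nat_lit 265⟩ = true := by decide +kernel

theorem k_5_5_104 : ck_5_5 ⟨nat_lit 0x60a0600000, nat_lit 4, nat_lit 267⟩ = true := by decide +kernel

theorem k_5_5_105 : ck_5_5 ⟨nat_lit 0x60a0404000, nat_lit 3, nat_lit 271⟩ = true := by decide +kernel

theorem k_5_5_106 : ck_5_5 ⟨nat_lit 0x6090800000, nat_lit 5, nat_lit 274⟩ = true := by decide +kernel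

theorem k_5_5_107 : ck_5_5 ⟨nat_lit 0x6090604000, nat_lit 4, nat_lit 279⟩ = true := by decide +kernel

theorem k_5_5_108 : ck_5_5 ⟨nat_lit 0x6090408000, nat_lit 3, nat_lit 283⟩ = true := by decide +kernel

theorem k_5_5_109 : ck_5_5 ⟨nat_lit 0x6090404080, nat_lit 1, nat_lit 286⟩ = true := by decide +kernel

theorem k_5_5_110 : ck_5_5 ⟨nat_lit 0x6080a00000, nat_lit 5, nat_lit 287⟩ = true := by decide +kernel

theorem k_5_5_111 : ck_5_5 ⟨nat_lit 0x6080804000, nat_lit 7, nat_lit 292⟩ = true := by decide +kernel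

theorem k_5_5_112 : ck_5_5 ⟨nat_lit 0x6080608000, nat_lit 5, nat_lit 299⟩ = true := by decide +kernel

theorem k_5_5_113 : ck_5_5 ⟨nat_lit 0x6080604080, nat_lit 1, nat_lit 304⟩ = true := by decide +kernel

theorem k_5_5_114 : ck_5_5 ⟨nat_lit 0x6080408080, nat_lit 2, nat_lit 305⟩ = true := by decide +kernel

theorem k_5_5_115 : ck_5_5 ⟨nat_lit 0x6070c00000, nat_lit 3, nat_lit 307⟩ = true := by decide +kernel

theorem k_5_5_116 : ck_5_5 ⟨nat_lit 0x6070a04000, nat_lit 5, nat_lit 310⟩ = true := by decide +kernel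

/-- sources 91 to 116 -/
noncomputable def c_5_5_3 : List IE := [⟨nat_lit 0x6860808000, nat_lit 7, nat_lit 243⟩,
  ⟨nat_lit 0x6860804080, nat_lit 1, nat_lit 250⟩,
  ⟨nat_lit 0x686060c000, nat_lit 1, nat_lit 251⟩,
  ⟨nat_lit 0x6860608080, nat_lit 2, nat_lit 252⟩,
  ⟨nat_lit 0x6860408100, nat_lit 1, nat_lit 254⟩,
  ⟨nat_lit 0x6850a08000, nat_lit 1, nat_lit 255⟩,
  ⟨nat_lit 0x6850a04080, nat_lit 1, nat_lit 256⟩,
  ⟨nat_lit 0x685080c000, nat_lit 2, nat_lit 257⟩,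
  ⟨nat_lit 0x6850808080, nat_lit 2, nat_lit 259⟩,
  ⟨nat_lit 0x6840810000, nat_lit 2, nat_lit 261⟩,
  ⟨nat_lit 0x6840808100, nat_lit 1, nat_lit 263⟩,
  ⟨nat_lit 0x60c0200000, nat_lit 1, nat_lit 264⟩,
  ⟨nat_lit 0x60b0400000, nat_lit 2, nat_lit 265⟩,
  ⟨nat_lit 0x60a0600000, nat_lit 4, nat_lit 267⟩,
  ⟨nat_lit 0x60a0404000, nat_lit 3, nat_lit 271⟩,
  ⟨nat_lit 0x6090800000, nat_lit 5, nat_lit 274⟩,
  ⟨nat_lit 0x6090604000, nat_lit 4, nat_lit 279⟩,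
  ⟨nat_lit 0x6090408000, nat_lit 3, nat_lit 283⟩,
  ⟨nat_lit 0x6090404080, nat_lit 1, nat_lit 286⟩,
  ⟨nat_lit 0x6080a00000, nat_lit 5, nat_lit 287⟩,
  ⟨nat_lit 0x6080804000, nat_lit 7, nat_lit 292⟩,
  ⟨nat_lit 0x6080608000, nat_lit 5, nat_lit 299⟩,
  ⟨nat_lit 0x6080604080, nat_lit 1, nat_lit 304⟩,
  ⟨nat_lit 0x6080408080, nat_lit 2, nat_lit 305⟩,
  ⟨nat_lit 0x6070c00000, nat_lit 3, nat_lit 307⟩,
  ⟨nat_lit 0x6070a04000, nat_lit 5, nat_lit 310⟩]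

theorem C_5_5_3 : allL ck_5_5 c_5_5_3 = true :=
  (allL_cons k_5_5_91 (allL_cons k_5_5_92 (allL_cons k_5_5_93 (allL_cons k_5_5_94 (allL_cons k_5_5_95 (allL_cons k_5_5_96 (allL_cons k_5_5_97 (allL_cons k_5_5_98 (allL_cons k_5_5_99 (allL_cons k_5_5_100 (allL_cons k_5_5_101 (allL_cons k_5_5_102 (allL_cons k_5_5_103 (allL_cons k_5_5_104 (allL_cons k_5_5_105 (allL_cons k_5_5_106 (allL_cons k_5_5_107 (allL_cons k_5_5_108 (allL_cons k_5_5_109 (allL_cons k_5_5_110 (allL_cons k_5_5_111 (allL_cons k_5_5_112 (allL_cons k_5_5_113 (allL_cons k_5_5_114 (allL_cons k_5_5_115 (allL_cons k_5_5_116 (allL_nil _)))))))))))))))))))))))))))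

end Crest.Agent.R187.SN.KC
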