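import Crest.Agent.R187.SN.KC.Def

/-!
# Row 187, PLAN S, block E2: sources 117 to 142 of level (5, 5) (generated)
-/

set_option autoImplicit false
set_option maxRecDepth 100000
set_option Elab.async false

namespace Crest.Agent.R187.SN.KC

open Crest.Agent.R187.SN Crest.Agent.R187.SN.Spec Crest.Agent.R187.SN.Kern
open Crest.Agent.R187.SN.KKey Crest.Agent.R187.SN.KD Crest.Agent.R187.SN.KE
open Crest.Agent.R187.SN.KRel Crest.Agent.R187.SN.KDec

theorem k_5_5_117 : ck_5_5 ⟨nat_lit 0x6070808000, nat_lit 7, nat_lit 315⟩ = true := by decide +kernel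

theorem k_5_5_118 : ck_5_5 ⟨nat_lit 0x6070804080, nat_lit 2, nat_lit 322⟩ = true := by decide +kernel

theorem k_5_5_119 : ck_5_5 ⟨nat_lit 0x607060c000, nat_lit 1, nat_lit 324⟩ = true := by decide +kernel

theorem k_5_5_120 : ck_5_5 ⟨nat_lit 0x6070608080, nat_lit 1, nat_lit 325⟩ = true := by decide +kernel

theorem k_5_5_121 : ck_5_5 ⟨nat_lit 0x6070408100, nat_lit 1, nat_lit 326⟩ = true := by decide +kernel

theorem k_5_5_122 : ck_5_5 ⟨nat_lit 0x6060c04000, nat_lit 3, nat_lit 327⟩ = true := by decide +kernel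

theorem k_5_5_123 : ck_5_5 ⟨nat_lit 0x6060a08000, nat_lit 5, nat_lit 330⟩ = true := by decide +kernel

theorem k_5_5_124 : ck_5_5 ⟨nat_lit 0x6060a04080, nat_lit 1, nat_lit 335⟩ = true := by decide +kernel

theorem k_5_5_125 : ck_5_5 ⟨nat_lit 0x606080c000, nat_lit 4, nat_lit 336⟩ = true := by decide +kernel

theorem k_5_5_126 : ck_5_5 ⟨nat_lit 0x6060808080, nat_lit 3, nat_lit 340⟩ = true := by decide +kernel

theorem k_5_5_127 : ck_5_5 ⟨nat_lit 0x6050a08080, nat_lit 1, nat_lit 343⟩ = true := by decide +kernel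

theorem k_5_5_128 : ck_5_5 ⟨nat_lit 0x6050810000, nat_lit 2, nat_lit 344⟩ = true := by decide +kernel

theorem k_5_5_129 : ck_5_5 ⟨nat_lit 0x6050808100, nat_lit 1, nat_lit 346⟩ = true := by decide +kernel

theorem k_5_5_130 : ck_5_5 ⟨nat_lit 0x6040810080, nat_lit 1, nat_lit 347⟩ = true := by decide +kernel

theorem k_5_5_131 : ck_5_5 ⟨nat_lit 0x58b0404000, nat_lit 1, nat_lit 348⟩ = true := by decide +kernel

theorem k_5_5_132 : ck_5_5 ⟨nat_lit 0x58b0204080, nat_lit 1, nat_lit 349⟩ = true := by decide +kernel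

theorem k_5_5_133 : ck_5_5 ⟨nat_lit 0x58a0800000, nat_lit 3, nat_lit 350⟩ = true := by decide +kernel

theorem k_5_5_134 : ck_5_5 ⟨nat_lit 0x58a0604000, nat_lit 3, nat_lit 353⟩ = true := by decide +kernel

theorem k_5_5_135 : ck_5_5 ⟨nat_lit 0x58a0408000, nat_lit 2, nat_lit 356⟩ = true := by decide +kernel

theorem k_5_5_136 : ck_5_5 ⟨nat_lit 0x5890a00000, nat_lit 2, nat_lit 358⟩ = true := by decide +kernel

theorem k_5_5_137 : ck_5_5 ⟨nat_lit 0x5890804000, nat_lit 5, nat_lit 360⟩ = true := by decide +kernel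

theorem k_5_5_138 : ck_5_5 ⟨nat_lit 0x5890608000, nat_lit 3, nat_lit 365⟩ = true := by decide +kernel

theorem k_5_5_139 : ck_5_5 ⟨nat_lit 0x5890604080, nat_lit 2, nat_lit 368⟩ = true := by decide +kernel

theorem k_5_5_140 : ck_5_5 ⟨nat_lit 0x5890408080, nat_lit 1, nat_lit 370⟩ = true := by decide +kernel

theorem k_5_5_141 : ck_5_5 ⟨nat_lit 0x5880c00000, nat_lit 4, nat_lit 371⟩ = true := by decide +kernel

theorem k_5_5_142 : ck_5_5 ⟨nat_lit 0x5880a04000, nat_lit 5, nat_lit 375⟩ = true := by decide +kernel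

/-- sources 117 to 142 -/
noncomputable def c_5_5_4 : List IE := [⟨nat_lit 0x6070808000, nat_lit 7, nat_lit 315⟩,
  ⟨nat_lit 0x6070804080, nat_lit 2, nat_lit 322⟩,
  ⟨nat_lit 0x607060c000, nat_lit 1, nat_lit 324⟩,
  ⟨nat_lit 0x6070608080, nat_lit 1, nat_lit 325⟩,
  ⟨nat_lit 0x6070408100, nat_lit 1, nat_lit 326⟩,
  ⟨nat_lit 0x6060c04000, nat_lit 3, nat_lit 327⟩,
  ⟨nat_lit 0x6060a08000, nat_lit 5, nat_lit 330⟩,
  ⟨nat_lit 0x6060a04080, nat_lit 1, nat_lit 335⟩,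
  ⟨nat_lit 0x606080c000, nat_lit 4, nat_lit 336⟩,
  ⟨nat_lit 0x6060808080, nat_lit 3, nat_lit 340⟩,
  ⟨nat_lit 0x6050a08080, nat_lit 1, nat_lit 343⟩,
  ⟨nat_lit 0x6050810000, nat_lit 2, nat_lit 344⟩,
  ⟨nat_lit 0x6050808100, nat_lit 1, nat_lit 346⟩,
  ⟨nat_lit 0x6040810080, nat_lit 1, nat_lit 347⟩,
  ⟨nat_lit 0x58b0404000, nat_lit 1, nat_lit 348⟩,
  ⟨nat_lit 0x58b0204080, nat_lit 1, nat_lit 349⟩,
  ⟨nat_lit 0x58a0800000, nat_lit 3, nat_lit 350⟩,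
  ⟨nat_lit 0x58a0604000, nat_lit 3, nat_lit 353⟩,
  ⟨nat_lit 0x58a0408000, nat_lit 2, nat_lit 356⟩,
  ⟨nat_lit 0x5890a00000, nat_lit 2, nat_lit 358⟩,
  ⟨nat_lit 0x5890804000, nat_lit 5, nat_lit 360⟩,
  ⟨nat_lit 0x5890608000, nat_lit 3, nat_lit 365⟩,
  ⟨nat_lit 0x5890604080, nat_lit 2, nat_lit 368⟩,
  ⟨nat_lit 0x5890408080, nat_lit 1, nat_lit 370⟩,
  ⟨nat_lit 0x5880c00000, nat_lit 4, nat_lit 371⟩,
  ⟨nat_lit 0x5880a04000, nat_lit 5, nat_lit 375⟩]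

theorem C_5_5_4 : allL ck_5_5 c_5_5_4 = true :=
  (allL_cons k_5_5_117 (allL_cons k_5_5_118 (allL_cons k_5_5_119 (allL_cons k_5_5_120 (allL_cons k_5_5_121 (allL_cons k_5_5_122 (allL_cons k_5_5_123 (allL_cons k_5_5_124 (allL_cons k_5_5_125 (allL_cons k_5_5_126 (allL_cons k_5_5_127 (allL_cons k_5_5_128 (allL_cons k_5_5_129 (allL_cons k_5_5_130 (allL_cons k_5_5_131 (allL_cons k_5_5_132 (allL_cons k_5_5_133 (allL_cons k_5_5_134 (allL_cons k_5_5_135 (allL_cons k_5_5_136 (allL_cons k_5_5_137 (allL_cons k_5_5_138 (allL_cons k_5_5_139 (allL_cons k_5_5_140 (allL_cons k_5_5_141 (allL_cons k_5_5_142 (allL_nil _)))))))))))))))))))))))))))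

end Crest.Agent.R187.SN.KC
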