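import Crest.Agent.R187.SN.KC.Def

/-!
# Row 187, PLAN S, block E2: sources 143 to 168 of level (5, 5) (generated)
-/

set_option autoImplicit false
set_option maxRecDepth 100000
set_option Elab.async false

namespace Crest.Agent.R187.SN.KC

open Crest.Agent.R187.SN Crest.Agent.R187.SN.Spec Crest.Agent.R187.SN.Kern
open Crest.Agent.R187.SN.KKey Crest.Agent.R187.SN.KD Crest.Agent.R187.SN.KE
open Crest.Agent.R187.SN.KRel Crest.Agent.R187.SN.KDec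

theorem k_5_5_143 : ck_5_5 ⟨nat_lit 0x5880808000, nat_lit 7, nat_lit 380⟩ = true := by decide +kernel

theorem k_5_5_144 : ck_5_5 ⟨nat_lit 0x5880804080, nat_lit 2, nat_lit 387⟩ = true := by decide +kernel

theorem k_5_5_145 : ck_5_5 ⟨nat_lit 0x588060c000, nat_lit 1, nat_lit 389⟩ = true := by decide +kernel

theorem k_5_5_146 : ck_5_5 ⟨nat_lit 0x5880608080, nat_lit 2, nat_lit 390⟩ = true := by decide +kernel

theorem k_5_5_147 : ck_5_5 ⟨nat_lit 0x5880408100, nat_lit 1, nat_lit 392⟩ = true := by decide +kernel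

theorem k_5_5_148 : ck_5_5 ⟨nat_lit 0x5870c04000, nat_lit 4, nat_lit 393⟩ = true := by decide +kernel

theorem k_5_5_149 : ck_5_5 ⟨nat_lit 0x5870a08000, nat_lit 4, nat_lit 397⟩ = true := by decide +kernel

theorem k_5_5_150 : ck_5_5 ⟨nat_lit 0x5870a04080, nat_lit 3, nat_lit 401⟩ = true := by decide +kernel

theorem k_5_5_151 : ck_5_5 ⟨nat_lit 0x587080c000, nat_lit 4, nat_lit 404⟩ = true := by decide +kernel

theorem k_5_5_152 : ck_5_5 ⟨nat_lit 0x5870808080, nat_lit 3, nat_lit 408⟩ = true := by decide +kernel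

theorem k_5_5_153 : ck_5_5 ⟨nat_lit 0x587060c080, nat_lit 1, nat_lit 411⟩ = true := by decide +kernel

theorem k_5_5_154 : ck_5_5 ⟨nat_lit 0x5860c08000, nat_lit 4, nat_lit 412⟩ = true := by decide +kernel

theorem k_5_5_155 : ck_5_5 ⟨nat_lit 0x5860a0c000, nat_lit 3, nat_lit 416⟩ = true := by decide +kernel

theorem k_5_5_156 : ck_5_5 ⟨nat_lit 0x5860a08080, nat_lit 2, nat_lit 419⟩ = true := by decide +kernel

theorem k_5_5_157 : ck_5_5 ⟨nat_lit 0x5860810000, nat_lit 3, nat_lit 421⟩ = true := by decide +kernel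

theorem k_5_5_158 : ck_5_5 ⟨nat_lit 0x586080c080, nat_lit 2, nat_lit 424⟩ = true := by decide +kernel

theorem k_5_5_159 : ck_5_5 ⟨nat_lit 0x5860808100, nat_lit 2, nat_lit 426⟩ = true := by decide +kernel

theorem k_5_5_160 : ck_5_5 ⟨nat_lit 0x5850a0c080, nat_lit 1, nat_lit 428⟩ = true := by decide +kernel

theorem k_5_5_161 : ck_5_5 ⟨nat_lit 0x5840810100, nat_lit 1, nat_lit 429⟩ = true := by decide +kernel

theorem k_5_5_162 : ck_5_5 ⟨nat_lit 0x50a0a00000, nat_lit 3, nat_lit 430⟩ = true := by decide +kernel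

theorem k_5_5_163 : ck_5_5 ⟨nat_lit 0x50a0804000, nat_lit 2, nat_lit 433⟩ = true := by decide +kernel

theorem k_5_5_164 : ck_5_5 ⟨nat_lit 0x50a0608000, nat_lit 1, nat_lit 435⟩ = true := by decide +kernel

theorem k_5_5_165 : ck_5_5 ⟨nat_lit 0x50a0408080, nat_lit 1, nat_lit 436⟩ = true := by decide +kernel

theorem k_5_5_166 : ck_5_5 ⟨nat_lit 0x5090c00000, nat_lit 2, nat_lit 437⟩ = true := by decide +kernel

theorem k_5_5_167 : ck_5_5 ⟨nat_lit 0x5090a04000, nat_lit 3, nat_lit 439⟩ = true := by decide +kernel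

theorem k_5_5_168 : ck_5_5 ⟨nat_lit 0x5090808000, nat_lit 4, nat_lit 442⟩ = true := by decide +kernel

/-- sources 143 to 168 -/
noncomputable def c_5_5_5 : List IE := [⟨nat_lit 0x5880808000, nat_lit 7, nat_lit 380⟩,
  ⟨nat_lit 0x5880804080, nat_lit 2, nat_lit 387⟩,
  ⟨nat_lit 0x588060c000, nat_lit 1, nat_lit 389⟩,
  ⟨nat_lit 0x5880608080, nat_lit 2, nat_lit 390⟩,
  ⟨nat_lit 0x5880408100, nat_lit 1, nat_lit 392⟩,
  ⟨nat_lit 0x5870c04000, nat_lit 4, nat_lit 393⟩,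
  ⟨nat_lit 0x5870a08000, nat_lit 4, nat_lit 397⟩,
  ⟨nat_lit 0x5870a04080, nat_lit 3, nat_lit 401⟩,
  ⟨nat_lit 0x587080c000, nat_lit 4, nat_lit 404⟩,
  ⟨nat_lit 0x5870808080, nat_lit 3, nat_lit 408⟩,
  ⟨nat_lit 0x587060c080, nat_lit 1, nat_lit 411⟩,
  ⟨nat_lit 0x5860c08000, nat_lit 4, nat_lit 412⟩,
  ⟨nat_lit 0x5860a0c000, nat_lit 3, nat_lit 416⟩,
  ⟨nat_lit 0x5860a08080, nat_lit 2, nat_lit 419⟩,
  ⟨nat_lit 0x5860810000, nat_lit 3, nat_lit 421⟩,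
  ⟨nat_lit 0x586080c080, nat_lit 2, nat_lit 424⟩,
  ⟨nat_lit 0x5860808100, nat_lit 2, nat_lit 426⟩,
  ⟨nat_lit 0x5850a0c080, nat_lit 1, nat_lit 428⟩,
  ⟨nat_lit 0x5840810100, nat_lit 1, nat_lit 429⟩,
  ⟨nat_lit 0x50a0a00000, nat_lit 3, nat_lit 430⟩,
  ⟨nat_lit 0x50a0804000, nat_lit 2, nat_lit 433⟩,
  ⟨nat_lit 0x50a0608000, nat_lit 1, nat_lit 435⟩,
  ⟨nat_lit 0x50a0408080, nat_lit 1, nat_lit 436⟩,
  ⟨nat_lit 0x5090c00000, nat_lit 2, nat_lit 437⟩,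
  ⟨nat_lit 0x5090a04000, nat_lit 3, nat_lit 439⟩,
  ⟨nat_lit 0x5090808000, nat_lit 4, nat_lit 442⟩]

theorem C_5_5_5 : allL ck_5_5 c_5_5_5 = true :=
  (allL_cons k_5_5_143 (allL_cons k_5_5_144 (allL_cons k_5_5_145 (allL_cons k_5_5_146 (allL_cons k_5_5_147 (allL_cons k_5_5_148 (allL_cons k_5_5_149 (allL_cons k_5_5_150 (allL_cons k_5_5_151 (allL_cons k_5_5_152 (allL_cons k_5_5_153 (allL_cons k_5_5_154 (allL_cons k_5_5_155 (allL_cons k_5_5_156 (allL_cons k_5_5_157 (allL_cons k_5_5_158 (allL_cons k_5_5_159 (allL_cons k_5_5_160 (allL_cons k_5_5_161 (allL_cons k_5_5_162 (allL_cons k_5_5_163 (allL_cons k_5_5_164 (allL_cons k_5_5_165 (allL_cons k_5_5_166 (allL_cons k_5_5_167 (allL_cons k_5_5_168 (allL_nil _)))))))))))))))))))))))))))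

end Crest.Agent.R187.SN.KC
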