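import Crest.Agent.R187.SN.KC.Def

/-!
# Row 187, PLAN S, block E2: sources 169 to 202 of level (5, 5) (generated)
-/

set_option autoImplicit false
set_option maxRecDepth 100000
set_option Elab.async false

namespace Crest.Agent.R187.SN.KC

open Crest.Agent.R187.SN Crest.Agent.R187.SN.Spec Crest.Agent.R187.SN.Kern
open Crest.Agent.R187.SN.KKey Crest.Agent.R187.SN.KD Crest.Agent.R187.SN.KE
open Crest.Agent.R187.SN.KRel Crest.Agent.R187.SN.KDec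

theorem k_5_5_169 : ck_5_5 ⟨nat_lit 0x5090804080, nat_lit 1, nat_lit 446⟩ = true := by decide +kernel

theorem k_5_5_170 : ck_5_5 ⟨nat_lit 0x509060c000, nat_lit 1, nat_lit 447⟩ = true := by decide +kernel

theorem k_5_5_171 : ck_5_5 ⟨nat_lit 0x5090608080, nat_lit 1, nat_lit 448⟩ = true := by decide +kernel

theorem k_5_5_172 : ck_5_5 ⟨nat_lit 0x5080e00000, nat_lit 1, nat_lit 449⟩ = true := by decide +kernel

theorem k_5_5_173 : ck_5_5 ⟨nat_lit 0x5080c04000, nat_lit 4, nat_lit 450⟩ = true := by decide +kernel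

theorem k_5_5_174 : ck_5_5 ⟨nat_lit 0x5080a08000, nat_lit 5, nat_lit 454⟩ = true := by decide +kernel

theorem k_5_5_175 : ck_5_5 ⟨nat_lit 0x5080a04080, nat_lit 1, nat_lit 459⟩ = true := by decide +kernel

theorem k_5_5_176 : ck_5_5 ⟨nat_lit 0x508080c000, nat_lit 3, nat_lit 460⟩ = true := by decide +kernel

theorem k_5_5_177 : ck_5_5 ⟨nat_lit 0x5080808080, nat_lit 2, nat_lit 463⟩ = true := by decide +kernel

theorem k_5_5_178 : ck_5_5 ⟨nat_lit 0x5080608100, nat_lit 1, nat_lit 465⟩ = true := by decide +kernel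

theorem k_5_5_179 : ck_5_5 ⟨nat_lit 0x5070e04000, nat_lit 1, nat_lit 466⟩ = true := by decide +kernel

theorem k_5_5_180 : ck_5_5 ⟨nat_lit 0x5070c08000, nat_lit 3, nat_lit 467⟩ = true := by decide +kernel

theorem k_5_5_181 : ck_5_5 ⟨nat_lit 0x5070c04080, nat_lit 1, nat_lit 470⟩ = true := by decide +kernel

theorem k_5_5_182 : ck_5_5 ⟨nat_lit 0x5070a0c000, nat_lit 3, nat_lit 471⟩ = true := by decide +kernel

theorem k_5_5_183 : ck_5_5 ⟨nat_lit 0x5070a08080, nat_lit 2, nat_lit 474⟩ = true := by decide +kernel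

theorem k_5_5_184 : ck_5_5 ⟨nat_lit 0x5070810000, nat_lit 3, nat_lit 476⟩ = true := by decide +kernel

theorem k_5_5_185 : ck_5_5 ⟨nat_lit 0x507080c080, nat_lit 2, nat_lit 479⟩ = true := by decide +kernel

theorem k_5_5_186 : ck_5_5 ⟨nat_lit 0x5070808100, nat_lit 1, nat_lit 481⟩ = true := by decide +kernel

theorem k_5_5_187 : ck_5_5 ⟨nat_lit 0x5060c0c000, nat_lit 3, nat_lit 482⟩ = true := by decide +kernel

theorem k_5_5_188 : ck_5_5 ⟨nat_lit 0x5060c08080, nat_lit 2, nat_lit 485⟩ = true := by decide +kernel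

theorem k_5_5_189 : ck_5_5 ⟨nat_lit 0x5060a10000, nat_lit 2, nat_lit 487⟩ = true := by decide +kernel

theorem k_5_5_190 : ck_5_5 ⟨nat_lit 0x5060a0c080, nat_lit 1, nat_lit 489⟩ = true := by decide +kernel

theorem k_5_5_191 : ck_5_5 ⟨nat_lit 0x5060a08100, nat_lit 1, nat_lit 490⟩ = true := by decide +kernel

theorem k_5_5_192 : ck_5_5 ⟨nat_lit 0x5060810080, nat_lit 2, nat_lit 491⟩ = true := by decide +kernel

theorem k_5_5_193 : ck_5_5 ⟨nat_lit 0x506080c100, nat_lit 1, nat_lit 493⟩ = true := by decide +kernel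

theorem k_5_5_194 : ck_5_5 ⟨nat_lit 0x5050810100, nat_lit 1, nat_lit 494⟩ = true := by decide +kernel

theorem k_5_5_195 : ck_5_5 ⟨nat_lit 0x4890c04000, nat_lit 1, nat_lit 495⟩ = true := by decide +kernel

theorem k_5_5_196 : ck_5_5 ⟨nat_lit 0x4890a08000, nat_lit 1, nat_lit 496⟩ = true := by decide +kernel

theorem k_5_5_197 : ck_5_5 ⟨nat_lit 0x4890a04080, nat_lit 1, nat_lit 497⟩ = true := by decide +kernel

theorem k_5_5_198 : ck_5_5 ⟨nat_lit 0x489080c000, nat_lit 1, nat_lit 498⟩ = true := by decide +kernel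

theorem k_5_5_199 : ck_5_5 ⟨nat_lit 0x4890808080, nat_lit 1, nat_lit 499⟩ = true := by decide +kernel

theorem k_5_5_200 : ck_5_5 ⟨nat_lit 0x489060c080, nat_lit 1, nat_lit 500⟩ = true := by decide +kernel

theorem k_5_5_201 : ck_5_5 ⟨nat_lit 0x4881000000, nat_lit 1, nat_lit 501⟩ = true := by decide +kernel

theorem k_5_5_202 : ck_5_5 ⟨nat_lit 0x4880e04000, nat_lit 1, nat_lit 502⟩ = true := by decide +kernel

/-- sources 169 to 202 -/
noncomputable def c_5_5_6 : List IE := [⟨nat_lit 0x5090804080, nat_lit 1, nat_lit 446⟩,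
  ⟨nat_lit 0x509060c000, nat_lit 1, nat_lit 447⟩,
  ⟨nat_lit 0x5090608080, nat_lit 1, nat_lit 448⟩,
  ⟨nat_lit 0x5080e00000, nat_lit 1, nat_lit 449⟩,
  ⟨nat_lit 0x5080c04000, nat_lit 4, nat_lit 450⟩,
  ⟨nat_lit 0x5080a08000, nat_lit 5, nat_lit 454⟩,
  ⟨nat_lit 0x5080a04080, nat_lit 1, nat_lit 459⟩,
  ⟨nat_lit 0x508080c000, nat_lit 3, nat_lit 460⟩,
  ⟨nat_lit 0x5080808080, nat_lit 2, nat_lit 463⟩,
  ⟨nat_lit 0x5080608100, nat_lit 1, nat_lit 465⟩,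
  ⟨nat_lit 0x5070e04000, nat_lit 1, nat_lit 466⟩,
  ⟨nat_lit 0x5070c08000, nat_lit 3, nat_lit 467⟩,
  ⟨nat_lit 0x5070c04080, nat_lit 1, nat_lit 470⟩,
  ⟨nat_lit 0x5070a0c000, nat_lit 3, nat_lit 471⟩,
  ⟨nat_lit 0x5070a08080, nat_lit 2, nat_lit 474⟩,
  ⟨nat_lit 0x5070810000, nat_lit 3, nat_lit 476⟩,
  ⟨nat_lit 0x507080c080, nat_lit 2, nat_lit 479⟩,
  ⟨nat_lit 0x5070808100, nat_lit 1, nat_lit 481⟩,
  ⟨nat_lit 0x5060c0c000, nat_lit 3, nat_lit 482⟩,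
  ⟨nat_lit 0x5060c08080, nat_lit 2, nat_lit 485⟩,
  ⟨nat_lit 0x5060a10000, nat_lit 2, nat_lit 487⟩,
  ⟨nat_lit 0x5060a0c080, nat_lit 1, nat_lit 489⟩,
  ⟨nat_lit 0x5060a08100, nat_lit 1, nat_lit 490⟩,
  ⟨nat_lit 0x5060810080, nat_lit 2, nat_lit 491⟩,
  ⟨nat_lit 0x506080c100, nat_lit 1, nat_lit 493⟩,
  ⟨nat_lit 0x5050810100, nat_lit 1, nat_lit 494⟩,
  ⟨nat_lit 0x4890c04000, nat_lit 1, nat_lit 495⟩,
  ⟨nat_lit 0x4890a08000, nat_lit 1, nat_lit 496⟩,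
  ⟨nat_lit 0x4890a04080, nat_lit 1, nat_lit 497⟩,
  ⟨nat_lit 0x489080c000, nat_lit 1, nat_lit 498⟩,
  ⟨nat_lit 0x4890808080, nat_lit 1, nat_lit 499⟩,
  ⟨nat_lit 0x489060c080, nat_lit 1, nat_lit 500⟩,
  ⟨nat_lit 0x4881000000, nat_lit 1, nat_lit 501⟩,
  ⟨nat_lit 0x4880e04000, nat_lit 1, nat_lit 502⟩]

theorem C_5_5_6 : allL ck_5_5 c_5_5_6 = true :=
  (allL_cons k_5_5_169 (allL_cons k_5_5_170 (allL_cons k_5_5_171 (allL_cons k_5_5_172 (allL_cons k_5_5_173 (allL_cons k_5_5_174 (allL_cons k_5_5_175 (allL_cons k_5_5_176 (allL_cons k_5_5_177 (allL_cons k_5_5_178 (allL_cons k_5_5_179 (allL_cons k_5_5_180 (allL_cons k_5_5_181 (allL_cons k_5_5_182 (allL_cons k_5_5_183 (allL_cons k_5_5_184 (allL_cons k_5_5_185 (allL_cons k_5_5_186 (allL_cons k_5_5_187 (allL_cons k_5_5_188 (allL_cons k_5_5_189 (allL_cons k_5_5_190 (allL_cons k_5_5_191 (allL_cons k_5_5_192 (allL_cons k_5_5_193 (allL_cons k_5_5_194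 (allL_cons k_5_5_195 (allL_cons k_5_5_196 (allL_cons k_5_5_197 (allL_cons k_5_5_198 (allL_cons k_5_5_199 (allL_cons k_5_5_200 (allL_cons k_5_5_201 (allL_cons k_5_5_202 (allL_nil _)))))))))))))))))))))))))))))))))))

end Crest.Agent.R187.SN.KC
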