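import Crest.Agent.R187.SN.KC.Def

/-!
# Row 187, PLAN S, block E2: sources 203 to 240 of level (5, 5) (generated)
-/

set_option autoImplicit false
set_option maxRecDepth 100000
set_option Elab.async false

namespace Crest.Agent.R187.SN.KC

open Crest.Agent.R187.SN Crest.Agent.R187.SN.Spec Crest.Agent.R187.SN.Kern
open Crest.Agent.R187.SN.KKey Crest.Agent.R187.SN.KD Crest.Agent.R187.SN.KE
open Crest.Agent.R187.SN.KRel Crest.Agent.R187.SN.KDec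

theorem k_5_5_203 : ck_5_5 ⟨nat_lit 0x4880c08000, nat_lit 3, nat_lit 503⟩ = true := by decide +kernel

theorem k_5_5_204 : ck_5_5 ⟨nat_lit 0x4880c04080, nat_lit 1, nat_lit 506⟩ = true := by decide +kernel

theorem k_5_5_205 : ck_5_5 ⟨nat_lit 0x4880a0c000, nat_lit 2, nat_lit 507⟩ = true := by decide +kernel

theorem k_5_5_206 : ck_5_5 ⟨nat_lit 0x4880a08080, nat_lit 2, nat_lit 509⟩ = true := by decide +kernel

theorem k_5_5_207 : ck_5_5 ⟨nat_lit 0x4880810000, nat_lit 2, nat_lit 511⟩ = true := by decide +kernel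

theorem k_5_5_208 : ck_5_5 ⟨nat_lit 0x488080c080, nat_lit 1, nat_lit 513⟩ = true := by decide +kernel

theorem k_5_5_209 : ck_5_5 ⟨nat_lit 0x4880808100, nat_lit 1, nat_lit 514⟩ = true := by decide +kernel

theorem k_5_5_210 : ck_5_5 ⟨nat_lit 0x4870e04080, nat_lit 1, nat_lit 515⟩ = true := by decide +kernel

theorem k_5_5_211 : ck_5_5 ⟨nat_lit 0x4870c0c000, nat_lit 1, nat_lit 516⟩ = true := by decide +kernel

theorem k_5_5_212 : ck_5_5 ⟨nat_lit 0x4870c08080, nat_lit 1, nat_lit 517⟩ = true := by decide +kernel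

theorem k_5_5_213 : ck_5_5 ⟨nat_lit 0x4870a10000, nat_lit 1, nat_lit 518⟩ = true := by decide +kernel

theorem k_5_5_214 : ck_5_5 ⟨nat_lit 0x4870a0c080, nat_lit 2, nat_lit 519⟩ = true := by decide +kernel

theorem k_5_5_215 : ck_5_5 ⟨nat_lit 0x4870810080, nat_lit 1, nat_lit 521⟩ = true := by decide +kernel

theorem k_5_5_216 : ck_5_5 ⟨nat_lit 0x487080c100, nat_lit 1, nat_lit 522⟩ = true := by decide +kernel

theorem k_5_5_217 : ck_5_5 ⟨nat_lit 0x4860c10000, nat_lit 2, nat_lit 523⟩ = true := by decide +kernel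

theorem k_5_5_218 : ck_5_5 ⟨nat_lit 0x4860c0c080, nat_lit 1, nat_lit 525⟩ = true := by decide +kernel

theorem k_5_5_219 : ck_5_5 ⟨nat_lit 0x4860c08100, nat_lit 1, nat_lit 526⟩ = true := by decide +kernel

theorem k_5_5_220 : ck_5_5 ⟨nat_lit 0x4860a10080, nat_lit 1, nat_lit 527⟩ = true := by decide +kernel

theorem k_5_5_221 : ck_5_5 ⟨nat_lit 0x4860a0c100, nat_lit 1, nat_lit 528⟩ = true := by decide +kernel

theorem k_5_5_222 : ck_5_5 ⟨nat_lit 0x4860810100, nat_lit 1, nat_lit 529⟩ = true := by decide +kernel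

theorem k_5_5_223 : ck_5_5 ⟨nat_lit 0x4840810200, nat_lit 1, nat_lit 530⟩ = true := by decide +kernel

theorem k_5_5_224 : ck_5_5 ⟨nat_lit 0x4080e08000, nat_lit 1, nat_lit 531⟩ = true := by decide +kernel

theorem k_5_5_225 : ck_5_5 ⟨nat_lit 0x4080c0c000, nat_lit 1, nat_lit 532⟩ = true := by decide +kernel

theorem k_5_5_226 : ck_5_5 ⟨nat_lit 0x4080c08080, nat_lit 1, nat_lit 533⟩ = true := by decide +kernel

theorem k_5_5_227 : ck_5_5 ⟨nat_lit 0x4080a10000, nat_lit 1, nat_lit 534⟩ = true := by decide +kernel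

theorem k_5_5_228 : ck_5_5 ⟨nat_lit 0x4080a08100, nat_lit 1, nat_lit 535⟩ = true := by decide +kernel

theorem k_5_5_229 : ck_5_5 ⟨nat_lit 0x4080810080, nat_lit 1, nat_lit 536⟩ = true := by decide +kernel

theorem k_5_5_230 : ck_5_5 ⟨nat_lit 0x4070c10000, nat_lit 1, nat_lit 537⟩ = true := by decide +kernel

theorem k_5_5_231 : ck_5_5 ⟨nat_lit 0x4070c0c080, nat_lit 1, nat_lit 538⟩ = true := by decide +kernel

theorem k_5_5_232 : ck_5_5 ⟨nat_lit 0x4070a10080, nat_lit 1, nat_lit 539⟩ = true := by decide +kernel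

theorem k_5_5_233 : ck_5_5 ⟨nat_lit 0x4070810100, nat_lit 1, nat_lit 540⟩ = true := by decide +kernel

theorem k_5_5_234 : ck_5_5 ⟨nat_lit 0x4060c14000, nat_lit 1, nat_lit 541⟩ = true := by decide +kernel

theorem k_5_5_235 : ck_5_5 ⟨nat_lit 0x4060c10080, nat_lit 1, nat_lit 542⟩ = true := by decide +kernel

theorem k_5_5_236 : ck_5_5 ⟨nat_lit 0x4060c0c100, nat_lit 1, nat_lit 543⟩ = true := by decide +kernel

theorem k_5_5_237 : ck_5_5 ⟨nat_lit 0x4060810180, nat_lit 1, nat_lit 544⟩ = true := by decide +kernel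

theorem k_5_5_238 : ck_5_5 ⟨nat_lit 0x3870a0c180, nat_lit 1, nat_lit 545⟩ = true := by decide +kernel

theorem k_5_5_239 : ck_5_5 ⟨nat_lit 0x3860c10100, nat_lit 1, nat_lit 546⟩ = true := by decide +kernel

theorem k_5_5_240 : ck_5_5 ⟨nat_lit 0x3060c18080, nat_lit 1, nat_lit 547⟩ = true := by decide +kernel

/-- sources 203 to 240 -/
noncomputable def c_5_5_7 : List IE := [⟨nat_lit 0x4880c08000, nat_lit 3, nat_lit 503⟩,
  ⟨nat_lit 0x4880c04080, nat_lit 1, nat_lit 506⟩,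
  ⟨nat_lit 0x4880a0c000, nat_lit 2, nat_lit 507⟩,
  ⟨nat_lit 0x4880a08080, nat_lit 2, nat_lit 509⟩,
  ⟨nat_lit 0x4880810000, nat_lit 2, nat_lit 511⟩,
  ⟨nat_lit 0x488080c080, nat_lit 1, nat_lit 513⟩,
  ⟨nat_lit 0x4880808100, nat_lit 1, nat_lit 514⟩,
  ⟨nat_lit 0x4870e04080, nat_lit 1, nat_lit 515⟩,
  ⟨nat_lit 0x4870c0c000, nat_lit 1, nat_lit 516⟩,
  ⟨nat_lit 0x4870c08080, nat_lit 1, nat_lit 517⟩,
  ⟨nat_lit 0x4870a10000, nat_lit 1, nat_lit 518⟩,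
  ⟨nat_lit 0x4870a0c080, nat_lit 2, nat_lit 519⟩,
  ⟨nat_lit 0x4870810080, nat_lit 1, nat_lit 521⟩,
  ⟨nat_lit 0x487080c100, nat_lit 1, nat_lit 522⟩,
  ⟨nat_lit 0x4860c10000, nat_lit 2, nat_lit 523⟩,
  ⟨nat_lit 0x4860c0c080, nat_lit 1, nat_lit 525⟩,
  ⟨nat_lit 0x4860c08100, nat_lit 1, nat_lit 526⟩,
  ⟨nat_lit 0x4860a10080, nat_lit 1, nat_lit 527⟩,
  ⟨nat_lit 0x4860a0c100, nat_lit 1, nat_lit 528⟩,
  ⟨nat_lit 0x4860810100, nat_lit 1, nat_lit 529⟩,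
  ⟨nat_lit 0x4840810200, nat_lit 1, nat_lit 530⟩,
  ⟨nat_lit 0x4080e08000, nat_lit 1, nat_lit 531⟩,
  ⟨nat_lit 0x4080c0c000, nat_lit 1, nat_lit 532⟩,
  ⟨nat_lit 0x4080c08080, nat_lit 1, nat_lit 533⟩,
  ⟨nat_lit 0x4080a10000, nat_lit 1, nat_lit 534⟩,
  ⟨nat_lit 0x4080a08100, nat_lit 1, nat_lit 535⟩,
  ⟨nat_lit 0x4080810080, nat_lit 1, nat_lit 536⟩,
  ⟨nat_lit 0x4070c10000, nat_lit 1, nat_lit 537⟩,
  ⟨nat_lit 0x4070c0c080, nat_lit 1, nat_lit 538⟩,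
  ⟨nat_lit 0x4070a10080, nat_lit 1, nat_lit 539⟩,
  ⟨nat_lit 0x4070810100, nat_lit 1, nat_lit 540⟩,
  ⟨nat_lit 0x4060c14000, nat_lit 1, nat_lit 541⟩,
  ⟨nat_lit 0x4060c10080, nat_lit 1, nat_lit 542⟩,
  ⟨nat_lit 0x4060c0c100, nat_lit 1, nat_lit 543⟩,
  ⟨nat_lit 0x4060810180, nat_lit 1, nat_lit 544⟩,
  ⟨nat_lit 0x3870a0c180, nat_lit 1, nat_lit 545⟩,
  ⟨nat_lit 0x3860c10100, nat_lit 1, nat_lit 546⟩,
  ⟨nat_lit 0x3060c18080, nat_lit 1, nat_lit 547⟩]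

theorem C_5_5_7 : allL ck_5_5 c_5_5_7 = true :=
  (allL_cons k_5_5_203 (allL_cons k_5_5_204 (allL_cons k_5_5_205 (allL_cons k_5_5_206 (allL_cons k_5_5_207 (allL_cons k_5_5_208 (allL_cons k_5_5_209 (allL_cons k_5_5_210 (allL_cons k_5_5_211 (allL_cons k_5_5_212 (allL_cons k_5_5_213 (allL_cons k_5_5_214 (allL_cons k_5_5_215 (allL_cons k_5_5_216 (allL_cons k_5_5_217 (allL_cons k_5_5_218 (allL_cons k_5_5_219 (allL_cons k_5_5_220 (allL_cons k_5_5_221 (allL_cons k_5_5_222 (allL_cons k_5_5_223 (allL_cons k_5_5_224 (allL_cons k_5_5_225 (allL_cons k_5_5_226 (allL_cons k_5_5_227 (allL_cons k_5_5_228 (allL_cons k_5_5_229 (allL_cons k_5_5_230 (allL_cons k_5_5_231 (allL_cons k_5_5_232 (allL_cons k_5_5_233 (allL_cons k_5_5_234 (allL_cons k_5_5_235 (allL_cons k_5_5_236 (allL_cons k_5_5_237 (allL_cons k_5_5_238 (allL_cons k_5_5_239 (allL_cons k_5_5_240 (allL_nil _)))))))))))))))))))))))))))))))))))))))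

end Crest.Agent.R187.SN.KC
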