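import Crest.Agent.R187.SN.KC.Def

/-!
# Row 187, PLAN S, block E2: sources 41 to 63 of level (5, 6) (generated)
-/

set_option autoImplicit false
set_option maxRecDepth 100000
set_option Elab.async false

namespace Crest.Agent.R187.SN.KC

open Crest.Agent.R187.SN Crest.Agent.R187.SN.Spec Crest.Agent.R187.SN.Kern
open Crest.Agent.R187.SN.KKey Crest.Agent.R187.SN.KD Crest.Agent.R187.SN.KE
open Crest.Agent.R187.SN.KRel Crest.Agent.R187.SN.KDec

theorem k_5_6_41 : ck_5_6 ⟨nat_lit 0xa080400000, nat_lit 9, nat_lit 97⟩ = true := by decide +kernel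

theorem k_5_6_42 : ck_5_6 ⟨nat_lit 0xa080204000, nat_lit 1, nat_lit 106⟩ = true := by decide +kernel

theorem k_5_6_43 : ck_5_6 ⟨nat_lit 0xa070600000, nat_lit 6, nat_lit 107⟩ = true := by decide +kernel

theorem k_5_6_44 : ck_5_6 ⟨nat_lit 0xa070404000, nat_lit 5, nat_lit 113⟩ = true := by decide +kernel

theorem k_5_6_45 : ck_5_6 ⟨nat_lit 0xa060800000, nat_lit 8, nat_lit 118⟩ = true := by decide +kernel

theorem k_5_6_46 : ck_5_6 ⟨nat_lit 0xa060604000, nat_lit 4, nat_lit 126⟩ = true := by decide +kernel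

theorem k_5_6_47 : ck_5_6 ⟨nat_lit 0xa060408000, nat_lit 5, nat_lit 130⟩ = true := by decide +kernel

theorem k_5_6_48 : ck_5_6 ⟨nat_lit 0xa050804000, nat_lit 3, nat_lit 135⟩ = true := by decide +kernel

theorem k_5_6_49 : ck_5_6 ⟨nat_lit 0xa050608000, nat_lit 2, nat_lit 138⟩ = true := by decide +kernel

theorem k_5_6_50 : ck_5_6 ⟨nat_lit 0xa050604080, nat_lit 1, nat_lit 140⟩ = true := by decide +kernel

theorem k_5_6_51 : ck_5_6 ⟨nat_lit 0xa050408080, nat_lit 1, nat_lit 141⟩ = true := by decide +kernel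

theorem k_5_6_52 : ck_5_6 ⟨nat_lit 0xa040808000, nat_lit 3, nat_lit 142⟩ = true := by decide +kernel

theorem k_5_6_53 : ck_5_6 ⟨nat_lit 0xa040408100, nat_lit 1, nat_lit 145⟩ = true := by decide +kernel

theorem k_5_6_54 : ck_5_6 ⟨nat_lit 0x98b0000000, nat_lit 2, nat_lit 146⟩ = true := by decide +kernel

theorem k_5_6_55 : ck_5_6 ⟨nat_lit 0x98a0200000, nat_lit 5, nat_lit 148⟩ = true := by decide +kernel

theorem k_5_6_56 : ck_5_6 ⟨nat_lit 0x9890400000, nat_lit 8, nat_lit 153⟩ = true := by decide +kernel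

theorem k_5_6_57 : ck_5_6 ⟨nat_lit 0x9890204000, nat_lit 2, nat_lit 161⟩ = true := by decide +kernel

theorem k_5_6_58 : ck_5_6 ⟨nat_lit 0x9880600000, nat_lit 9, nat_lit 163⟩ = true := by decide +kernel

theorem k_5_6_59 : ck_5_6 ⟨nat_lit 0x9880404000, nat_lit 6, nat_lit 172⟩ = true := by decide +kernel

theorem k_5_6_60 : ck_5_6 ⟨nat_lit 0x9870800000, nat_lit 8, nat_lit 178⟩ = true := by decide +kernel

theorem k_5_6_61 : ck_5_6 ⟨nat_lit 0x9870604000, nat_lit 7, nat_lit 186⟩ = true := by decide +kernel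

theorem k_5_6_62 : ck_5_6 ⟨nat_lit 0x9870408000, nat_lit 5, nat_lit 193⟩ = true := by decide +kernel

theorem k_5_6_63 : ck_5_6 ⟨nat_lit 0x9870404080, nat_lit 1, nat_lit 198⟩ = true := by decide +kernel

/-- sources 41 to 63 -/
noncomputable def c_5_6_1 : List IE := [⟨nat_lit 0xa080400000, nat_lit 9, nat_lit 97⟩,
  ⟨nat_lit 0xa080204000, nat_lit 1, nat_lit 106⟩,
  ⟨nat_lit 0xa070600000, nat_lit 6, nat_lit 107⟩,
  ⟨nat_lit 0xa070404000, nat_lit 5, nat_lit 113⟩,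
  ⟨nat_lit 0xa060800000, nat_lit 8, nat_lit 118⟩,
  ⟨nat_lit 0xa060604000, nat_lit 4, nat_lit 126⟩,
  ⟨nat_lit 0xa060408000, nat_lit 5, nat_lit 130⟩,
  ⟨nat_lit 0xa050804000, nat_lit 3, nat_lit 135⟩,
  ⟨nat_lit 0xa050608000, nat_lit 2, nat_lit 138⟩,
  ⟨nat_lit 0xa050604080, nat_lit 1, nat_lit 140⟩,
  ⟨nat_lit 0xa050408080, nat_lit 1, nat_lit 141⟩,
  ⟨nat_lit 0xa040808000, nat_lit 3, nat_lit 142⟩,
  ⟨nat_lit 0xa040408100, nat_lit 1, nat_lit 145⟩,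
  ⟨nat_lit 0x98b0000000, nat_lit 2, nat_lit 146⟩,
  ⟨nat_lit 0x98a0200000, nat_lit 5, nat_lit 148⟩,
  ⟨nat_lit 0x9890400000, nat_lit 8, nat_lit 153⟩,
  ⟨nat_lit 0x9890204000, nat_lit 2, nat_lit 161⟩,
  ⟨nat_lit 0x9880600000, nat_lit 9, nat_lit 163⟩,
  ⟨nat_lit 0x9880404000, nat_lit 6, nat_lit 172⟩,
  ⟨nat_lit 0x9870800000, nat_lit 8, nat_lit 178⟩,
  ⟨nat_lit 0x9870604000, nat_lit 7, nat_lit 186⟩,
  ⟨nat_lit 0x9870408000, nat_lit 5, nat_lit 193⟩,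
  ⟨nat_lit 0x9870404080, nat_lit 1, nat_lit 198⟩]

theorem C_5_6_1 : allL ck_5_6 c_5_6_1 = true :=
  (allL_cons k_5_6_41 (allL_cons k_5_6_42 (allL_cons k_5_6_43 (allL_cons k_5_6_44 (allL_cons k_5_6_45 (allL_cons k_5_6_46 (allL_cons k_5_6_47 (allL_cons k_5_6_48 (allL_cons k_5_6_49 (allL_cons k_5_6_50 (allL_cons k_5_6_51 (allL_cons k_5_6_52 (allL_cons k_5_6_53 (allL_cons k_5_6_54 (allL_cons k_5_6_55 (allL_cons k_5_6_56 (allL_cons k_5_6_57 (allL_cons k_5_6_58 (allL_cons k_5_6_59 (allL_cons k_5_6_60 (allL_cons k_5_6_61 (allL_cons k_5_6_62 (allL_cons k_5_6_63 (allL_nil _))))))))))))))))))))))))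

end Crest.Agent.R187.SN.KC
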