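import Crest.Agent.R187.SN.KC.Def

/-!
# Row 187, PLAN S, block E2: sources 209 to 231 of level (5, 6) (generated)
-/

set_option autoImplicit false
set_option maxRecDepth 100000
set_option Elab.async false

namespace Crest.Agent.R187.SN.KC

open Crest.Agent.R187.SN Crest.Agent.R187.SN.Spec Crest.Agent.R187.SN.Kern
open Crest.Agent.R187.SN.KKey Crest.Agent.R187.SN.KD Crest.Agent.R187.SN.KE
open Crest.Agent.R187.SN.KRel Crest.Agent.R187.SN.KDec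

theorem k_5_6_209 : ck_5_6 ⟨nat_lit 0x7870a08080, nat_lit 5, nat_lit 946⟩ = true := by decide +kernel

theorem k_5_6_210 : ck_5_6 ⟨nat_lit 0x7870810000, nat_lit 5, nat_lit 951⟩ = true := by decide +kernel

theorem k_5_6_211 : ck_5_6 ⟨nat_lit 0x787080c080, nat_lit 4, nat_lit 956⟩ = true := by decide +kernel

theorem k_5_6_212 : ck_5_6 ⟨nat_lit 0x7870808100, nat_lit 2, nat_lit 960⟩ = true := by decide +kernel

theorem k_5_6_213 : ck_5_6 ⟨nat_lit 0x7860c0c000, nat_lit 6, nat_lit 962⟩ = true := by decide +kernel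

theorem k_5_6_214 : ck_5_6 ⟨nat_lit 0x7860c08080, nat_lit 3, nat_lit 968⟩ = true := by decide +kernel

theorem k_5_6_215 : ck_5_6 ⟨nat_lit 0x7860a10000, nat_lit 3, nat_lit 971⟩ = true := by decide +kernel

theorem k_5_6_216 : ck_5_6 ⟨nat_lit 0x7860a0c080, nat_lit 2, nat_lit 974⟩ = true := by decide +kernel

theorem k_5_6_217 : ck_5_6 ⟨nat_lit 0x7860a08100, nat_lit 2, nat_lit 976⟩ = true := by decide +kernel

theorem k_5_6_218 : ck_5_6 ⟨nat_lit 0x7860810080, nat_lit 3, nat_lit 978⟩ = true := by decide +kernel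

theorem k_5_6_219 : ck_5_6 ⟨nat_lit 0x786080c100, nat_lit 1, nat_lit 981⟩ = true := by decide +kernel

theorem k_5_6_220 : ck_5_6 ⟨nat_lit 0x7850810100, nat_lit 1, nat_lit 982⟩ = true := by decide +kernel

theorem k_5_6_221 : ck_5_6 ⟨nat_lit 0x70e0400000, nat_lit 3, nat_lit 983⟩ = true := by decide +kernel

theorem k_5_6_222 : ck_5_6 ⟨nat_lit 0x70d0600000, nat_lit 3, nat_lit 986⟩ = true := by decide +kernel

theorem k_5_6_223 : ck_5_6 ⟨nat_lit 0x70d0404000, nat_lit 3, nat_lit 989⟩ = true := by decide +kernel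

theorem k_5_6_224 : ck_5_6 ⟨nat_lit 0x70c0800000, nat_lit 9, nat_lit 992⟩ = true := by decide +kernel

theorem k_5_6_225 : ck_5_6 ⟨nat_lit 0x70c0604000, nat_lit 5, nat_lit 1001⟩ = true := by decide +kernel

theorem k_5_6_226 : ck_5_6 ⟨nat_lit 0x70c0408000, nat_lit 5, nat_lit 1006⟩ = true := by decide +kernel

theorem k_5_6_227 : ck_5_6 ⟨nat_lit 0x70c0404080, nat_lit 1, nat_lit 1011⟩ = true := by decide +kernel

theorem k_5_6_228 : ck_5_6 ⟨nat_lit 0x70b0a00000, nat_lit 7, nat_lit 1012⟩ = true := by decide +kernel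

theorem k_5_6_229 : ck_5_6 ⟨nat_lit 0x70b0804000, nat_lit 11, nat_lit 1019⟩ = true := by decide +kernel

theorem k_5_6_230 : ck_5_6 ⟨nat_lit 0x70b0608000, nat_lit 7, nat_lit 1030⟩ = true := by decide +kernel

theorem k_5_6_231 : ck_5_6 ⟨nat_lit 0x70b0604080, nat_lit 3, nat_lit 1037⟩ = true := by decide +kernel

/-- sources 209 to 231 -/
noncomputable def c_5_6_10 : List IE := [⟨nat_lit 0x7870a08080, nat_lit 5, nat_lit 946⟩,
  ⟨nat_lit 0x7870810000, nat_lit 5, nat_lit 951⟩,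
  ⟨nat_lit 0x787080c080, nat_lit 4, nat_lit 956⟩,
  ⟨nat_lit 0x7870808100, nat_lit 2, nat_lit 960⟩,
  ⟨nat_lit 0x7860c0c000, nat_lit 6, nat_lit 962⟩,
  ⟨nat_lit 0x7860c08080, nat_lit 3, nat_lit 968⟩,
  ⟨nat_lit 0x7860a10000, nat_lit 3, nat_lit 971⟩,
  ⟨nat_lit 0x7860a0c080, nat_lit 2, nat_lit 974⟩,
  ⟨nat_lit 0x7860a08100, nat_lit 2, nat_lit 976⟩,
  ⟨nat_lit 0x7860810080, nat_lit 3, nat_lit 978⟩,
  ⟨nat_lit 0x786080c100, nat_lit 1, nat_lit 981⟩,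
  ⟨nat_lit 0x7850810100, nat_lit 1, nat_lit 982⟩,
  ⟨nat_lit 0x70e0400000, nat_lit 3, nat_lit 983⟩,
  ⟨nat_lit 0x70d0600000, nat_lit 3, nat_lit 986⟩,
  ⟨nat_lit 0x70d0404000, nat_lit 3, nat_lit 989⟩,
  ⟨nat_lit 0x70c0800000, nat_lit 9, nat_lit 992⟩,
  ⟨nat_lit 0x70c0604000, nat_lit 5, nat_lit 1001⟩,
  ⟨nat_lit 0x70c0408000, nat_lit 5, nat_lit 1006⟩,
  ⟨nat_lit 0x70c0404080, nat_lit 1, nat_lit 1011⟩,
  ⟨nat_lit 0x70b0a00000, nat_lit 7, nat_lit 1012⟩,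
  ⟨nat_lit 0x70b0804000, nat_lit 11, nat_lit 1019⟩,
  ⟨nat_lit 0x70b0608000, nat_lit 7, nat_lit 1030⟩,
  ⟨nat_lit 0x70b0604080, nat_lit 3, nat_lit 1037⟩]

theorem C_5_6_10 : allL ck_5_6 c_5_6_10 = true :=
  (allL_cons k_5_6_209 (allL_cons k_5_6_210 (allL_cons k_5_6_211 (allL_cons k_5_6_212 (allL_cons k_5_6_213 (allL_cons k_5_6_214 (allL_cons k_5_6_215 (allL_cons k_5_6_216 (allL_cons k_5_6_217 (allL_cons k_5_6_218 (allL_cons k_5_6_219 (allL_cons k_5_6_220 (allL_cons k_5_6_221 (allL_cons k_5_6_222 (allL_cons k_5_6_223 (allL_cons k_5_6_224 (allL_cons k_5_6_225 (allL_cons k_5_6_226 (allL_cons k_5_6_227 (allL_cons k_5_6_228 (allL_cons k_5_6_229 (allL_cons k_5_6_230 (allL_cons k_5_6_231 (allL_nil _))))))))))))))))))))))))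

end Crest.Agent.R187.SN.KC
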