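import Crest.Agent.R187.SN.KC.Def

/-!
# Row 187, PLAN S, block E2: sources 232 to 242 of level (5, 6) (generated)
-/

set_option autoImplicit false
set_option maxRecDepth 100000
set_option Elab.async false

namespace Crest.Agent.R187.SN.KC

open Crest.Agent.R187.SN Crest.Agent.R187.SN.Spec Crest.Agent.R187.SN.Kern
open Crest.Agent.R187.SN.KKey Crest.Agent.R187.SN.KD Crest.Agent.R187.SN.KE
open Crest.Agent.R187.SN.KRel Crest.Agent.R187.SN.KDec

theorem k_5_6_232 : ck_5_6 ⟨nat_lit 0x70b0408080, nat_lit 2, nat_lit 1040⟩ = true := by decide +kernel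

theorem k_5_6_233 : ck_5_6 ⟨nat_lit 0x70a0c00000, nat_lit 12, nat_lit 1042⟩ = true := by decide +kernel

theorem k_5_6_234 : ck_5_6 ⟨nat_lit 0x70a0a04000, nat_lit 13, nat_lit 1054⟩ = true := by decide +kernel

theorem k_5_6_235 : ck_5_6 ⟨nat_lit 0x70a0808000, nat_lit 15, nat_lit 1067⟩ = true := by decide +kernel

theorem k_5_6_236 : ck_5_6 ⟨nat_lit 0x70a0804080, nat_lit 3, nat_lit 1082⟩ = true := by decide +kernel

theorem k_5_6_237 : ck_5_6 ⟨nat_lit 0x70a060c000, nat_lit 2, nat_lit 1085⟩ = true := by decide +kernel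

theorem k_5_6_238 : ck_5_6 ⟨nat_lit 0x70a0608080, nat_lit 4, nat_lit 1087⟩ = true := by decide +kernel

theorem k_5_6_239 : ck_5_6 ⟨nat_lit 0x70a0408100, nat_lit 2, nat_lit 1091⟩ = true := by decide +kernel

theorem k_5_6_240 : ck_5_6 ⟨nat_lit 0x7090e00000, nat_lit 5, nat_lit 1093⟩ = true := by decide +kernel

theorem k_5_6_241 : ck_5_6 ⟨nat_lit 0x7090c04000, nat_lit 13, nat_lit 1098⟩ = true := by decide +kernel

theorem k_5_6_242 : ck_5_6 ⟨nat_lit 0x7090a08000, nat_lit 13, nat_lit 1111⟩ = true := by decide +kernel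

/-- sources 232 to 242 -/
noncomputable def c_5_6_11 : List IE := [⟨nat_lit 0x70b0408080, nat_lit 2, nat_lit 1040⟩,
  ⟨nat_lit 0x70a0c00000, nat_lit 12, nat_lit 1042⟩,
  ⟨nat_lit 0x70a0a04000, nat_lit 13, nat_lit 1054⟩,
  ⟨nat_lit 0x70a0808000, nat_lit 15, nat_lit 1067⟩,
  ⟨nat_lit 0x70a0804080, nat_lit 3, nat_lit 1082⟩,
  ⟨nat_lit 0x70a060c000, nat_lit 2, nat_lit 1085⟩,
  ⟨nat_lit 0x70a0608080, nat_lit 4, nat_lit 1087⟩,
  ⟨nat_lit 0x70a0408100, nat_lit 2, nat_lit 1091⟩,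
  ⟨nat_lit 0x7090e00000, nat_lit 5, nat_lit 1093⟩,
  ⟨nat_lit 0x7090c04000, nat_lit 13, nat_lit 1098⟩,
  ⟨nat_lit 0x7090a08000, nat_lit 13, nat_lit 1111⟩]

theorem C_5_6_11 : allL ck_5_6 c_5_6_11 = true :=
  (allL_cons k_5_6_232 (allL_cons k_5_6_233 (allL_cons k_5_6_234 (allL_cons k_5_6_235 (allL_cons k_5_6_236 (allL_cons k_5_6_237 (allL_cons k_5_6_238 (allL_cons k_5_6_239 (allL_cons k_5_6_240 (allL_cons k_5_6_241 (allL_cons k_5_6_242 (allL_nil _))))))))))))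

end Crest.Agent.R187.SN.KC
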