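import Crest.Agent.R187.SN.KC.Def

/-!
# Row 187, PLAN S, block E2: sources 243 to 254 of level (5, 6) (generated)
-/

set_option autoImplicit false
set_option maxRecDepth 100000
set_option Elab.async false

namespace Crest.Agent.R187.SN.KC

open Crest.Agent.R187.SN Crest.Agent.R187.SN.Spec Crest.Agent.R187.SN.Kern
open Crest.Agent.R187.SN.KKey Crest.Agent.R187.SN.KD Crest.Agent.R187.SN.KE
open Crest.Agent.R187.SN.KRel Crest.Agent.R187.SN.KDec

theorem k_5_6_243 : ck_5_6 ⟨nat_lit 0x7090a04080, nat_lit 5, nat_lit 1124⟩ = true := by decide +kernel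

theorem k_5_6_244 : ck_5_6 ⟨nat_lit 0x709080c000, nat_lit 9, nat_lit 1129⟩ = true := by decide +kernel

theorem k_5_6_245 : ck_5_6 ⟨nat_lit 0x7090808080, nat_lit 7, nat_lit 1138⟩ = true := by decide +kernel

theorem k_5_6_246 : ck_5_6 ⟨nat_lit 0x709060c080, nat_lit 2, nat_lit 1145⟩ = true := by decide +kernel

theorem k_5_6_247 : ck_5_6 ⟨nat_lit 0x7090608100, nat_lit 1, nat_lit 1147⟩ = true := by decide +kernel

theorem k_5_6_248 : ck_5_6 ⟨nat_lit 0x7081000000, nat_lit 5, nat_lit 1148⟩ = true := by decide +kernel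

theorem k_5_6_249 : ck_5_6 ⟨nat_lit 0x7080e04000, nat_lit 7, nat_lit 1153⟩ = true := by decide +kernel

theorem k_5_6_250 : ck_5_6 ⟨nat_lit 0x7080c08000, nat_lit 16, nat_lit 1160⟩ = true := by decide +kernel

theorem k_5_6_251 : ck_5_6 ⟨nat_lit 0x7080c04080, nat_lit 3, nat_lit 1176⟩ = true := by decide +kernel

theorem k_5_6_252 : ck_5_6 ⟨nat_lit 0x7080a0c000, nat_lit 9, nat_lit 1179⟩ = true := by decide +kernel

theorem k_5_6_253 : ck_5_6 ⟨nat_lit 0x7080a08080, nat_lit 7, nat_lit 1188⟩ = true := by decide +kernel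

theorem k_5_6_254 : ck_5_6 ⟨nat_lit 0x7080810000, nat_lit 8, nat_lit 1195⟩ = true := by decide +kernel

/-- sources 243 to 254 -/
noncomputable def c_5_6_12 : List IE := [⟨nat_lit 0x7090a04080, nat_lit 5, nat_lit 1124⟩,
  ⟨nat_lit 0x709080c000, nat_lit 9, nat_lit 1129⟩,
  ⟨nat_lit 0x7090808080, nat_lit 7, nat_lit 1138⟩,
  ⟨nat_lit 0x709060c080, nat_lit 2, nat_lit 1145⟩,
  ⟨nat_lit 0x7090608100, nat_lit 1, nat_lit 1147⟩,
  ⟨nat_lit 0x7081000000, nat_lit 5, nat_lit 1148⟩,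
  ⟨nat_lit 0x7080e04000, nat_lit 7, nat_lit 1153⟩,
  ⟨nat_lit 0x7080c08000, nat_lit 16, nat_lit 1160⟩,
  ⟨nat_lit 0x7080c04080, nat_lit 3, nat_lit 1176⟩,
  ⟨nat_lit 0x7080a0c000, nat_lit 9, nat_lit 1179⟩,
  ⟨nat_lit 0x7080a08080, nat_lit 7, nat_lit 1188⟩,
  ⟨nat_lit 0x7080810000, nat_lit 8, nat_lit 1195⟩]

theorem C_5_6_12 : allL ck_5_6 c_5_6_12 = true :=
  (allL_cons k_5_6_243 (allL_cons k_5_6_244 (allL_cons k_5_6_245 (allL_cons k_5_6_246 (allL_cons k_5_6_247 (allL_cons k_5_6_248 (allL_cons k_5_6_249 (allL_cons k_5_6_250 (allL_cons k_5_6_251 (allL_cons k_5_6_252 (allL_cons k_5_6_253 (allL_cons k_5_6_254 (allL_nil _)))))))))))))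

end Crest.Agent.R187.SN.KC
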