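import Crest.Agent.R187.SN.KC.Def

/-!
# Row 187, PLAN S, block E2: sources 255 to 279 of level (5, 6) (generated)
-/

set_option autoImplicit false
set_option maxRecDepth 100000
set_option Elab.async false

namespace Crest.Agent.R187.SN.KC

open Crest.Agent.R187.SN Crest.Agent.R187.SN.Spec Crest.Agent.R187.SN.Kern
open Crest.Agent.R187.SN.KKey Crest.Agent.R187.SN.KD Crest.Agent.R187.SN.KE
open Crest.Agent.R187.SN.KRel Crest.Agent.R187.SN.KDec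

theorem k_5_6_255 : ck_5_6 ⟨nat_lit 0x708080c080, nat_lit 4, nat_lit 1203⟩ = true := by decide +kernel

theorem k_5_6_256 : ck_5_6 ⟨nat_lit 0x7080808100, nat_lit 4, nat_lit 1207⟩ = true := by decide +kernel

theorem k_5_6_257 : ck_5_6 ⟨nat_lit 0x7070e08000, nat_lit 2, nat_lit 1211⟩ = true := by decide +kernel

theorem k_5_6_258 : ck_5_6 ⟨nat_lit 0x7070e04080, nat_lit 3, nat_lit 1213⟩ = true := by decide +kernel

theorem k_5_6_259 : ck_5_6 ⟨nat_lit 0x7070c0c000, nat_lit 8, nat_lit 1216⟩ = true := by decide +kernel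

theorem k_5_6_260 : ck_5_6 ⟨nat_lit 0x7070c08080, nat_lit 5, nat_lit 1224⟩ = true := by decide +kernel

theorem k_5_6_261 : ck_5_6 ⟨nat_lit 0x7070a10000, nat_lit 5, nat_lit 1229⟩ = true := by decide +kernel

theorem k_5_6_262 : ck_5_6 ⟨nat_lit 0x7070a0c080, nat_lit 4, nat_lit 1234⟩ = true := by decide +kernel

theorem k_5_6_263 : ck_5_6 ⟨nat_lit 0x7070a08100, nat_lit 1, nat_lit 1238⟩ = true := by decide +kernel

theorem k_5_6_264 : ck_5_6 ⟨nat_lit 0x7070810080, nat_lit 3, nat_lit 1239⟩ = true := by decide +kernel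

theorem k_5_6_265 : ck_5_6 ⟨nat_lit 0x707080c100, nat_lit 2, nat_lit 1242⟩ = true := by decide +kernel

theorem k_5_6_266 : ck_5_6 ⟨nat_lit 0x7060c10000, nat_lit 6, nat_lit 1244⟩ = true := by decide +kernel

theorem k_5_6_267 : ck_5_6 ⟨nat_lit 0x7060c0c080, nat_lit 2, nat_lit 1250⟩ = true := by decide +kernel

theorem k_5_6_268 : ck_5_6 ⟨nat_lit 0x7060c08100, nat_lit 3, nat_lit 1252⟩ = true := by decide +kernel

theorem k_5_6_269 : ck_5_6 ⟨nat_lit 0x7060a10080, nat_lit 2, nat_lit 1255⟩ = true := by decide +kernel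

theorem k_5_6_270 : ck_5_6 ⟨nat_lit 0x7060a0c100, nat_lit 1, nat_lit 1257⟩ = true := by decide +kernel

theorem k_5_6_271 : ck_5_6 ⟨nat_lit 0x7060810100, nat_lit 2, nat_lit 1258⟩ = true := by decide +kernel

theorem k_5_6_272 : ck_5_6 ⟨nat_lit 0x7040810200, nat_lit 1, nat_lit 1260⟩ = true := by decide +kernel

theorem k_5_6_273 : ck_5_6 ⟨nat_lit 0x68d0800000, nat_lit 1, nat_lit 1261⟩ = true := by decide +kernel

theorem k_5_6_274 : ck_5_6 ⟨nat_lit 0x68d0604000, nat_lit 3, nat_lit 1262⟩ = true := by decide +kernel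

theorem k_5_6_275 : ck_5_6 ⟨nat_lit 0x68d0404080, nat_lit 1, nat_lit 1265⟩ = true := by decide +kernel

theorem k_5_6_276 : ck_5_6 ⟨nat_lit 0x68c0a00000, nat_lit 5, nat_lit 1266⟩ = true := by decide +kernel

theorem k_5_6_277 : ck_5_6 ⟨nat_lit 0x68c0804000, nat_lit 6, nat_lit 1271⟩ = true := by decide +kernel

theorem k_5_6_278 : ck_5_6 ⟨nat_lit 0x68c0608000, nat_lit 4, nat_lit 1277⟩ = true := by decide +kernel

theorem k_5_6_279 : ck_5_6 ⟨nat_lit 0x68c0604080, nat_lit 1, nat_lit 1281⟩ = true := by decide +kernel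

/-- sources 255 to 279 -/
noncomputable def c_5_6_13 : List IE := [⟨nat_lit 0x708080c080, nat_lit 4, nat_lit 1203⟩,
  ⟨nat_lit 0x7080808100, nat_lit 4, nat_lit 1207⟩,
  ⟨nat_lit 0x7070e08000, nat_lit 2, nat_lit 1211⟩,
  ⟨nat_lit 0x7070e04080, nat_lit 3, nat_lit 1213⟩,
  ⟨nat_lit 0x7070c0c000, nat_lit 8, nat_lit 1216⟩,
  ⟨nat_lit 0x7070c08080, nat_lit 5, nat_lit 1224⟩,
  ⟨nat_lit 0x7070a10000, nat_lit 5, nat_lit 1229⟩,
  ⟨nat_lit 0x7070a0c080, nat_lit 4, nat_lit 1234⟩,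
  ⟨nat_lit 0x7070a08100, nat_lit 1, nat_lit 1238⟩,
  ⟨nat_lit 0x7070810080, nat_lit 3, nat_lit 1239⟩,
  ⟨nat_lit 0x707080c100, nat_lit 2, nat_lit 1242⟩,
  ⟨nat_lit 0x7060c10000, nat_lit 6, nat_lit 1244⟩,
  ⟨nat_lit 0x7060c0c080, nat_lit 2, nat_lit 1250⟩,
  ⟨nat_lit 0x7060c08100, nat_lit 3, nat_lit 1252⟩,
  ⟨nat_lit 0x7060a10080, nat_lit 2, nat_lit 1255⟩,
  ⟨nat_lit 0x7060a0c100, nat_lit 1, nat_lit 1257⟩,
  ⟨nat_lit 0x7060810100, nat_lit 2, nat_lit 1258⟩,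
  ⟨nat_lit 0x7040810200, nat_lit 1, nat_lit 1260⟩,
  ⟨nat_lit 0x68d0800000, nat_lit 1, nat_lit 1261⟩,
  ⟨nat_lit 0x68d0604000, nat_lit 3, nat_lit 1262⟩,
  ⟨nat_lit 0x68d0404080, nat_lit 1, nat_lit 1265⟩,
  ⟨nat_lit 0x68c0a00000, nat_lit 5, nat_lit 1266⟩,
  ⟨nat_lit 0x68c0804000, nat_lit 6, nat_lit 1271⟩,
  ⟨nat_lit 0x68c0608000, nat_lit 4, nat_lit 1277⟩,
  ⟨nat_lit 0x68c0604080, nat_lit 1, nat_lit 1281⟩]

theorem C_5_6_13 : allL ck_5_6 c_5_6_13 = true :=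
  (allL_cons k_5_6_255 (allL_cons k_5_6_256 (allL_cons k_5_6_257 (allL_cons k_5_6_258 (allL_cons k_5_6_259 (allL_cons k_5_6_260 (allL_cons k_5_6_261 (allL_cons k_5_6_262 (allL_cons k_5_6_263 (allL_cons k_5_6_264 (allL_cons k_5_6_265 (allL_cons k_5_6_266 (allL_cons k_5_6_267 (allL_cons k_5_6_268 (allL_cons k_5_6_269 (allL_cons k_5_6_270 (allL_cons k_5_6_271 (allL_cons k_5_6_272 (allL_cons k_5_6_273 (allL_cons k_5_6_274 (allL_cons k_5_6_275 (allL_cons k_5_6_276 (allL_cons k_5_6_277 (allL_cons k_5_6_278 (allL_cons k_5_6_279 (allL_nil _))))))))))))))))))))))))))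

end Crest.Agent.R187.SN.KC
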