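import Crest.Agent.R187.SN.KC.Def

/-!
# Row 187, PLAN S, block E2: sources 293 to 306 of level (5, 6) (generated)
-/

set_option autoImplicit false
set_option maxRecDepth 100000
set_option Elab.async false

namespace Crest.Agent.R187.SN.KC

open Crest.Agent.R187.SN Crest.Agent.R187.SN.Spec Crest.Agent.R187.SN.Kern
open Crest.Agent.R187.SN.KKey Crest.Agent.R187.SN.KD Crest.Agent.R187.SN.KE
open Crest.Agent.R187.SN.KRel Crest.Agent.R187.SN.KDec

theorem k_5_6_293 : ck_5_6 ⟨nat_lit 0x68a060c080, nat_lit 1, nat_lit 1363⟩ = true := by decide +kernel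

theorem k_5_6_294 : ck_5_6 ⟨nat_lit 0x68a0608100, nat_lit 1, nat_lit 1364⟩ = true := by decide +kernel

theorem k_5_6_295 : ck_5_6 ⟨nat_lit 0x6891000000, nat_lit 3, nat_lit 1365⟩ = true := by decide +kernel

theorem k_5_6_296 : ck_5_6 ⟨nat_lit 0x6890e04000, nat_lit 8, nat_lit 1368⟩ = true := by decide +kernel

theorem k_5_6_297 : ck_5_6 ⟨nat_lit 0x6890c08000, nat_lit 12, nat_lit 1376⟩ = true := by decide +kernel

theorem k_5_6_298 : ck_5_6 ⟨nat_lit 0x6890c04080, nat_lit 5, nat_lit 1388⟩ = true := by decide +kernel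

theorem k_5_6_299 : ck_5_6 ⟨nat_lit 0x6890a0c000, nat_lit 10, nat_lit 1393⟩ = true := by decide +kernel

theorem k_5_6_300 : ck_5_6 ⟨nat_lit 0x6890a08080, nat_lit 6, nat_lit 1403⟩ = true := by decide +kernel

theorem k_5_6_301 : ck_5_6 ⟨nat_lit 0x6890810000, nat_lit 5, nat_lit 1409⟩ = true := by decide +kernel

theorem k_5_6_302 : ck_5_6 ⟨nat_lit 0x689080c080, nat_lit 5, nat_lit 1414⟩ = true := by decide +kernel

theorem k_5_6_303 : ck_5_6 ⟨nat_lit 0x6890808100, nat_lit 2, nat_lit 1419⟩ = true := by decide +kernel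

theorem k_5_6_304 : ck_5_6 ⟨nat_lit 0x689060c100, nat_lit 1, nat_lit 1421⟩ = true := by decide +kernel

theorem k_5_6_305 : ck_5_6 ⟨nat_lit 0x6881004000, nat_lit 4, nat_lit 1422⟩ = true := by decide +kernel

theorem k_5_6_306 : ck_5_6 ⟨nat_lit 0x6880e08000, nat_lit 8, nat_lit 1426⟩ = true := by decide +kernel

/-- sources 293 to 306 -/
noncomputable def c_5_6_15 : List IE := [⟨nat_lit 0x68a060c080, nat_lit 1, nat_lit 1363⟩,
  ⟨nat_lit 0x68a0608100, nat_lit 1, nat_lit 1364⟩,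
  ⟨nat_lit 0x6891000000, nat_lit 3, nat_lit 1365⟩,
  ⟨nat_lit 0x6890e04000, nat_lit 8, nat_lit 1368⟩,
  ⟨nat_lit 0x6890c08000, nat_lit 12, nat_lit 1376⟩,
  ⟨nat_lit 0x6890c04080, nat_lit 5, nat_lit 1388⟩,
  ⟨nat_lit 0x6890a0c000, nat_lit 10, nat_lit 1393⟩,
  ⟨nat_lit 0x6890a08080, nat_lit 6, nat_lit 1403⟩,
  ⟨nat_lit 0x6890810000, nat_lit 5, nat_lit 1409⟩,
  ⟨nat_lit 0x689080c080, nat_lit 5, nat_lit 1414⟩,
  ⟨nat_lit 0x6890808100, nat_lit 2, nat_lit 1419⟩,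
  ⟨nat_lit 0x689060c100, nat_lit 1, nat_lit 1421⟩,
  ⟨nat_lit 0x6881004000, nat_lit 4, nat_lit 1422⟩,
  ⟨nat_lit 0x6880e08000, nat_lit 8, nat_lit 1426⟩]

theorem C_5_6_15 : allL ck_5_6 c_5_6_15 = true :=
  (allL_cons k_5_6_293 (allL_cons k_5_6_294 (allL_cons k_5_6_295 (allL_cons k_5_6_296 (allL_cons k_5_6_297 (allL_cons k_5_6_298 (allL_cons k_5_6_299 (allL_cons k_5_6_300 (allL_cons k_5_6_301 (allL_cons k_5_6_302 (allL_cons k_5_6_303 (allL_cons k_5_6_304 (allL_cons k_5_6_305 (allL_cons k_5_6_306 (allL_nil _)))))))))))))))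

end Crest.Agent.R187.SN.KC
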