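import Crest.Agent.R187.SN.KC.Def

/-!
# Row 187, PLAN S, block E2: sources 307 to 323 of level (5, 6) (generated)
-/

set_option autoImplicit false
set_option maxRecDepth 100000
set_option Elab.async false

namespace Crest.Agent.R187.SN.KC

open Crest.Agent.R187.SN Crest.Agent.R187.SN.Spec Crest.Agent.R187.SN.Kern
open Crest.Agent.R187.SN.KKey Crest.Agent.R187.SN.KD Crest.Agent.R187.SN.KE
open Crest.Agent.R187.SN.KRel Crest.Agent.R187.SN.KDec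

theorem k_5_6_307 : ck_5_6 ⟨nat_lit 0x6880e04080, nat_lit 3, nat_lit 1434⟩ = true := by decide +kernel

theorem k_5_6_308 : ck_5_6 ⟨nat_lit 0x6880c0c000, nat_lit 11, nat_lit 1437⟩ = true := by decide +kernel

theorem k_5_6_309 : ck_5_6 ⟨nat_lit 0x6880c08080, nat_lit 7, nat_lit 1448⟩ = true := by decide +kernel

theorem k_5_6_310 : ck_5_6 ⟨nat_lit 0x6880a10000, nat_lit 7, nat_lit 1455⟩ = true := by decide +kernel

theorem k_5_6_311 : ck_5_6 ⟨nat_lit 0x6880a0c080, nat_lit 5, nat_lit 1462⟩ = true := by decide +kernel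

theorem k_5_6_312 : ck_5_6 ⟨nat_lit 0x6880a08100, nat_lit 3, nat_lit 1467⟩ = true := by decide +kernel

theorem k_5_6_313 : ck_5_6 ⟨nat_lit 0x6880810080, nat_lit 4, nat_lit 1470⟩ = true := by decide +kernel

theorem k_5_6_314 : ck_5_6 ⟨nat_lit 0x688080c100, nat_lit 2, nat_lit 1474⟩ = true := by decide +kernel

theorem k_5_6_315 : ck_5_6 ⟨nat_lit 0x6870e0c000, nat_lit 3, nat_lit 1476⟩ = true := by decide +kernel

theorem k_5_6_316 : ck_5_6 ⟨nat_lit 0x6870e08080, nat_lit 1, nat_lit 1479⟩ = true := by decide +kernel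

theorem k_5_6_317 : ck_5_6 ⟨nat_lit 0x6870c10000, nat_lit 6, nat_lit 1480⟩ = true := by decide +kernel

theorem k_5_6_318 : ck_5_6 ⟨nat_lit 0x6870c0c080, nat_lit 5, nat_lit 1486⟩ = true := by decide +kernel

theorem k_5_6_319 : ck_5_6 ⟨nat_lit 0x6870c08100, nat_lit 1, nat_lit 1491⟩ = true := by decide +kernel

theorem k_5_6_320 : ck_5_6 ⟨nat_lit 0x6870a14000, nat_lit 1, nat_lit 1492⟩ = true := by decide +kernel

theorem k_5_6_321 : ck_5_6 ⟨nat_lit 0x6870a10080, nat_lit 3, nat_lit 1493⟩ = true := by decide +kernel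

theorem k_5_6_322 : ck_5_6 ⟨nat_lit 0x6870a0c100, nat_lit 2, nat_lit 1496⟩ = true := by decide +kernel

theorem k_5_6_323 : ck_5_6 ⟨nat_lit 0x6870810100, nat_lit 2, nat_lit 1498⟩ = true := by decide +kernel

/-- sources 307 to 323 -/
noncomputable def c_5_6_16 : List IE := [⟨nat_lit 0x6880e04080, nat_lit 3, nat_lit 1434⟩,
  ⟨nat_lit 0x6880c0c000, nat_lit 11, nat_lit 1437⟩,
  ⟨nat_lit 0x6880c08080, nat_lit 7, nat_lit 1448⟩,
  ⟨nat_lit 0x6880a10000, nat_lit 7, nat_lit 1455⟩,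
  ⟨nat_lit 0x6880a0c080, nat_lit 5, nat_lit 1462⟩,
  ⟨nat_lit 0x6880a08100, nat_lit 3, nat_lit 1467⟩,
  ⟨nat_lit 0x6880810080, nat_lit 4, nat_lit 1470⟩,
  ⟨nat_lit 0x688080c100, nat_lit 2, nat_lit 1474⟩,
  ⟨nat_lit 0x6870e0c000, nat_lit 3, nat_lit 1476⟩,
  ⟨nat_lit 0x6870e08080, nat_lit 1, nat_lit 1479⟩,
  ⟨nat_lit 0x6870c10000, nat_lit 6, nat_lit 1480⟩,
  ⟨nat_lit 0x6870c0c080, nat_lit 5, nat_lit 1486⟩,
  ⟨nat_lit 0x6870c08100, nat_lit 1, nat_lit 1491⟩,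
  ⟨nat_lit 0x6870a14000, nat_lit 1, nat_lit 1492⟩,
  ⟨nat_lit 0x6870a10080, nat_lit 3, nat_lit 1493⟩,
  ⟨nat_lit 0x6870a0c100, nat_lit 2, nat_lit 1496⟩,
  ⟨nat_lit 0x6870810100, nat_lit 2, nat_lit 1498⟩]

theorem C_5_6_16 : allL ck_5_6 c_5_6_16 = true :=
  (allL_cons k_5_6_307 (allL_cons k_5_6_308 (allL_cons k_5_6_309 (allL_cons k_5_6_310 (allL_cons k_5_6_311 (allL_cons k_5_6_312 (allL_cons k_5_6_313 (allL_cons k_5_6_314 (allL_cons k_5_6_315 (allL_cons k_5_6_316 (allL_cons k_5_6_317 (allL_cons k_5_6_318 (allL_cons k_5_6_319 (allL_cons k_5_6_320 (allL_cons k_5_6_321 (allL_cons k_5_6_322 (allL_cons k_5_6_323 (allL_nil _))))))))))))))))))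

end Crest.Agent.R187.SN.KC
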