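import Crest.Agent.R187.SN.KC.Def

/-!
# Row 187, PLAN S, block E2: sources 324 to 346 of level (5, 6) (generated)
-/

set_option autoImplicit false
set_option maxRecDepth 100000
set_option Elab.async false

namespace Crest.Agent.R187.SN.KC

open Crest.Agent.R187.SN Crest.Agent.R187.SN.Spec Crest.Agent.R187.SN.Kern
open Crest.Agent.R187.SN.KKey Crest.Agent.R187.SN.KD Crest.Agent.R187.SN.KE
open Crest.Agent.R187.SN.KRel Crest.Agent.R187.SN.KDec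

theorem k_5_6_324 : ck_5_6 ⟨nat_lit 0x6860c14000, nat_lit 3, nat_lit 1500⟩ = true := by decide +kernel

theorem k_5_6_325 : ck_5_6 ⟨nat_lit 0x6860c10080, nat_lit 3, nat_lit 1503⟩ = true := by decide +kernel

theorem k_5_6_326 : ck_5_6 ⟨nat_lit 0x6860c0c100, nat_lit 2, nat_lit 1506⟩ = true := by decide +kernel

theorem k_5_6_327 : ck_5_6 ⟨nat_lit 0x6860a10100, nat_lit 1, nat_lit 1508⟩ = true := by decide +kernel

theorem k_5_6_328 : ck_5_6 ⟨nat_lit 0x6860810180, nat_lit 1, nat_lit 1509⟩ = true := by decide +kernel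

theorem k_5_6_329 : ck_5_6 ⟨nat_lit 0x60c0c00000, nat_lit 5, nat_lit 1510⟩ = true := by decide +kernel

theorem k_5_6_330 : ck_5_6 ⟨nat_lit 0x60c0a04000, nat_lit 2, nat_lit 1515⟩ = true := by decide +kernel

theorem k_5_6_331 : ck_5_6 ⟨nat_lit 0x60c0808000, nat_lit 5, nat_lit 1517⟩ = true := by decide +kernel

theorem k_5_6_332 : ck_5_6 ⟨nat_lit 0x60c0608080, nat_lit 1, nat_lit 1522⟩ = true := by decide +kernel

theorem k_5_6_333 : ck_5_6 ⟨nat_lit 0x60c0408100, nat_lit 1, nat_lit 1523⟩ = true := by decide +kernel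

theorem k_5_6_334 : ck_5_6 ⟨nat_lit 0x60b0e00000, nat_lit 2, nat_lit 1524⟩ = true := by decide +kernel

theorem k_5_6_335 : ck_5_6 ⟨nat_lit 0x60b0c04000, nat_lit 6, nat_lit 1526⟩ = true := by decide +kernel

theorem k_5_6_336 : ck_5_6 ⟨nat_lit 0x60b0a08000, nat_lit 7, nat_lit 1532⟩ = true := by decide +kernel

theorem k_5_6_337 : ck_5_6 ⟨nat_lit 0x60b0a04080, nat_lit 3, nat_lit 1539⟩ = true := by decide +kernel

theorem k_5_6_338 : ck_5_6 ⟨nat_lit 0x60b080c000, nat_lit 4, nat_lit 1542⟩ = true := by decide +kernel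

theorem k_5_6_339 : ck_5_6 ⟨nat_lit 0x60b0808080, nat_lit 3, nat_lit 1546⟩ = true := by decide +kernel

theorem k_5_6_340 : ck_5_6 ⟨nat_lit 0x60b060c080, nat_lit 1, nat_lit 1549⟩ = true := by decide +kernel

theorem k_5_6_341 : ck_5_6 ⟨nat_lit 0x60b0608100, nat_lit 1, nat_lit 1550⟩ = true := by decide +kernel

theorem k_5_6_342 : ck_5_6 ⟨nat_lit 0x60a1000000, nat_lit 5, nat_lit 1551⟩ = true := by decide +kernel

theorem k_5_6_343 : ck_5_6 ⟨nat_lit 0x60a0e04000, nat_lit 7, nat_lit 1556⟩ = true := by decide +kernel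

theorem k_5_6_344 : ck_5_6 ⟨nat_lit 0x60a0c08000, nat_lit 12, nat_lit 1563⟩ = true := by decide +kernel

theorem k_5_6_345 : ck_5_6 ⟨nat_lit 0x60a0c04080, nat_lit 2, nat_lit 1575⟩ = true := by decide +kernel

theorem k_5_6_346 : ck_5_6 ⟨nat_lit 0x60a0a0c000, nat_lit 6, nat_lit 1577⟩ = true := by decide +kernel

/-- sources 324 to 346 -/
noncomputable def c_5_6_17 : List IE := [⟨nat_lit 0x6860c14000, nat_lit 3, nat_lit 1500⟩,
  ⟨nat_lit 0x6860c10080, nat_lit 3, nat_lit 1503⟩,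
  ⟨nat_lit 0x6860c0c100, nat_lit 2, nat_lit 1506⟩,
  ⟨nat_lit 0x6860a10100, nat_lit 1, nat_lit 1508⟩,
  ⟨nat_lit 0x6860810180, nat_lit 1, nat_lit 1509⟩,
  ⟨nat_lit 0x60c0c00000, nat_lit 5, nat_lit 1510⟩,
  ⟨nat_lit 0x60c0a04000, nat_lit 2, nat_lit 1515⟩,
  ⟨nat_lit 0x60c0808000, nat_lit 5, nat_lit 1517⟩,
  ⟨nat_lit 0x60c0608080, nat_lit 1, nat_lit 1522⟩,
  ⟨nat_lit 0x60c0408100, nat_lit 1, nat_lit 1523⟩,
  ⟨nat_lit 0x60b0e00000, nat_lit 2, nat_lit 1524⟩,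
  ⟨nat_lit 0x60b0c04000, nat_lit 6, nat_lit 1526⟩,
  ⟨nat_lit 0x60b0a08000, nat_lit 7, nat_lit 1532⟩,
  ⟨nat_lit 0x60b0a04080, nat_lit 3, nat_lit 1539⟩,
  ⟨nat_lit 0x60b080c000, nat_lit 4, nat_lit 1542⟩,
  ⟨nat_lit 0x60b0808080, nat_lit 3, nat_lit 1546⟩,
  ⟨nat_lit 0x60b060c080, nat_lit 1, nat_lit 1549⟩,
  ⟨nat_lit 0x60b0608100, nat_lit 1, nat_lit 1550⟩,
  ⟨nat_lit 0x60a1000000, nat_lit 5, nat_lit 1551⟩,
  ⟨nat_lit 0x60a0e04000, nat_lit 7, nat_lit 1556⟩,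
  ⟨nat_lit 0x60a0c08000, nat_lit 12, nat_lit 1563⟩,
  ⟨nat_lit 0x60a0c04080, nat_lit 2, nat_lit 1575⟩,
  ⟨nat_lit 0x60a0a0c000, nat_lit 6, nat_lit 1577⟩]

theorem C_5_6_17 : allL ck_5_6 c_5_6_17 = true :=
  (allL_cons k_5_6_324 (allL_cons k_5_6_325 (allL_cons k_5_6_326 (allL_cons k_5_6_327 (allL_cons k_5_6_328 (allL_cons k_5_6_329 (allL_cons k_5_6_330 (allL_cons k_5_6_331 (allL_cons k_5_6_332 (allL_cons k_5_6_333 (allL_cons k_5_6_334 (allL_cons k_5_6_335 (allL_cons k_5_6_336 (allL_cons k_5_6_337 (allL_cons k_5_6_338 (allL_cons k_5_6_339 (allL_cons k_5_6_340 (allL_cons k_5_6_341 (allL_cons k_5_6_342 (allL_cons k_5_6_343 (allL_cons k_5_6_344 (allL_cons k_5_6_345 (allL_cons k_5_6_346 (allL_nil _))))))))))))))))))))))))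

end Crest.Agent.R187.SN.KC
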