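import Crest.Agent.R187.SN.KC.Def

/-!
# Row 187, PLAN S, block E2: sources 347 to 361 of level (5, 6) (generated)
-/

set_option autoImplicit false
set_option maxRecDepth 100000
set_option Elab.async false

namespace Crest.Agent.R187.SN.KC

open Crest.Agent.R187.SN Crest.Agent.R187.SN.Spec Crest.Agent.R187.SN.Kern
open Crest.Agent.R187.SN.KKey Crest.Agent.R187.SN.KD Crest.Agent.R187.SN.KE
open Crest.Agent.R187.SN.KRel Crest.Agent.R187.SN.KDec

theorem k_5_6_347 : ck_5_6 ⟨nat_lit 0x60a0a08080, nat_lit 5, nat_lit 1583⟩ = true := by decide +kernel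

theorem k_5_6_348 : ck_5_6 ⟨nat_lit 0x60a0810000, nat_lit 6, nat_lit 1588⟩ = true := by decide +kernel

theorem k_5_6_349 : ck_5_6 ⟨nat_lit 0x60a080c080, nat_lit 3, nat_lit 1594⟩ = true := by decide +kernel

theorem k_5_6_350 : ck_5_6 ⟨nat_lit 0x60a0808100, nat_lit 3, nat_lit 1597⟩ = true := by decide +kernel

theorem k_5_6_351 : ck_5_6 ⟨nat_lit 0x6091004000, nat_lit 4, nat_lit 1600⟩ = true := by decide +kernel

theorem k_5_6_352 : ck_5_6 ⟨nat_lit 0x6090e08000, nat_lit 6, nat_lit 1604⟩ = true := by decide +kernel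

theorem k_5_6_353 : ck_5_6 ⟨nat_lit 0x6090e04080, nat_lit 3, nat_lit 1610⟩ = true := by decide +kernel

theorem k_5_6_354 : ck_5_6 ⟨nat_lit 0x6090c0c000, nat_lit 10, nat_lit 1613⟩ = true := by decide +kernel

theorem k_5_6_355 : ck_5_6 ⟨nat_lit 0x6090c08080, nat_lit 6, nat_lit 1623⟩ = true := by decide +kernel

theorem k_5_6_356 : ck_5_6 ⟨nat_lit 0x6090a10000, nat_lit 5, nat_lit 1629⟩ = true := by decide +kernel

theorem k_5_6_357 : ck_5_6 ⟨nat_lit 0x6090a0c080, nat_lit 5, nat_lit 1634⟩ = true := by decide +kernel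

theorem k_5_6_358 : ck_5_6 ⟨nat_lit 0x6090a08100, nat_lit 2, nat_lit 1639⟩ = true := by decide +kernel

theorem k_5_6_359 : ck_5_6 ⟨nat_lit 0x6090810080, nat_lit 3, nat_lit 1641⟩ = true := by decide +kernel

theorem k_5_6_360 : ck_5_6 ⟨nat_lit 0x609080c100, nat_lit 2, nat_lit 1644⟩ = true := by decide +kernel

theorem k_5_6_361 : ck_5_6 ⟨nat_lit 0x6081008000, nat_lit 6, nat_lit 1646⟩ = true := by decide +kernel

/-- sources 347 to 361 -/
noncomputable def c_5_6_18 : List IE := [⟨nat_lit 0x60a0a08080, nat_lit 5, nat_lit 1583⟩,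
  ⟨nat_lit 0x60a0810000, nat_lit 6, nat_lit 1588⟩,
  ⟨nat_lit 0x60a080c080, nat_lit 3, nat_lit 1594⟩,
  ⟨nat_lit 0x60a0808100, nat_lit 3, nat_lit 1597⟩,
  ⟨nat_lit 0x6091004000, nat_lit 4, nat_lit 1600⟩,
  ⟨nat_lit 0x6090e08000, nat_lit 6, nat_lit 1604⟩,
  ⟨nat_lit 0x6090e04080, nat_lit 3, nat_lit 1610⟩,
  ⟨nat_lit 0x6090c0c000, nat_lit 10, nat_lit 1613⟩,
  ⟨nat_lit 0x6090c08080, nat_lit 6, nat_lit 1623⟩,
  ⟨nat_lit 0x6090a10000, nat_lit 5, nat_lit 1629⟩,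
  ⟨nat_lit 0x6090a0c080, nat_lit 5, nat_lit 1634⟩,
  ⟨nat_lit 0x6090a08100, nat_lit 2, nat_lit 1639⟩,
  ⟨nat_lit 0x6090810080, nat_lit 3, nat_lit 1641⟩,
  ⟨nat_lit 0x609080c100, nat_lit 2, nat_lit 1644⟩,
  ⟨nat_lit 0x6081008000, nat_lit 6, nat_lit 1646⟩]

theorem C_5_6_18 : allL ck_5_6 c_5_6_18 = true :=
  (allL_cons k_5_6_347 (allL_cons k_5_6_348 (allL_cons k_5_6_349 (allL_cons k_5_6_350 (allL_cons k_5_6_351 (allL_cons k_5_6_352 (allL_cons k_5_6_353 (allL_cons k_5_6_354 (allL_cons k_5_6_355 (allL_cons k_5_6_356 (allL_cons k_5_6_357 (allL_cons k_5_6_358 (allL_cons k_5_6_359 (allL_cons k_5_6_360 (allL_cons k_5_6_361 (allL_nil _))))))))))))))))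

end Crest.Agent.R187.SN.KC
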