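import Crest.Agent.R187.SN.KC.Def

/-!
# Row 187, PLAN S, block E2: sources 362 to 385 of level (5, 6) (generated)
-/

set_option autoImplicit false
set_option maxRecDepth 100000
set_option Elab.async false

namespace Crest.Agent.R187.SN.KC

open Crest.Agent.R187.SN Crest.Agent.R187.SN.Spec Crest.Agent.R187.SN.Kern
open Crest.Agent.R187.SN.KKey Crest.Agent.R187.SN.KD Crest.Agent.R187.SN.KE
open Crest.Agent.R187.SN.KRel Crest.Agent.R187.SN.KDec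

theorem k_5_6_362 : ck_5_6 ⟨nat_lit 0x6080e0c000, nat_lit 5, nat_lit 1652⟩ = true := by decide +kernel

theorem k_5_6_363 : ck_5_6 ⟨nat_lit 0x6080e08080, nat_lit 4, nat_lit 1657⟩ = true := by decide +kernel

theorem k_5_6_364 : ck_5_6 ⟨nat_lit 0x6080c10000, nat_lit 10, nat_lit 1661⟩ = true := by decide +kernel

theorem k_5_6_365 : ck_5_6 ⟨nat_lit 0x6080c0c080, nat_lit 5, nat_lit 1671⟩ = true := by decide +kernel

theorem k_5_6_366 : ck_5_6 ⟨nat_lit 0x6080c08100, nat_lit 4, nat_lit 1676⟩ = true := by decide +kernel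

theorem k_5_6_367 : ck_5_6 ⟨nat_lit 0x6080a14000, nat_lit 1, nat_lit 1680⟩ = true := by decide +kernel

theorem k_5_6_368 : ck_5_6 ⟨nat_lit 0x6080a10080, nat_lit 4, nat_lit 1681⟩ = true := by decide +kernel

theorem k_5_6_369 : ck_5_6 ⟨nat_lit 0x6080a0c100, nat_lit 2, nat_lit 1685⟩ = true := by decide +kernel

theorem k_5_6_370 : ck_5_6 ⟨nat_lit 0x6080810100, nat_lit 3, nat_lit 1687⟩ = true := by decide +kernel

theorem k_5_6_371 : ck_5_6 ⟨nat_lit 0x6070e10000, nat_lit 1, nat_lit 1690⟩ = true := by decide +kernel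

theorem k_5_6_372 : ck_5_6 ⟨nat_lit 0x6070e0c080, nat_lit 2, nat_lit 1691⟩ = true := by decide +kernel

theorem k_5_6_373 : ck_5_6 ⟨nat_lit 0x6070c14000, nat_lit 3, nat_lit 1693⟩ = true := by decide +kernel

theorem k_5_6_374 : ck_5_6 ⟨nat_lit 0x6070c10080, nat_lit 4, nat_lit 1696⟩ = true := by decide +kernel

theorem k_5_6_375 : ck_5_6 ⟨nat_lit 0x6070c0c100, nat_lit 2, nat_lit 1700⟩ = true := by decide +kernel

theorem k_5_6_376 : ck_5_6 ⟨nat_lit 0x6070a14080, nat_lit 1, nat_lit 1702⟩ = true := by decide +kernel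

theorem k_5_6_377 : ck_5_6 ⟨nat_lit 0x6070a10100, nat_lit 1, nat_lit 1703⟩ = true := by decide +kernel

theorem k_5_6_378 : ck_5_6 ⟨nat_lit 0x6070a0c180, nat_lit 1, nat_lit 1704⟩ = true := by decide +kernel

theorem k_5_6_379 : ck_5_6 ⟨nat_lit 0x6070810180, nat_lit 1, nat_lit 1705⟩ = true := by decide +kernel

theorem k_5_6_380 : ck_5_6 ⟨nat_lit 0x6060c18000, nat_lit 3, nat_lit 1706⟩ = true := by decide +kernel

theorem k_5_6_381 : ck_5_6 ⟨nat_lit 0x6060c14080, nat_lit 1, nat_lit 1709⟩ = true := by decide +kernel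

theorem k_5_6_382 : ck_5_6 ⟨nat_lit 0x6060c10100, nat_lit 3, nat_lit 1710⟩ = true := by decide +kernel

theorem k_5_6_383 : ck_5_6 ⟨nat_lit 0x6060810200, nat_lit 1, nat_lit 1713⟩ = true := by decide +kernel

theorem k_5_6_384 : ck_5_6 ⟨nat_lit 0x58b0e04000, nat_lit 3, nat_lit 1714⟩ = true := by decide +kernel

theorem k_5_6_385 : ck_5_6 ⟨nat_lit 0x58b0c08000, nat_lit 2, nat_lit 1717⟩ = true := by decide +kernel

/-- sources 362 to 385 -/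
noncomputable def c_5_6_19 : List IE := [⟨nat_lit 0x6080e0c000, nat_lit 5, nat_lit 1652⟩,
  ⟨nat_lit 0x6080e08080, nat_lit 4, nat_lit 1657⟩,
  ⟨nat_lit 0x6080c10000, nat_lit 10, nat_lit 1661⟩,
  ⟨nat_lit 0x6080c0c080, nat_lit 5, nat_lit 1671⟩,
  ⟨nat_lit 0x6080c08100, nat_lit 4, nat_lit 1676⟩,
  ⟨nat_lit 0x6080a14000, nat_lit 1, nat_lit 1680⟩,
  ⟨nat_lit 0x6080a10080, nat_lit 4, nat_lit 1681⟩,
  ⟨nat_lit 0x6080a0c100, nat_lit 2, nat_lit 1685⟩,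
  ⟨nat_lit 0x6080810100, nat_lit 3, nat_lit 1687⟩,
  ⟨nat_lit 0x6070e10000, nat_lit 1, nat_lit 1690⟩,
  ⟨nat_lit 0x6070e0c080, nat_lit 2, nat_lit 1691⟩,
  ⟨nat_lit 0x6070c14000, nat_lit 3, nat_lit 1693⟩,
  ⟨nat_lit 0x6070c10080, nat_lit 4, nat_lit 1696⟩,
  ⟨nat_lit 0x6070c0c100, nat_lit 2, nat_lit 1700⟩,
  ⟨nat_lit 0x6070a14080, nat_lit 1, nat_lit 1702⟩,
  ⟨nat_lit 0x6070a10100, nat_lit 1, nat_lit 1703⟩,
  ⟨nat_lit 0x6070a0c180, nat_lit 1, nat_lit 1704⟩,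
  ⟨nat_lit 0x6070810180, nat_lit 1, nat_lit 1705⟩,
  ⟨nat_lit 0x6060c18000, nat_lit 3, nat_lit 1706⟩,
  ⟨nat_lit 0x6060c14080, nat_lit 1, nat_lit 1709⟩,
  ⟨nat_lit 0x6060c10100, nat_lit 3, nat_lit 1710⟩,
  ⟨nat_lit 0x6060810200, nat_lit 1, nat_lit 1713⟩,
  ⟨nat_lit 0x58b0e04000, nat_lit 3, nat_lit 1714⟩,
  ⟨nat_lit 0x58b0c08000, nat_lit 2, nat_lit 1717⟩]

theorem C_5_6_19 : allL ck_5_6 c_5_6_19 = true :=
  (allL_cons k_5_6_362 (allL_cons k_5_6_363 (allL_cons k_5_6_364 (allL_cons k_5_6_365 (allL_cons k_5_6_366 (allL_cons k_5_6_367 (allL_cons k_5_6_368 (allL_cons k_5_6_369 (allL_cons k_5_6_370 (allL_cons k_5_6_371 (allL_cons k_5_6_372 (allL_cons k_5_6_373 (allL_cons k_5_6_374 (allL_cons k_5_6_375 (allL_cons k_5_6_376 (allL_cons k_5_6_377 (allL_cons k_5_6_378 (allL_cons k_5_6_379 (allL_cons k_5_6_380 (allL_cons k_5_6_381 (allL_cons k_5_6_382 (allL_cons k_5_6_383 (allL_cons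 k_5_6_384 (allL_cons k_5_6_385 (allL_nil _)))))))))))))))))))))))))

end Crest.Agent.R187.SN.KC
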