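import Crest.Agent.R187.SN.KC.Def

/-!
# Row 187, PLAN S, block E2: sources 64 to 86 of level (5, 6) (generated)
-/

set_option autoImplicit false
set_option maxRecDepth 100000
set_option Elab.async false

namespace Crest.Agent.R187.SN.KC

open Crest.Agent.R187.SN Crest.Agent.R187.SN.Spec Crest.Agent.R187.SN.Kern
open Crest.Agent.R187.SN.KKey Crest.Agent.R187.SN.KD Crest.Agent.R187.SN.KE
open Crest.Agent.R187.SN.KRel Crest.Agent.R187.SN.KDec

theorem k_5_6_64 : ck_5_6 ⟨nat_lit 0x9860a00000, nat_lit 5, nat_lit 199⟩ = true := by decide +kernel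

theorem k_5_6_65 : ck_5_6 ⟨nat_lit 0x9860804000, nat_lit 7, nat_lit 204⟩ = true := by decide +kernel

theorem k_5_6_66 : ck_5_6 ⟨nat_lit 0x9860608000, nat_lit 5, nat_lit 211⟩ = true := by decide +kernel

theorem k_5_6_67 : ck_5_6 ⟨nat_lit 0x9860408080, nat_lit 2, nat_lit 216⟩ = true := by decide +kernel

theorem k_5_6_68 : ck_5_6 ⟨nat_lit 0x9850a04000, nat_lit 1, nat_lit 218⟩ = true := by decide +kernel

theorem k_5_6_69 : ck_5_6 ⟨nat_lit 0x9850808000, nat_lit 4, nat_lit 219⟩ = true := by decide +kernel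

theorem k_5_6_70 : ck_5_6 ⟨nat_lit 0x9850804080, nat_lit 1, nat_lit 223⟩ = true := by decide +kernel

theorem k_5_6_71 : ck_5_6 ⟨nat_lit 0x9850608080, nat_lit 1, nat_lit 224⟩ = true := by decide +kernel

theorem k_5_6_72 : ck_5_6 ⟨nat_lit 0x9850408100, nat_lit 1, nat_lit 225⟩ = true := by decide +kernel

theorem k_5_6_73 : ck_5_6 ⟨nat_lit 0x984080c000, nat_lit 1, nat_lit 226⟩ = true := by decide +kernel

theorem k_5_6_74 : ck_5_6 ⟨nat_lit 0x9840808080, nat_lit 1, nat_lit 227⟩ = true := by decide +kernel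

theorem k_5_6_75 : ck_5_6 ⟨nat_lit 0x90c0000000, nat_lit 4, nat_lit 228⟩ = true := by decide +kernel

theorem k_5_6_76 : ck_5_6 ⟨nat_lit 0x90b0200000, nat_lit 4, nat_lit 232⟩ = true := by decide +kernel

theorem k_5_6_77 : ck_5_6 ⟨nat_lit 0x90a0400000, nat_lit 10, nat_lit 236⟩ = true := by decide +kernel

theorem k_5_6_78 : ck_5_6 ⟨nat_lit 0x90a0204000, nat_lit 2, nat_lit 246⟩ = true := by decide +kernel

theorem k_5_6_79 : ck_5_6 ⟨nat_lit 0x9090600000, nat_lit 9, nat_lit 248⟩ = true := by decide +kernel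

theorem k_5_6_80 : ck_5_6 ⟨nat_lit 0x9090404000, nat_lit 7, nat_lit 257⟩ = true := by decide +kernel

theorem k_5_6_81 : ck_5_6 ⟨nat_lit 0x9080800000, nat_lit 13, nat_lit 264⟩ = true := by decide +kernel

theorem k_5_6_82 : ck_5_6 ⟨nat_lit 0x9080604000, nat_lit 8, nat_lit 277⟩ = true := by decide +kernel

theorem k_5_6_83 : ck_5_6 ⟨nat_lit 0x9080408000, nat_lit 8, nat_lit 285⟩ = true := by decide +kernel

theorem k_5_6_84 : ck_5_6 ⟨nat_lit 0x9080404080, nat_lit 1, nat_lit 293⟩ = true := by decide +kernel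

theorem k_5_6_85 : ck_5_6 ⟨nat_lit 0x9070a00000, nat_lit 6, nat_lit 294⟩ = true := by decide +kernel

theorem k_5_6_86 : ck_5_6 ⟨nat_lit 0x9070804000, nat_lit 10, nat_lit 300⟩ = true := by decide +kernel

/-- sources 64 to 86 -/
noncomputable def c_5_6_2 : List IE := [⟨nat_lit 0x9860a00000, nat_lit 5, nat_lit 199⟩,
  ⟨nat_lit 0x9860804000, nat_lit 7, nat_lit 204⟩,
  ⟨nat_lit 0x9860608000, nat_lit 5, nat_lit 211⟩,
  ⟨nat_lit 0x9860408080, nat_lit 2, nat_lit 216⟩,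
  ⟨nat_lit 0x9850a04000, nat_lit 1, nat_lit 218⟩,
  ⟨nat_lit 0x9850808000, nat_lit 4, nat_lit 219⟩,
  ⟨nat_lit 0x9850804080, nat_lit 1, nat_lit 223⟩,
  ⟨nat_lit 0x9850608080, nat_lit 1, nat_lit 224⟩,
  ⟨nat_lit 0x9850408100, nat_lit 1, nat_lit 225⟩,
  ⟨nat_lit 0x984080c000, nat_lit 1, nat_lit 226⟩,
  ⟨nat_lit 0x9840808080, nat_lit 1, nat_lit 227⟩,
  ⟨nat_lit 0x90c0000000, nat_lit 4, nat_lit 228⟩,
  ⟨nat_lit 0x90b0200000, nat_lit 4, nat_lit 232⟩,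
  ⟨nat_lit 0x90a0400000, nat_lit 10, nat_lit 236⟩,
  ⟨nat_lit 0x90a0204000, nat_lit 2, nat_lit 246⟩,
  ⟨nat_lit 0x9090600000, nat_lit 9, nat_lit 248⟩,
  ⟨nat_lit 0x9090404000, nat_lit 7, nat_lit 257⟩,
  ⟨nat_lit 0x9080800000, nat_lit 13, nat_lit 264⟩,
  ⟨nat_lit 0x9080604000, nat_lit 8, nat_lit 277⟩,
  ⟨nat_lit 0x9080408000, nat_lit 8, nat_lit 285⟩,
  ⟨nat_lit 0x9080404080, nat_lit 1, nat_lit 293⟩,
  ⟨nat_lit 0x9070a00000, nat_lit 6, nat_lit 294⟩,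
  ⟨nat_lit 0x9070804000, nat_lit 10, nat_lit 300⟩]

theorem C_5_6_2 : allL ck_5_6 c_5_6_2 = true :=
  (allL_cons k_5_6_64 (allL_cons k_5_6_65 (allL_cons k_5_6_66 (allL_cons k_5_6_67 (allL_cons k_5_6_68 (allL_cons k_5_6_69 (allL_cons k_5_6_70 (allL_cons k_5_6_71 (allL_cons k_5_6_72 (allL_cons k_5_6_73 (allL_cons k_5_6_74 (allL_cons k_5_6_75 (allL_cons k_5_6_76 (allL_cons k_5_6_77 (allL_cons k_5_6_78 (allL_cons k_5_6_79 (allL_cons k_5_6_80 (allL_cons k_5_6_81 (allL_cons k_5_6_82 (allL_cons k_5_6_83 (allL_cons k_5_6_84 (allL_cons k_5_6_85 (allL_cons k_5_6_86 (allL_nil _))))))))))))))))))))))))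

end Crest.Agent.R187.SN.KC
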