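import Crest.Agent.R187.SN.KC.Def

/-!
# Row 187, PLAN S, block E2: sources 386 to 408 of level (5, 6) (generated)
-/

set_option autoImplicit false
set_option maxRecDepth 100000
set_option Elab.async false

namespace Crest.Agent.R187.SN.KC

open Crest.Agent.R187.SN Crest.Agent.R187.SN.Spec Crest.Agent.R187.SN.Kern
open Crest.Agent.R187.SN.KKey Crest.Agent.R187.SN.KD Crest.Agent.R187.SN.KE
open Crest.Agent.R187.SN.KRel Crest.Agent.R187.SN.KDec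

theorem k_5_6_386 : ck_5_6 ⟨nat_lit 0x58b0c04080, nat_lit 3, nat_lit 1719⟩ = true := by decide +kernel

theorem k_5_6_387 : ck_5_6 ⟨nat_lit 0x58b0a0c000, nat_lit 3, nat_lit 1722⟩ = true := by decide +kernel

theorem k_5_6_388 : ck_5_6 ⟨nat_lit 0x58b0a08080, nat_lit 2, nat_lit 1725⟩ = true := by decide +kernel

theorem k_5_6_389 : ck_5_6 ⟨nat_lit 0x58b080c080, nat_lit 2, nat_lit 1727⟩ = true := by decide +kernel

theorem k_5_6_390 : ck_5_6 ⟨nat_lit 0x58a1200000, nat_lit 1, nat_lit 1729⟩ = true := by decide +kernel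

theorem k_5_6_391 : ck_5_6 ⟨nat_lit 0x58a1004000, nat_lit 3, nat_lit 1730⟩ = true := by decide +kernel

theorem k_5_6_392 : ck_5_6 ⟨nat_lit 0x58a0e08000, nat_lit 5, nat_lit 1733⟩ = true := by decide +kernel

theorem k_5_6_393 : ck_5_6 ⟨nat_lit 0x58a0e04080, nat_lit 2, nat_lit 1738⟩ = true := by decide +kernel

theorem k_5_6_394 : ck_5_6 ⟨nat_lit 0x58a0c0c000, nat_lit 6, nat_lit 1740⟩ = true := by decide +kernel

theorem k_5_6_395 : ck_5_6 ⟨nat_lit 0x58a0c08080, nat_lit 4, nat_lit 1746⟩ = true := by decide +kernel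

theorem k_5_6_396 : ck_5_6 ⟨nat_lit 0x58a0a10000, nat_lit 4, nat_lit 1750⟩ = true := by decide +kernel

theorem k_5_6_397 : ck_5_6 ⟨nat_lit 0x58a0a0c080, nat_lit 3, nat_lit 1754⟩ = true := by decide +kernel

theorem k_5_6_398 : ck_5_6 ⟨nat_lit 0x58a0a08100, nat_lit 1, nat_lit 1757⟩ = true := by decide +kernel

theorem k_5_6_399 : ck_5_6 ⟨nat_lit 0x58a0810080, nat_lit 2, nat_lit 1758⟩ = true := by decide +kernel

theorem k_5_6_400 : ck_5_6 ⟨nat_lit 0x58a080c100, nat_lit 1, nat_lit 1760⟩ = true := by decide +kernel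

theorem k_5_6_401 : ck_5_6 ⟨nat_lit 0x5891204000, nat_lit 1, nat_lit 1761⟩ = true := by decide +kernel

theorem k_5_6_402 : ck_5_6 ⟨nat_lit 0x5891008000, nat_lit 3, nat_lit 1762⟩ = true := by decide +kernel

theorem k_5_6_403 : ck_5_6 ⟨nat_lit 0x5891004080, nat_lit 2, nat_lit 1765⟩ = true := by decide +kernel

theorem k_5_6_404 : ck_5_6 ⟨nat_lit 0x5890e0c000, nat_lit 5, nat_lit 1767⟩ = true := by decide +kernel

theorem k_5_6_405 : ck_5_6 ⟨nat_lit 0x5890e08080, nat_lit 3, nat_lit 1772⟩ = true := by decide +kernel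

theorem k_5_6_406 : ck_5_6 ⟨nat_lit 0x5890c10000, nat_lit 5, nat_lit 1775⟩ = true := by decide +kernel

theorem k_5_6_407 : ck_5_6 ⟨nat_lit 0x5890c0c080, nat_lit 5, nat_lit 1780⟩ = true := by decide +kernel

theorem k_5_6_408 : ck_5_6 ⟨nat_lit 0x5890c08100, nat_lit 1, nat_lit 1785⟩ = true := by decide +kernel

/-- sources 386 to 408 -/
noncomputable def c_5_6_20 : List IE := [⟨nat_lit 0x58b0c04080, nat_lit 3, nat_lit 1719⟩,
  ⟨nat_lit 0x58b0a0c000, nat_lit 3, nat_lit 1722⟩,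
  ⟨nat_lit 0x58b0a08080, nat_lit 2, nat_lit 1725⟩,
  ⟨nat_lit 0x58b080c080, nat_lit 2, nat_lit 1727⟩,
  ⟨nat_lit 0x58a1200000, nat_lit 1, nat_lit 1729⟩,
  ⟨nat_lit 0x58a1004000, nat_lit 3, nat_lit 1730⟩,
  ⟨nat_lit 0x58a0e08000, nat_lit 5, nat_lit 1733⟩,
  ⟨nat_lit 0x58a0e04080, nat_lit 2, nat_lit 1738⟩,
  ⟨nat_lit 0x58a0c0c000, nat_lit 6, nat_lit 1740⟩,
  ⟨nat_lit 0x58a0c08080, nat_lit 4, nat_lit 1746⟩,
  ⟨nat_lit 0x58a0a10000, nat_lit 4, nat_lit 1750⟩,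
  ⟨nat_lit 0x58a0a0c080, nat_lit 3, nat_lit 1754⟩,
  ⟨nat_lit 0x58a0a08100, nat_lit 1, nat_lit 1757⟩,
  ⟨nat_lit 0x58a0810080, nat_lit 2, nat_lit 1758⟩,
  ⟨nat_lit 0x58a080c100, nat_lit 1, nat_lit 1760⟩,
  ⟨nat_lit 0x5891204000, nat_lit 1, nat_lit 1761⟩,
  ⟨nat_lit 0x5891008000, nat_lit 3, nat_lit 1762⟩,
  ⟨nat_lit 0x5891004080, nat_lit 2, nat_lit 1765⟩,
  ⟨nat_lit 0x5890e0c000, nat_lit 5, nat_lit 1767⟩,
  ⟨nat_lit 0x5890e08080, nat_lit 3, nat_lit 1772⟩,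
  ⟨nat_lit 0x5890c10000, nat_lit 5, nat_lit 1775⟩,
  ⟨nat_lit 0x5890c0c080, nat_lit 5, nat_lit 1780⟩,
  ⟨nat_lit 0x5890c08100, nat_lit 1, nat_lit 1785⟩]

theorem C_5_6_20 : allL ck_5_6 c_5_6_20 = true :=
  (allL_cons k_5_6_386 (allL_cons k_5_6_387 (allL_cons k_5_6_388 (allL_cons k_5_6_389 (allL_cons k_5_6_390 (allL_cons k_5_6_391 (allL_cons k_5_6_392 (allL_cons k_5_6_393 (allL_cons k_5_6_394 (allL_cons k_5_6_395 (allL_cons k_5_6_396 (allL_cons k_5_6_397 (allL_cons k_5_6_398 (allL_cons k_5_6_399 (allL_cons k_5_6_400 (allL_cons k_5_6_401 (allL_cons k_5_6_402 (allL_cons k_5_6_403 (allL_cons k_5_6_404 (allL_cons k_5_6_405 (allL_cons k_5_6_406 (allL_cons k_5_6_407 (allL_cons k_5_6_408 (allL_nil _))))))))))))))))))))))))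

end Crest.Agent.R187.SN.KC
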