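import Crest.Agent.R187.SN.KC.Def

/-!
# Row 187, PLAN S, block E2: sources 409 to 441 of level (5, 6) (generated)
-/

set_option autoImplicit false
set_option maxRecDepth 100000
set_option Elab.async false

namespace Crest.Agent.R187.SN.KC

open Crest.Agent.R187.SN Crest.Agent.R187.SN.Spec Crest.Agent.R187.SN.Kern
open Crest.Agent.R187.SN.KKey Crest.Agent.R187.SN.KD Crest.Agent.R187.SN.KE
open Crest.Agent.R187.SN.KRel Crest.Agent.R187.SN.KDec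

theorem k_5_6_409 : ck_5_6 ⟨nat_lit 0x5890a14000, nat_lit 2, nat_lit 1786⟩ = true := by decide +kernel

theorem k_5_6_410 : ck_5_6 ⟨nat_lit 0x5890a10080, nat_lit 3, nat_lit 1788⟩ = true := by decide +kernel

theorem k_5_6_411 : ck_5_6 ⟨nat_lit 0x5890a0c100, nat_lit 2, nat_lit 1791⟩ = true := by decide +kernel

theorem k_5_6_412 : ck_5_6 ⟨nat_lit 0x5890810100, nat_lit 1, nat_lit 1793⟩ = true := by decide +kernel

theorem k_5_6_413 : ck_5_6 ⟨nat_lit 0x589080c180, nat_lit 1, nat_lit 1794⟩ = true := by decide +kernel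

theorem k_5_6_414 : ck_5_6 ⟨nat_lit 0x588100c000, nat_lit 3, nat_lit 1795⟩ = true := by decide +kernel

theorem k_5_6_415 : ck_5_6 ⟨nat_lit 0x5881008080, nat_lit 2, nat_lit 1798⟩ = true := by decide +kernel

theorem k_5_6_416 : ck_5_6 ⟨nat_lit 0x5880e10000, nat_lit 4, nat_lit 1800⟩ = true := by decide +kernel

theorem k_5_6_417 : ck_5_6 ⟨nat_lit 0x5880e0c080, nat_lit 3, nat_lit 1804⟩ = true := by decide +kernel

theorem k_5_6_418 : ck_5_6 ⟨nat_lit 0x5880e08100, nat_lit 1, nat_lit 1807⟩ = true := by decide +kernel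

theorem k_5_6_419 : ck_5_6 ⟨nat_lit 0x5880c14000, nat_lit 4, nat_lit 1808⟩ = true := by decide +kernel

theorem k_5_6_420 : ck_5_6 ⟨nat_lit 0x5880c10080, nat_lit 5, nat_lit 1812⟩ = true := by decide +kernel

theorem k_5_6_421 : ck_5_6 ⟨nat_lit 0x5880c0c100, nat_lit 3, nat_lit 1817⟩ = true := by decide +kernel

theorem k_5_6_422 : ck_5_6 ⟨nat_lit 0x5880a14080, nat_lit 1, nat_lit 1820⟩ = true := by decide +kernel

theorem k_5_6_423 : ck_5_6 ⟨nat_lit 0x5880a10100, nat_lit 2, nat_lit 1821⟩ = true := by decide +kernel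

theorem k_5_6_424 : ck_5_6 ⟨nat_lit 0x5880810180, nat_lit 1, nat_lit 1823⟩ = true := by decide +kernel

theorem k_5_6_425 : ck_5_6 ⟨nat_lit 0x5870e14000, nat_lit 1, nat_lit 1824⟩ = true := by decide +kernel

theorem k_5_6_426 : ck_5_6 ⟨nat_lit 0x5870e10080, nat_lit 1, nat_lit 1825⟩ = true := by decide +kernel

theorem k_5_6_427 : ck_5_6 ⟨nat_lit 0x5870c18000, nat_lit 1, nat_lit 1826⟩ = true := by decide +kernel

theorem k_5_6_428 : ck_5_6 ⟨nat_lit 0x5870c14080, nat_lit 2, nat_lit 1827⟩ = true := by decide +kernel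

theorem k_5_6_429 : ck_5_6 ⟨nat_lit 0x5870c10100, nat_lit 2, nat_lit 1829⟩ = true := by decide +kernel

theorem k_5_6_430 : ck_5_6 ⟨nat_lit 0x5870c0c180, nat_lit 1, nat_lit 1831⟩ = true := by decide +kernel

theorem k_5_6_431 : ck_5_6 ⟨nat_lit 0x5870a10180, nat_lit 1, nat_lit 1832⟩ = true := by decide +kernel

theorem k_5_6_432 : ck_5_6 ⟨nat_lit 0x5860c18080, nat_lit 2, nat_lit 1833⟩ = true := by decide +kernel

theorem k_5_6_433 : ck_5_6 ⟨nat_lit 0x5860c14100, nat_lit 1, nat_lit 1835⟩ = true := by decide +kernel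

theorem k_5_6_434 : ck_5_6 ⟨nat_lit 0x5860c10180, nat_lit 1, nat_lit 1836⟩ = true := by decide +kernel

theorem k_5_6_435 : ck_5_6 ⟨nat_lit 0x50a1400000, nat_lit 1, nat_lit 1837⟩ = true := by decide +kernel

theorem k_5_6_436 : ck_5_6 ⟨nat_lit 0x50a1204000, nat_lit 1, nat_lit 1838⟩ = true := by decide +kernel

theorem k_5_6_437 : ck_5_6 ⟨nat_lit 0x50a1008000, nat_lit 3, nat_lit 1839⟩ = true := by decide +kernel

theorem k_5_6_438 : ck_5_6 ⟨nat_lit 0x50a0e0c000, nat_lit 2, nat_lit 1842⟩ = true := by decide +kernel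

theorem k_5_6_439 : ck_5_6 ⟨nat_lit 0x50a0e08080, nat_lit 1, nat_lit 1844⟩ = true := by decide +kernel

theorem k_5_6_440 : ck_5_6 ⟨nat_lit 0x50a0c10000, nat_lit 4, nat_lit 1845⟩ = true := by decide +kernel

theorem k_5_6_441 : ck_5_6 ⟨nat_lit 0x50a0c0c080, nat_lit 1, nat_lit 1849⟩ = true := by decide +kernel

/-- sources 409 to 441 -/
noncomputable def c_5_6_21 : List IE := [⟨nat_lit 0x5890a14000, nat_lit 2, nat_lit 1786⟩,
  ⟨nat_lit 0x5890a10080, nat_lit 3, nat_lit 1788⟩,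
  ⟨nat_lit 0x5890a0c100, nat_lit 2, nat_lit 1791⟩,
  ⟨nat_lit 0x5890810100, nat_lit 1, nat_lit 1793⟩,
  ⟨nat_lit 0x589080c180, nat_lit 1, nat_lit 1794⟩,
  ⟨nat_lit 0x588100c000, nat_lit 3, nat_lit 1795⟩,
  ⟨nat_lit 0x5881008080, nat_lit 2, nat_lit 1798⟩,
  ⟨nat_lit 0x5880e10000, nat_lit 4, nat_lit 1800⟩,
  ⟨nat_lit 0x5880e0c080, nat_lit 3, nat_lit 1804⟩,
  ⟨nat_lit 0x5880e08100, nat_lit 1, nat_lit 1807⟩,
  ⟨nat_lit 0x5880c14000, nat_lit 4, nat_lit 1808⟩,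
  ⟨nat_lit 0x5880c10080, nat_lit 5, nat_lit 1812⟩,
  ⟨nat_lit 0x5880c0c100, nat_lit 3, nat_lit 1817⟩,
  ⟨nat_lit 0x5880a14080, nat_lit 1, nat_lit 1820⟩,
  ⟨nat_lit 0x5880a10100, nat_lit 2, nat_lit 1821⟩,
  ⟨nat_lit 0x5880810180, nat_lit 1, nat_lit 1823⟩,
  ⟨nat_lit 0x5870e14000, nat_lit 1, nat_lit 1824⟩,
  ⟨nat_lit 0x5870e10080, nat_lit 1, nat_lit 1825⟩,
  ⟨nat_lit 0x5870c18000, nat_lit 1, nat_lit 1826⟩,
  ⟨nat_lit 0x5870c14080, nat_lit 2, nat_lit 1827⟩,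
  ⟨nat_lit 0x5870c10100, nat_lit 2, nat_lit 1829⟩,
  ⟨nat_lit 0x5870c0c180, nat_lit 1, nat_lit 1831⟩,
  ⟨nat_lit 0x5870a10180, nat_lit 1, nat_lit 1832⟩,
  ⟨nat_lit 0x5860c18080, nat_lit 2, nat_lit 1833⟩,
  ⟨nat_lit 0x5860c14100, nat_lit 1, nat_lit 1835⟩,
  ⟨nat_lit 0x5860c10180, nat_lit 1, nat_lit 1836⟩,
  ⟨nat_lit 0x50a1400000, nat_lit 1, nat_lit 1837⟩,
  ⟨nat_lit 0x50a1204000, nat_lit 1, nat_lit 1838⟩,
  ⟨nat_lit 0x50a1008000, nat_lit 3, nat_lit 1839⟩,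
  ⟨nat_lit 0x50a0e0c000, nat_lit 2, nat_lit 1842⟩,
  ⟨nat_lit 0x50a0e08080, nat_lit 1, nat_lit 1844⟩,
  ⟨nat_lit 0x50a0c10000, nat_lit 4, nat_lit 1845⟩,
  ⟨nat_lit 0x50a0c0c080, nat_lit 1, nat_lit 1849⟩]

theorem C_5_6_21 : allL ck_5_6 c_5_6_21 = true :=
  (allL_cons k_5_6_409 (allL_cons k_5_6_410 (allL_cons k_5_6_411 (allL_cons k_5_6_412 (allL_cons k_5_6_413 (allL_cons k_5_6_414 (allL_cons k_5_6_415 (allL_cons k_5_6_416 (allL_cons k_5_6_417 (allL_cons k_5_6_418 (allL_cons k_5_6_419 (allL_cons k_5_6_420 (allL_cons k_5_6_421 (allL_cons k_5_6_422 (allL_cons k_5_6_423 (allL_cons k_5_6_424 (allL_cons k_5_6_425 (allL_cons k_5_6_426 (allL_cons k_5_6_427 (allL_cons k_5_6_428 (allL_cons k_5_6_429 (allL_cons k_5_6_430 (allL_cons k_5_6_431 (allL_cons k_5_6_432 (allL_cons k_5_6_433 (allL_cons k_5_6_434 (allL_cons k_5_6_435 (allL_cons k_5_6_436 (allL_cons k_5_6_437 (allL_cons k_5_6_438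 (allL_cons k_5_6_439 (allL_cons k_5_6_440 (allL_cons k_5_6_441 (allL_nil _))))))))))))))))))))))))))))))))))

end Crest.Agent.R187.SN.KC
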