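import Crest.Agent.R187.SN.KC.Def

/-!
# Row 187, PLAN S, block E2: sources 442 to 485 of level (5, 6) (generated)
-/

set_option autoImplicit false
set_option maxRecDepth 100000
set_option Elab.async false

namespace Crest.Agent.R187.SN.KC

open Crest.Agent.R187.SN Crest.Agent.R187.SN.Spec Crest.Agent.R187.SN.Kern
open Crest.Agent.R187.SN.KKey Crest.Agent.R187.SN.KD Crest.Agent.R187.SN.KE
open Crest.Agent.R187.SN.KRel Crest.Agent.R187.SN.KDec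

theorem k_5_6_442 : ck_5_6 ⟨nat_lit 0x50a0c08100, nat_lit 2, nat_lit 1850⟩ = true := by decide +kernel

theorem k_5_6_443 : ck_5_6 ⟨nat_lit 0x50a0a10080, nat_lit 1, nat_lit 1852⟩ = true := by decide +kernel

theorem k_5_6_444 : ck_5_6 ⟨nat_lit 0x50a0810100, nat_lit 2, nat_lit 1853⟩ = true := by decide +kernel

theorem k_5_6_445 : ck_5_6 ⟨nat_lit 0x509100c000, nat_lit 2, nat_lit 1855⟩ = true := by decide +kernel

theorem k_5_6_446 : ck_5_6 ⟨nat_lit 0x5091008080, nat_lit 1, nat_lit 1857⟩ = true := by decide +kernel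

theorem k_5_6_447 : ck_5_6 ⟨nat_lit 0x5090e10000, nat_lit 2, nat_lit 1858⟩ = true := by decide +kernel

theorem k_5_6_448 : ck_5_6 ⟨nat_lit 0x5090e0c080, nat_lit 2, nat_lit 1860⟩ = true := by decide +kernel

theorem k_5_6_449 : ck_5_6 ⟨nat_lit 0x5090c14000, nat_lit 2, nat_lit 1862⟩ = true := by decide +kernel

theorem k_5_6_450 : ck_5_6 ⟨nat_lit 0x5090c10080, nat_lit 3, nat_lit 1864⟩ = true := by decide +kernel

theorem k_5_6_451 : ck_5_6 ⟨nat_lit 0x5090c0c100, nat_lit 2, nat_lit 1867⟩ = true := by decide +kernel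

theorem k_5_6_452 : ck_5_6 ⟨nat_lit 0x5090a10100, nat_lit 1, nat_lit 1869⟩ = true := by decide +kernel

theorem k_5_6_453 : ck_5_6 ⟨nat_lit 0x5090a0c180, nat_lit 1, nat_lit 1870⟩ = true := by decide +kernel

theorem k_5_6_454 : ck_5_6 ⟨nat_lit 0x5081010000, nat_lit 3, nat_lit 1871⟩ = true := by decide +kernel

theorem k_5_6_455 : ck_5_6 ⟨nat_lit 0x508100c080, nat_lit 1, nat_lit 1874⟩ = true := by decide +kernel

theorem k_5_6_456 : ck_5_6 ⟨nat_lit 0x5081008100, nat_lit 2, nat_lit 1875⟩ = true := by decide +kernel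

theorem k_5_6_457 : ck_5_6 ⟨nat_lit 0x5080e14000, nat_lit 1, nat_lit 1877⟩ = true := by decide +kernel

theorem k_5_6_458 : ck_5_6 ⟨nat_lit 0x5080e10080, nat_lit 2, nat_lit 1878⟩ = true := by decide +kernel

theorem k_5_6_459 : ck_5_6 ⟨nat_lit 0x5080e0c100, nat_lit 1, nat_lit 1880⟩ = true := by decide +kernel

theorem k_5_6_460 : ck_5_6 ⟨nat_lit 0x5080c18000, nat_lit 3, nat_lit 1881⟩ = true := by decide +kernel

theorem k_5_6_461 : ck_5_6 ⟨nat_lit 0x5080c14080, nat_lit 2, nat_lit 1884⟩ = true := by decide +kernel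

theorem k_5_6_462 : ck_5_6 ⟨nat_lit 0x5080c10100, nat_lit 3, nat_lit 1886⟩ = true := by decide +kernel

theorem k_5_6_463 : ck_5_6 ⟨nat_lit 0x5080a10180, nat_lit 1, nat_lit 1889⟩ = true := by decide +kernel

theorem k_5_6_464 : ck_5_6 ⟨nat_lit 0x5080810200, nat_lit 1, nat_lit 1890⟩ = true := by decide +kernel

theorem k_5_6_465 : ck_5_6 ⟨nat_lit 0x5070e0c180, nat_lit 1, nat_lit 1891⟩ = true := by decide +kernel

theorem k_5_6_466 : ck_5_6 ⟨nat_lit 0x5070c18080, nat_lit 1, nat_lit 1892⟩ = true := by decide +kernel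

theorem k_5_6_467 : ck_5_6 ⟨nat_lit 0x5070c14100, nat_lit 1, nat_lit 1893⟩ = true := by decide +kernel

theorem k_5_6_468 : ck_5_6 ⟨nat_lit 0x5070c10180, nat_lit 1, nat_lit 1894⟩ = true := by decide +kernel

theorem k_5_6_469 : ck_5_6 ⟨nat_lit 0x5060c18100, nat_lit 2, nat_lit 1895⟩ = true := by decide +kernel

theorem k_5_6_470 : ck_5_6 ⟨nat_lit 0x5060c10200, nat_lit 1, nat_lit 1897⟩ = true := by decide +kernel

theorem k_5_6_471 : ck_5_6 ⟨nat_lit 0x489100c080, nat_lit 1, nat_lit 1898⟩ = true := by decide +kernel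

theorem k_5_6_472 : ck_5_6 ⟨nat_lit 0x4890e14000, nat_lit 1, nat_lit 1899⟩ = true := by decide +kernel

theorem k_5_6_473 : ck_5_6 ⟨nat_lit 0x4890e0c100, nat_lit 1, nat_lit 1900⟩ = true := by decide +kernel

theorem k_5_6_474 : ck_5_6 ⟨nat_lit 0x4890c14080, nat_lit 1, nat_lit 1901⟩ = true := by decide +kernel

theorem k_5_6_475 : ck_5_6 ⟨nat_lit 0x4890c0c180, nat_lit 1, nat_lit 1902⟩ = true := by decide +kernel

theorem k_5_6_476 : ck_5_6 ⟨nat_lit 0x4890a14100, nat_lit 1, nat_lit 1903⟩ = true := by decide +kernel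

theorem k_5_6_477 : ck_5_6 ⟨nat_lit 0x4881014000, nat_lit 1, nat_lit 1904⟩ = true := by decide +kernel

theorem k_5_6_478 : ck_5_6 ⟨nat_lit 0x4881010080, nat_lit 1, nat_lit 1905⟩ = true := by decide +kernel

theorem k_5_6_479 : ck_5_6 ⟨nat_lit 0x4880e14080, nat_lit 1, nat_lit 1906⟩ = true := by decide +kernel

theorem k_5_6_480 : ck_5_6 ⟨nat_lit 0x4880e10100, nat_lit 1, nat_lit 1907⟩ = true := by decide +kernel

theorem k_5_6_481 : ck_5_6 ⟨nat_lit 0x4880c18080, nat_lit 1, nat_lit 1908⟩ = true := by decide +kernel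

theorem k_5_6_482 : ck_5_6 ⟨nat_lit 0x4880c14100, nat_lit 1, nat_lit 1909⟩ = true := by decide +kernel

theorem k_5_6_483 : ck_5_6 ⟨nat_lit 0x4880c10180, nat_lit 1, nat_lit 1910⟩ = true := by decide +kernel

theorem k_5_6_484 : ck_5_6 ⟨nat_lit 0x4870c14180, nat_lit 1, nat_lit 1911⟩ = true := by decide +kernel

theorem k_5_6_485 : ck_5_6 ⟨nat_lit 0x4860c18180, nat_lit 1, nat_lit 1912⟩ = true := by decide +kernel

/-- sources 442 to 485 -/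
noncomputable def c_5_6_22 : List IE := [⟨nat_lit 0x50a0c08100, nat_lit 2, nat_lit 1850⟩,
  ⟨nat_lit 0x50a0a10080, nat_lit 1, nat_lit 1852⟩,
  ⟨nat_lit 0x50a0810100, nat_lit 2, nat_lit 1853⟩,
  ⟨nat_lit 0x509100c000, nat_lit 2, nat_lit 1855⟩,
  ⟨nat_lit 0x5091008080, nat_lit 1, nat_lit 1857⟩,
  ⟨nat_lit 0x5090e10000, nat_lit 2, nat_lit 1858⟩,
  ⟨nat_lit 0x5090e0c080, nat_lit 2, nat_lit 1860⟩,
  ⟨nat_lit 0x5090c14000, nat_lit 2, nat_lit 1862⟩,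
  ⟨nat_lit 0x5090c10080, nat_lit 3, nat_lit 1864⟩,
  ⟨nat_lit 0x5090c0c100, nat_lit 2, nat_lit 1867⟩,
  ⟨nat_lit 0x5090a10100, nat_lit 1, nat_lit 1869⟩,
  ⟨nat_lit 0x5090a0c180, nat_lit 1, nat_lit 1870⟩,
  ⟨nat_lit 0x5081010000, nat_lit 3, nat_lit 1871⟩,
  ⟨nat_lit 0x508100c080, nat_lit 1, nat_lit 1874⟩,
  ⟨nat_lit 0x5081008100, nat_lit 2, nat_lit 1875⟩,
  ⟨nat_lit 0x5080e14000, nat_lit 1, nat_lit 1877⟩,
  ⟨nat_lit 0x5080e10080, nat_lit 2, nat_lit 1878⟩,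
  ⟨nat_lit 0x5080e0c100, nat_lit 1, nat_lit 1880⟩,
  ⟨nat_lit 0x5080c18000, nat_lit 3, nat_lit 1881⟩,
  ⟨nat_lit 0x5080c14080, nat_lit 2, nat_lit 1884⟩,
  ⟨nat_lit 0x5080c10100, nat_lit 3, nat_lit 1886⟩,
  ⟨nat_lit 0x5080a10180, nat_lit 1, nat_lit 1889⟩,
  ⟨nat_lit 0x5080810200, nat_lit 1, nat_lit 1890⟩,
  ⟨nat_lit 0x5070e0c180, nat_lit 1, nat_lit 1891⟩,
  ⟨nat_lit 0x5070c18080, nat_lit 1, nat_lit 1892⟩,
  ⟨nat_lit 0x5070c14100, nat_lit 1, nat_lit 1893⟩,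
  ⟨nat_lit 0x5070c10180, nat_lit 1, nat_lit 1894⟩,
  ⟨nat_lit 0x5060c18100, nat_lit 2, nat_lit 1895⟩,
  ⟨nat_lit 0x5060c10200, nat_lit 1, nat_lit 1897⟩,
  ⟨nat_lit 0x489100c080, nat_lit 1, nat_lit 1898⟩,
  ⟨nat_lit 0x4890e14000, nat_lit 1, nat_lit 1899⟩,
  ⟨nat_lit 0x4890e0c100, nat_lit 1, nat_lit 1900⟩,
  ⟨nat_lit 0x4890c14080, nat_lit 1, nat_lit 1901⟩,
  ⟨nat_lit 0x4890c0c180, nat_lit 1, nat_lit 1902⟩,
  ⟨nat_lit 0x4890a14100, nat_lit 1, nat_lit 1903⟩,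
  ⟨nat_lit 0x4881014000, nat_lit 1, nat_lit 1904⟩,
  ⟨nat_lit 0x4881010080, nat_lit 1, nat_lit 1905⟩,
  ⟨nat_lit 0x4880e14080, nat_lit 1, nat_lit 1906⟩,
  ⟨nat_lit 0x4880e10100, nat_lit 1, nat_lit 1907⟩,
  ⟨nat_lit 0x4880c18080, nat_lit 1, nat_lit 1908⟩,
  ⟨nat_lit 0x4880c14100, nat_lit 1, nat_lit 1909⟩,
  ⟨nat_lit 0x4880c10180, nat_lit 1, nat_lit 1910⟩,
  ⟨nat_lit 0x4870c14180, nat_lit 1, nat_lit 1911⟩,
  ⟨nat_lit 0x4860c18180, nat_lit 1, nat_lit 1912⟩]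

theorem C_5_6_22 : allL ck_5_6 c_5_6_22 = true :=
  (allL_cons k_5_6_442 (allL_cons k_5_6_443 (allL_cons k_5_6_444 (allL_cons k_5_6_445 (allL_cons k_5_6_446 (allL_cons k_5_6_447 (allL_cons k_5_6_448 (allL_cons k_5_6_449 (allL_cons k_5_6_450 (allL_cons k_5_6_451 (allL_cons k_5_6_452 (allL_cons k_5_6_453 (allL_cons k_5_6_454 (allL_cons k_5_6_455 (allL_cons k_5_6_456 (allL_cons k_5_6_457 (allL_cons k_5_6_458 (allL_cons k_5_6_459 (allL_cons k_5_6_460 (allL_cons k_5_6_461 (allL_cons k_5_6_462 (allL_cons k_5_6_463 (allL_cons k_5_6_464 (allL_cons k_5_6_465 (allL_cons k_5_6_466 (allL_cons k_5_6_467 (allL_cons k_5_6_468 (allL_cons k_5_6_469 (allL_cons k_5_6_470 (allL_cons k_5_6_471 (allL_cons k_5_6_472 (allL_cons k_5_6_473 (allL_cons k_5_6_474 (allL_cons k_5_6_475 (allL_cons k_5_6_476 (allL_cons k_5_6_477 (allL_cons k_5_6_478 (allL_cons k_5_6_479 (allL_cons k_5_6_480 (allL_cons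 k_5_6_481 (allL_cons k_5_6_482 (allL_cons k_5_6_483 (allL_cons k_5_6_484 (allL_cons k_5_6_485 (allL_nil _)))))))))))))))))))))))))))))))))))))))))))))

end Crest.Agent.R187.SN.KC
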