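import Crest.Agent.R187.SN.KC.Def

/-!
# Row 187, PLAN S, block E2: sources 486 to 491 of level (5, 6) (generated)
-/

set_option autoImplicit false
set_option maxRecDepth 100000
set_option Elab.async false

namespace Crest.Agent.R187.SN.KC

open Crest.Agent.R187.SN Crest.Agent.R187.SN.Spec Crest.Agent.R187.SN.Kern
open Crest.Agent.R187.SN.KKey Crest.Agent.R187.SN.KD Crest.Agent.R187.SN.KE
open Crest.Agent.R187.SN.KRel Crest.Agent.R187.SN.KDec

theorem k_5_6_486 : ck_5_6 ⟨nat_lit 0x4081018000, nat_lit 1, nat_lit 1913⟩ = true := by decide +kernel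

theorem k_5_6_487 : ck_5_6 ⟨nat_lit 0x4081010100, nat_lit 1, nat_lit 1914⟩ = true := by decide +kernel

theorem k_5_6_488 : ck_5_6 ⟨nat_lit 0x4080c18100, nat_lit 1, nat_lit 1915⟩ = true := by decide +kernel

theorem k_5_6_489 : ck_5_6 ⟨nat_lit 0x4080c10200, nat_lit 1, nat_lit 1916⟩ = true := by decide +kernel

theorem k_5_6_490 : ck_5_6 ⟨nat_lit 0x4060c18200, nat_lit 1, nat_lit 1917⟩ = true := by decide +kernel

theorem k_5_6_491 : ck_5_6 ⟨nat_lit 0x3060c18300, nat_lit 1, nat_lit 1918⟩ = true := by decide +kernel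

/-- sources 486 to 491 -/
noncomputable def c_5_6_23 : List IE := [⟨nat_lit 0x4081018000, nat_lit 1, nat_lit 1913⟩,
  ⟨nat_lit 0x4081010100, nat_lit 1, nat_lit 1914⟩,
  ⟨nat_lit 0x4080c18100, nat_lit 1, nat_lit 1915⟩,
  ⟨nat_lit 0x4080c10200, nat_lit 1, nat_lit 1916⟩,
  ⟨nat_lit 0x4060c18200, nat_lit 1, nat_lit 1917⟩,
  ⟨nat_lit 0x3060c18300, nat_lit 1, nat_lit 1918⟩]

theorem C_5_6_23 : allL ck_5_6 c_5_6_23 = true :=
  (allL_cons k_5_6_486 (allL_cons k_5_6_487 (allL_cons k_5_6_488 (allL_cons k_5_6_489 (allL_cons k_5_6_490 (allL_cons k_5_6_491 (allL_nil _)))))))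

end Crest.Agent.R187.SN.KC
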