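import Crest.Agent.R187.SN.KC.Def

/-!
# Row 187, PLAN S, block E2: sources 87 to 110 of level (5, 6) (generated)
-/

set_option autoImplicit false
set_option maxRecDepth 100000
set_option Elab.async false

namespace Crest.Agent.R187.SN.KC

open Crest.Agent.R187.SN Crest.Agent.R187.SN.Spec Crest.Agent.R187.SN.Kern
open Crest.Agent.R187.SN.KKey Crest.Agent.R187.SN.KD Crest.Agent.R187.SN.KE
open Crest.Agent.R187.SN.KRel Crest.Agent.R187.SN.KDec

theorem k_5_6_87 : ck_5_6 ⟨nat_lit 0x9070608000, nat_lit 6, nat_lit 310⟩ = true := by decide +kernel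

theorem k_5_6_88 : ck_5_6 ⟨nat_lit 0x9070604080, nat_lit 2, nat_lit 316⟩ = true := by decide +kernel

theorem k_5_6_89 : ck_5_6 ⟨nat_lit 0x9070408080, nat_lit 2, nat_lit 318⟩ = true := by decide +kernel

theorem k_5_6_90 : ck_5_6 ⟨nat_lit 0x9060c00000, nat_lit 7, nat_lit 320⟩ = true := by decide +kernel

theorem k_5_6_91 : ck_5_6 ⟨nat_lit 0x9060a04000, nat_lit 5, nat_lit 327⟩ = true := by decide +kernel

theorem k_5_6_92 : ck_5_6 ⟨nat_lit 0x9060808000, nat_lit 9, nat_lit 332⟩ = true := by decide +kernel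

theorem k_5_6_93 : ck_5_6 ⟨nat_lit 0x9060804080, nat_lit 1, nat_lit 341⟩ = true := by decide +kernel

theorem k_5_6_94 : ck_5_6 ⟨nat_lit 0x906060c000, nat_lit 1, nat_lit 342⟩ = true := by decide +kernel

theorem k_5_6_95 : ck_5_6 ⟨nat_lit 0x9060608080, nat_lit 2, nat_lit 343⟩ = true := by decide +kernel

theorem k_5_6_96 : ck_5_6 ⟨nat_lit 0x9060408100, nat_lit 2, nat_lit 345⟩ = true := by decide +kernel

theorem k_5_6_97 : ck_5_6 ⟨nat_lit 0x9050a08000, nat_lit 1, nat_lit 347⟩ = true := by decide +kernel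

theorem k_5_6_98 : ck_5_6 ⟨nat_lit 0x9050a04080, nat_lit 1, nat_lit 348⟩ = true := by decide +kernel

theorem k_5_6_99 : ck_5_6 ⟨nat_lit 0x905080c000, nat_lit 2, nat_lit 349⟩ = true := by decide +kernel

theorem k_5_6_100 : ck_5_6 ⟨nat_lit 0x9050808080, nat_lit 2, nat_lit 351⟩ = true := by decide +kernel

theorem k_5_6_101 : ck_5_6 ⟨nat_lit 0x9040810000, nat_lit 2, nat_lit 353⟩ = true := by decide +kernel

theorem k_5_6_102 : ck_5_6 ⟨nat_lit 0x9040808100, nat_lit 1, nat_lit 355⟩ = true := by decide +kernel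

theorem k_5_6_103 : ck_5_6 ⟨nat_lit 0x88d0000000, nat_lit 1, nat_lit 356⟩ = true := by decide +kernel

theorem k_5_6_104 : ck_5_6 ⟨nat_lit 0x88c0200000, nat_lit 4, nat_lit 357⟩ = true := by decide +kernel

theorem k_5_6_105 : ck_5_6 ⟨nat_lit 0x88b0400000, nat_lit 7, nat_lit 361⟩ = true := by decide +kernel

theorem k_5_6_106 : ck_5_6 ⟨nat_lit 0x88b0204000, nat_lit 2, nat_lit 368⟩ = true := by decide +kernel

theorem k_5_6_107 : ck_5_6 ⟨nat_lit 0x88a0600000, nat_lit 10, nat_lit 370⟩ = true := by decide +kernel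

theorem k_5_6_108 : ck_5_6 ⟨nat_lit 0x88a0404000, nat_lit 8, nat_lit 380⟩ = true := by decide +kernel

theorem k_5_6_109 : ck_5_6 ⟨nat_lit 0x8890800000, nat_lit 11, nat_lit 388⟩ = true := by decide +kernel

theorem k_5_6_110 : ck_5_6 ⟨nat_lit 0x8890604000, nat_lit 10, nat_lit 399⟩ = true := by decide +kernel

/-- sources 87 to 110 -/
noncomputable def c_5_6_3 : List IE := [⟨nat_lit 0x9070608000, nat_lit 6, nat_lit 310⟩,
  ⟨nat_lit 0x9070604080, nat_lit 2, nat_lit 316⟩,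
  ⟨nat_lit 0x9070408080, nat_lit 2, nat_lit 318⟩,
  ⟨nat_lit 0x9060c00000, nat_lit 7, nat_lit 320⟩,
  ⟨nat_lit 0x9060a04000, nat_lit 5, nat_lit 327⟩,
  ⟨nat_lit 0x9060808000, nat_lit 9, nat_lit 332⟩,
  ⟨nat_lit 0x9060804080, nat_lit 1, nat_lit 341⟩,
  ⟨nat_lit 0x906060c000, nat_lit 1, nat_lit 342⟩,
  ⟨nat_lit 0x9060608080, nat_lit 2, nat_lit 343⟩,
  ⟨nat_lit 0x9060408100, nat_lit 2, nat_lit 345⟩,
  ⟨nat_lit 0x9050a08000, nat_lit 1, nat_lit 347⟩,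
  ⟨nat_lit 0x9050a04080, nat_lit 1, nat_lit 348⟩,
  ⟨nat_lit 0x905080c000, nat_lit 2, nat_lit 349⟩,
  ⟨nat_lit 0x9050808080, nat_lit 2, nat_lit 351⟩,
  ⟨nat_lit 0x9040810000, nat_lit 2, nat_lit 353⟩,
  ⟨nat_lit 0x9040808100, nat_lit 1, nat_lit 355⟩,
  ⟨nat_lit 0x88d0000000, nat_lit 1, nat_lit 356⟩,
  ⟨nat_lit 0x88c0200000, nat_lit 4, nat_lit 357⟩,
  ⟨nat_lit 0x88b0400000, nat_lit 7, nat_lit 361⟩,
  ⟨nat_lit 0x88b0204000, nat_lit 2, nat_lit 368⟩,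
  ⟨nat_lit 0x88a0600000, nat_lit 10, nat_lit 370⟩,
  ⟨nat_lit 0x88a0404000, nat_lit 8, nat_lit 380⟩,
  ⟨nat_lit 0x8890800000, nat_lit 11, nat_lit 388⟩,
  ⟨nat_lit 0x8890604000, nat_lit 10, nat_lit 399⟩]

theorem C_5_6_3 : allL ck_5_6 c_5_6_3 = true :=
  (allL_cons k_5_6_87 (allL_cons k_5_6_88 (allL_cons k_5_6_89 (allL_cons k_5_6_90 (allL_cons k_5_6_91 (allL_cons k_5_6_92 (allL_cons k_5_6_93 (allL_cons k_5_6_94 (allL_cons k_5_6_95 (allL_cons k_5_6_96 (allL_cons k_5_6_97 (allL_cons k_5_6_98 (allL_cons k_5_6_99 (allL_cons k_5_6_100 (allL_cons k_5_6_101 (allL_cons k_5_6_102 (allL_cons k_5_6_103 (allL_cons k_5_6_104 (allL_cons k_5_6_105 (allL_cons k_5_6_106 (allL_cons k_5_6_107 (allL_cons k_5_6_108 (allL_cons k_5_6_109 (allL_cons k_5_6_110 (allL_nil _)))))))))))))))))))))))))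

end Crest.Agent.R187.SN.KC
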