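import Crest.Agent.R187.SN.KC.Def

/-!
# Row 187, PLAN S, block E2: sources 111 to 126 of level (5, 6) (generated)
-/

set_option autoImplicit false
set_option maxRecDepth 100000
set_option Elab.async false

namespace Crest.Agent.R187.SN.KC

open Crest.Agent.R187.SN Crest.Agent.R187.SN.Spec Crest.Agent.R187.SN.Kern
open Crest.Agent.R187.SN.KKey Crest.Agent.R187.SN.KD Crest.Agent.R187.SN.KE
open Crest.Agent.R187.SN.KRel Crest.Agent.R187.SN.KDec

theorem k_5_6_111 : ck_5_6 ⟨nat_lit 0x8890408000, nat_lit 6, nat_lit 409⟩ = true := by decide +kernel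

theorem k_5_6_112 : ck_5_6 ⟨nat_lit 0x8890404080, nat_lit 2, nat_lit 415⟩ = true := by decide +kernel

theorem k_5_6_113 : ck_5_6 ⟨nat_lit 0x8880a00000, nat_lit 10, nat_lit 417⟩ = true := by decide +kernel

theorem k_5_6_114 : ck_5_6 ⟨nat_lit 0x8880804000, nat_lit 13, nat_lit 427⟩ = true := by decide +kernel

theorem k_5_6_115 : ck_5_6 ⟨nat_lit 0x8880608000, nat_lit 9, nat_lit 440⟩ = true := by decide +kernel

theorem k_5_6_116 : ck_5_6 ⟨nat_lit 0x8880604080, nat_lit 2, nat_lit 449⟩ = true := by decide +kernel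

theorem k_5_6_117 : ck_5_6 ⟨nat_lit 0x8880408080, nat_lit 3, nat_lit 451⟩ = true := by decide +kernel

theorem k_5_6_118 : ck_5_6 ⟨nat_lit 0x8870c00000, nat_lit 6, nat_lit 454⟩ = true := by decide +kernel

theorem k_5_6_119 : ck_5_6 ⟨nat_lit 0x8870a04000, nat_lit 9, nat_lit 460⟩ = true := by decide +kernel

theorem k_5_6_120 : ck_5_6 ⟨nat_lit 0x8870808000, nat_lit 11, nat_lit 469⟩ = true := by decide +kernel

theorem k_5_6_121 : ck_5_6 ⟨nat_lit 0x8870804080, nat_lit 3, nat_lit 480⟩ = true := by decide +kernel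

theorem k_5_6_122 : ck_5_6 ⟨nat_lit 0x887060c000, nat_lit 2, nat_lit 483⟩ = true := by decide +kernel

theorem k_5_6_123 : ck_5_6 ⟨nat_lit 0x8870608080, nat_lit 3, nat_lit 485⟩ = true := by decide +kernel

theorem k_5_6_124 : ck_5_6 ⟨nat_lit 0x8870408100, nat_lit 1, nat_lit 488⟩ = true := by decide +kernel

theorem k_5_6_125 : ck_5_6 ⟨nat_lit 0x8860c04000, nat_lit 5, nat_lit 489⟩ = true := by decide +kernel

theorem k_5_6_126 : ck_5_6 ⟨nat_lit 0x8860a08000, nat_lit 7, nat_lit 494⟩ = true := by decide +kernel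

/-- sources 111 to 126 -/
noncomputable def c_5_6_4 : List IE := [⟨nat_lit 0x8890408000, nat_lit 6, nat_lit 409⟩,
  ⟨nat_lit 0x8890404080, nat_lit 2, nat_lit 415⟩,
  ⟨nat_lit 0x8880a00000, nat_lit 10, nat_lit 417⟩,
  ⟨nat_lit 0x8880804000, nat_lit 13, nat_lit 427⟩,
  ⟨nat_lit 0x8880608000, nat_lit 9, nat_lit 440⟩,
  ⟨nat_lit 0x8880604080, nat_lit 2, nat_lit 449⟩,
  ⟨nat_lit 0x8880408080, nat_lit 3, nat_lit 451⟩,
  ⟨nat_lit 0x8870c00000, nat_lit 6, nat_lit 454⟩,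
  ⟨nat_lit 0x8870a04000, nat_lit 9, nat_lit 460⟩,
  ⟨nat_lit 0x8870808000, nat_lit 11, nat_lit 469⟩,
  ⟨nat_lit 0x8870804080, nat_lit 3, nat_lit 480⟩,
  ⟨nat_lit 0x887060c000, nat_lit 2, nat_lit 483⟩,
  ⟨nat_lit 0x8870608080, nat_lit 3, nat_lit 485⟩,
  ⟨nat_lit 0x8870408100, nat_lit 1, nat_lit 488⟩,
  ⟨nat_lit 0x8860c04000, nat_lit 5, nat_lit 489⟩,
  ⟨nat_lit 0x8860a08000, nat_lit 7, nat_lit 494⟩]

theorem C_5_6_4 : allL ck_5_6 c_5_6_4 = true :=
  (allL_cons k_5_6_111 (allL_cons k_5_6_112 (allL_cons k_5_6_113 (allL_cons k_5_6_114 (allL_cons k_5_6_115 (allL_cons k_5_6_116 (allL_cons k_5_6_117 (allL_cons k_5_6_118 (allL_cons k_5_6_119 (allL_cons k_5_6_120 (allL_cons k_5_6_121 (allL_cons k_5_6_122 (allL_cons k_5_6_123 (allL_cons k_5_6_124 (allL_cons k_5_6_125 (allL_cons k_5_6_126 (allL_nil _)))))))))))))))))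

end Crest.Agent.R187.SN.KC
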