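import Crest.Agent.R187.SN.KC.Def

/-!
# Row 187, PLAN S, block E2: sources 127 to 148 of level (5, 6) (generated)
-/

set_option autoImplicit false
set_option maxRecDepth 100000
set_option Elab.async false

namespace Crest.Agent.R187.SN.KC

open Crest.Agent.R187.SN Crest.Agent.R187.SN.Spec Crest.Agent.R187.SN.Kern
open Crest.Agent.R187.SN.KKey Crest.Agent.R187.SN.KD Crest.Agent.R187.SN.KE
open Crest.Agent.R187.SN.KRel Crest.Agent.R187.SN.KDec

theorem k_5_6_127 : ck_5_6 ⟨nat_lit 0x8860a04080, nat_lit 1, nat_lit 501⟩ = true := by decide +kernel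

theorem k_5_6_128 : ck_5_6 ⟨nat_lit 0x886080c000, nat_lit 5, nat_lit 502⟩ = true := by decide +kernel

theorem k_5_6_129 : ck_5_6 ⟨nat_lit 0x8860808080, nat_lit 4, nat_lit 507⟩ = true := by decide +kernel

theorem k_5_6_130 : ck_5_6 ⟨nat_lit 0x8860608100, nat_lit 1, nat_lit 511⟩ = true := by decide +kernel

theorem k_5_6_131 : ck_5_6 ⟨nat_lit 0x8850a08080, nat_lit 1, nat_lit 512⟩ = true := by decide +kernel

theorem k_5_6_132 : ck_5_6 ⟨nat_lit 0x8850810000, nat_lit 2, nat_lit 513⟩ = true := by decide +kernel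

theorem k_5_6_133 : ck_5_6 ⟨nat_lit 0x885080c080, nat_lit 1, nat_lit 515⟩ = true := by decide +kernel

theorem k_5_6_134 : ck_5_6 ⟨nat_lit 0x8850808100, nat_lit 1, nat_lit 516⟩ = true := by decide +kernel

theorem k_5_6_135 : ck_5_6 ⟨nat_lit 0x8840810080, nat_lit 1, nat_lit 517⟩ = true := by decide +kernel

theorem k_5_6_136 : ck_5_6 ⟨nat_lit 0x80e0000000, nat_lit 2, nat_lit 518⟩ = true := by decide +kernel

theorem k_5_6_137 : ck_5_6 ⟨nat_lit 0x80d0200000, nat_lit 3, nat_lit 520⟩ = true := by decide +kernel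

theorem k_5_6_138 : ck_5_6 ⟨nat_lit 0x80c0400000, nat_lit 8, nat_lit 523⟩ = true := by decide +kernel

theorem k_5_6_139 : ck_5_6 ⟨nat_lit 0x80c0204000, nat_lit 1, nat_lit 531⟩ = true := by decide +kernel

theorem k_5_6_140 : ck_5_6 ⟨nat_lit 0x80b0600000, nat_lit 8, nat_lit 532⟩ = true := by decide +kernel

theorem k_5_6_141 : ck_5_6 ⟨nat_lit 0x80b0404000, nat_lit 7, nat_lit 540⟩ = true := by decide +kernel

theorem k_5_6_142 : ck_5_6 ⟨nat_lit 0x80b0204080, nat_lit 1, nat_lit 547⟩ = true := by decide +kernel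

theorem k_5_6_143 : ck_5_6 ⟨nat_lit 0x80a0800000, nat_lit 14, nat_lit 548⟩ = true := by decide +kernel

theorem k_5_6_144 : ck_5_6 ⟨nat_lit 0x80a0604000, nat_lit 10, nat_lit 562⟩ = true := by decide +kernel

theorem k_5_6_145 : ck_5_6 ⟨nat_lit 0x80a0408000, nat_lit 8, nat_lit 572⟩ = true := by decide +kernel

theorem k_5_6_146 : ck_5_6 ⟨nat_lit 0x80a0404080, nat_lit 1, nat_lit 580⟩ = true := by decide +kernel

theorem k_5_6_147 : ck_5_6 ⟨nat_lit 0x8090a00000, nat_lit 10, nat_lit 581⟩ = true := by decide +kernel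

theorem k_5_6_148 : ck_5_6 ⟨nat_lit 0x8090804000, nat_lit 14, nat_lit 591⟩ = true := by decide +kernel

/-- sources 127 to 148 -/
noncomputable def c_5_6_5 : List IE := [⟨nat_lit 0x8860a04080, nat_lit 1, nat_lit 501⟩,
  ⟨nat_lit 0x886080c000, nat_lit 5, nat_lit 502⟩,
  ⟨nat_lit 0x8860808080, nat_lit 4, nat_lit 507⟩,
  ⟨nat_lit 0x8860608100, nat_lit 1, nat_lit 511⟩,
  ⟨nat_lit 0x8850a08080, nat_lit 1, nat_lit 512⟩,
  ⟨nat_lit 0x8850810000, nat_lit 2, nat_lit 513⟩,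
  ⟨nat_lit 0x885080c080, nat_lit 1, nat_lit 515⟩,
  ⟨nat_lit 0x8850808100, nat_lit 1, nat_lit 516⟩,
  ⟨nat_lit 0x8840810080, nat_lit 1, nat_lit 517⟩,
  ⟨nat_lit 0x80e0000000, nat_lit 2, nat_lit 518⟩,
  ⟨nat_lit 0x80d0200000, nat_lit 3, nat_lit 520⟩,
  ⟨nat_lit 0x80c0400000, nat_lit 8, nat_lit 523⟩,
  ⟨nat_lit 0x80c0204000, nat_lit 1, nat_lit 531⟩,
  ⟨nat_lit 0x80b0600000, nat_lit 8, nat_lit 532⟩,
  ⟨nat_lit 0x80b0404000, nat_lit 7, nat_lit 540⟩,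
  ⟨nat_lit 0x80b0204080, nat_lit 1, nat_lit 547⟩,
  ⟨nat_lit 0x80a0800000, nat_lit 14, nat_lit 548⟩,
  ⟨nat_lit 0x80a0604000, nat_lit 10, nat_lit 562⟩,
  ⟨nat_lit 0x80a0408000, nat_lit 8, nat_lit 572⟩,
  ⟨nat_lit 0x80a0404080, nat_lit 1, nat_lit 580⟩,
  ⟨nat_lit 0x8090a00000, nat_lit 10, nat_lit 581⟩,
  ⟨nat_lit 0x8090804000, nat_lit 14, nat_lit 591⟩]

theorem C_5_6_5 : allL ck_5_6 c_5_6_5 = true :=
  (allL_cons k_5_6_127 (allL_cons k_5_6_128 (allL_cons k_5_6_129 (allL_cons k_5_6_130 (allL_cons k_5_6_131 (allL_cons k_5_6_132 (allL_cons k_5_6_133 (allL_cons k_5_6_134 (allL_cons k_5_6_135 (allL_cons k_5_6_136 (allL_cons k_5_6_137 (allL_cons k_5_6_138 (allL_cons k_5_6_139 (allL_cons k_5_6_140 (allL_cons k_5_6_141 (allL_cons k_5_6_142 (allL_cons k_5_6_143 (allL_cons k_5_6_144 (allL_cons k_5_6_145 (allL_cons k_5_6_146 (allL_cons k_5_6_147 (allL_cons k_5_6_148 (allL_nil _)))))))))))))))))))))))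

end Crest.Agent.R187.SN.KC
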