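import Crest.Agent.R187.SN.KC.Def

/-!
# Row 187, PLAN S, block E2: sources 149 to 161 of level (5, 6) (generated)
-/

set_option autoImplicit false
set_option maxRecDepth 100000
set_option Elab.async false

namespace Crest.Agent.R187.SN.KC

open Crest.Agent.R187.SN Crest.Agent.R187.SN.Spec Crest.Agent.R187.SN.Kern
open Crest.Agent.R187.SN.KKey Crest.Agent.R187.SN.KD Crest.Agent.R187.SN.KE
open Crest.Agent.R187.SN.KRel Crest.Agent.R187.SN.KDec

theorem k_5_6_149 : ck_5_6 ⟨nat_lit 0x8090608000, nat_lit 9, nat_lit 605⟩ = true := by decide +kernel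

theorem k_5_6_150 : ck_5_6 ⟨nat_lit 0x8090604080, nat_lit 3, nat_lit 614⟩ = true := by decide +kernel

theorem k_5_6_151 : ck_5_6 ⟨nat_lit 0x8090408080, nat_lit 3, nat_lit 617⟩ = true := by decide +kernel

theorem k_5_6_152 : ck_5_6 ⟨nat_lit 0x8080c00000, nat_lit 12, nat_lit 620⟩ = true := by decide +kernel

theorem k_5_6_153 : ck_5_6 ⟨nat_lit 0x8080a04000, nat_lit 12, nat_lit 632⟩ = true := by decide +kernel

theorem k_5_6_154 : ck_5_6 ⟨nat_lit 0x8080808000, nat_lit 16, nat_lit 644⟩ = true := by decide +kernel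

theorem k_5_6_155 : ck_5_6 ⟨nat_lit 0x8080804080, nat_lit 3, nat_lit 660⟩ = true := by decide +kernel

theorem k_5_6_156 : ck_5_6 ⟨nat_lit 0x808060c000, nat_lit 2, nat_lit 663⟩ = true := by decide +kernel

theorem k_5_6_157 : ck_5_6 ⟨nat_lit 0x8080608080, nat_lit 4, nat_lit 665⟩ = true := by decide +kernel

theorem k_5_6_158 : ck_5_6 ⟨nat_lit 0x8080408100, nat_lit 2, nat_lit 669⟩ = true := by decide +kernel

theorem k_5_6_159 : ck_5_6 ⟨nat_lit 0x8070e00000, nat_lit 1, nat_lit 671⟩ = true := by decide +kernel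

theorem k_5_6_160 : ck_5_6 ⟨nat_lit 0x8070c04000, nat_lit 9, nat_lit 672⟩ = true := by decide +kernel

theorem k_5_6_161 : ck_5_6 ⟨nat_lit 0x8070a08000, nat_lit 9, nat_lit 681⟩ = true := by decide +kernel

/-- sources 149 to 161 -/
noncomputable def c_5_6_6 : List IE := [⟨nat_lit 0x8090608000, nat_lit 9, nat_lit 605⟩,
  ⟨nat_lit 0x8090604080, nat_lit 3, nat_lit 614⟩,
  ⟨nat_lit 0x8090408080, nat_lit 3, nat_lit 617⟩,
  ⟨nat_lit 0x8080c00000, nat_lit 12, nat_lit 620⟩,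
  ⟨nat_lit 0x8080a04000, nat_lit 12, nat_lit 632⟩,
  ⟨nat_lit 0x8080808000, nat_lit 16, nat_lit 644⟩,
  ⟨nat_lit 0x8080804080, nat_lit 3, nat_lit 660⟩,
  ⟨nat_lit 0x808060c000, nat_lit 2, nat_lit 663⟩,
  ⟨nat_lit 0x8080608080, nat_lit 4, nat_lit 665⟩,
  ⟨nat_lit 0x8080408100, nat_lit 2, nat_lit 669⟩,
  ⟨nat_lit 0x8070e00000, nat_lit 1, nat_lit 671⟩,
  ⟨nat_lit 0x8070c04000, nat_lit 9, nat_lit 672⟩,
  ⟨nat_lit 0x8070a08000, nat_lit 9, nat_lit 681⟩]

theorem C_5_6_6 : allL ck_5_6 c_5_6_6 = true :=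
  (allL_cons k_5_6_149 (allL_cons k_5_6_150 (allL_cons k_5_6_151 (allL_cons k_5_6_152 (allL_cons k_5_6_153 (allL_cons k_5_6_154 (allL_cons k_5_6_155 (allL_cons k_5_6_156 (allL_cons k_5_6_157 (allL_cons k_5_6_158 (allL_cons k_5_6_159 (allL_cons k_5_6_160 (allL_cons k_5_6_161 (allL_nil _))))))))))))))

end Crest.Agent.R187.SN.KC
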