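import Crest.Agent.R187.SN.KC.Def

/-!
# Row 187, PLAN S, block E2: sources 162 to 184 of level (5, 6) (generated)
-/

set_option autoImplicit false
set_option maxRecDepth 100000
set_option Elab.async false

namespace Crest.Agent.R187.SN.KC

open Crest.Agent.R187.SN Crest.Agent.R187.SN.Spec Crest.Agent.R187.SN.Kern
open Crest.Agent.R187.SN.KKey Crest.Agent.R187.SN.KD Crest.Agent.R187.SN.KE
open Crest.Agent.R187.SN.KRel Crest.Agent.R187.SN.KDec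

theorem k_5_6_162 : ck_5_6 ⟨nat_lit 0x8070a04080, nat_lit 4, nat_lit 690⟩ = true := by decide +kernel

theorem k_5_6_163 : ck_5_6 ⟨nat_lit 0x807080c000, nat_lit 7, nat_lit 694⟩ = true := by decide +kernel

theorem k_5_6_164 : ck_5_6 ⟨nat_lit 0x8070808080, nat_lit 5, nat_lit 701⟩ = true := by decide +kernel

theorem k_5_6_165 : ck_5_6 ⟨nat_lit 0x807060c080, nat_lit 1, nat_lit 706⟩ = true := by decide +kernel

theorem k_5_6_166 : ck_5_6 ⟨nat_lit 0x8070608100, nat_lit 1, nat_lit 707⟩ = true := by decide +kernel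

theorem k_5_6_167 : ck_5_6 ⟨nat_lit 0x8060c08000, nat_lit 8, nat_lit 708⟩ = true := by decide +kernel

theorem k_5_6_168 : ck_5_6 ⟨nat_lit 0x8060a0c000, nat_lit 4, nat_lit 716⟩ = true := by decide +kernel

theorem k_5_6_169 : ck_5_6 ⟨nat_lit 0x8060a08080, nat_lit 3, nat_lit 720⟩ = true := by decide +kernel

theorem k_5_6_170 : ck_5_6 ⟨nat_lit 0x8060810000, nat_lit 5, nat_lit 723⟩ = true := by decide +kernel

theorem k_5_6_171 : ck_5_6 ⟨nat_lit 0x806080c080, nat_lit 2, nat_lit 728⟩ = true := by decide +kernel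

theorem k_5_6_172 : ck_5_6 ⟨nat_lit 0x8060808100, nat_lit 3, nat_lit 730⟩ = true := by decide +kernel

theorem k_5_6_173 : ck_5_6 ⟨nat_lit 0x8050a0c080, nat_lit 1, nat_lit 733⟩ = true := by decide +kernel

theorem k_5_6_174 : ck_5_6 ⟨nat_lit 0x8050810080, nat_lit 1, nat_lit 734⟩ = true := by decide +kernel

theorem k_5_6_175 : ck_5_6 ⟨nat_lit 0x8040810100, nat_lit 1, nat_lit 735⟩ = true := by decide +kernel

theorem k_5_6_176 : ck_5_6 ⟨nat_lit 0x78e0200000, nat_lit 1, nat_lit 736⟩ = true := by decide +kernel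

theorem k_5_6_177 : ck_5_6 ⟨nat_lit 0x78d0400000, nat_lit 3, nat_lit 737⟩ = true := by decide +kernel

theorem k_5_6_178 : ck_5_6 ⟨nat_lit 0x78d0204000, nat_lit 2, nat_lit 740⟩ = true := by decide +kernel

theorem k_5_6_179 : ck_5_6 ⟨nat_lit 0x78c0600000, nat_lit 7, nat_lit 742⟩ = true := by decide +kernel

theorem k_5_6_180 : ck_5_6 ⟨nat_lit 0x78c0404000, nat_lit 5, nat_lit 749⟩ = true := by decide +kernel

theorem k_5_6_181 : ck_5_6 ⟨nat_lit 0x78b0800000, nat_lit 8, nat_lit 754⟩ = true := by decide +kernel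

theorem k_5_6_182 : ck_5_6 ⟨nat_lit 0x78b0604000, nat_lit 9, nat_lit 762⟩ = true := by decide +kernel

theorem k_5_6_183 : ck_5_6 ⟨nat_lit 0x78b0408000, nat_lit 5, nat_lit 771⟩ = true := by decide +kernel

theorem k_5_6_184 : ck_5_6 ⟨nat_lit 0x78b0404080, nat_lit 2, nat_lit 776⟩ = true := by decide +kernel

/-- sources 162 to 184 -/
noncomputable def c_5_6_7 : List IE := [⟨nat_lit 0x8070a04080, nat_lit 4, nat_lit 690⟩,
  ⟨nat_lit 0x807080c000, nat_lit 7, nat_lit 694⟩,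
  ⟨nat_lit 0x8070808080, nat_lit 5, nat_lit 701⟩,
  ⟨nat_lit 0x807060c080, nat_lit 1, nat_lit 706⟩,
  ⟨nat_lit 0x8070608100, nat_lit 1, nat_lit 707⟩,
  ⟨nat_lit 0x8060c08000, nat_lit 8, nat_lit 708⟩,
  ⟨nat_lit 0x8060a0c000, nat_lit 4, nat_lit 716⟩,
  ⟨nat_lit 0x8060a08080, nat_lit 3, nat_lit 720⟩,
  ⟨nat_lit 0x8060810000, nat_lit 5, nat_lit 723⟩,
  ⟨nat_lit 0x806080c080, nat_lit 2, nat_lit 728⟩,
  ⟨nat_lit 0x8060808100, nat_lit 3, nat_lit 730⟩,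
  ⟨nat_lit 0x8050a0c080, nat_lit 1, nat_lit 733⟩,
  ⟨nat_lit 0x8050810080, nat_lit 1, nat_lit 734⟩,
  ⟨nat_lit 0x8040810100, nat_lit 1, nat_lit 735⟩,
  ⟨nat_lit 0x78e0200000, nat_lit 1, nat_lit 736⟩,
  ⟨nat_lit 0x78d0400000, nat_lit 3, nat_lit 737⟩,
  ⟨nat_lit 0x78d0204000, nat_lit 2, nat_lit 740⟩,
  ⟨nat_lit 0x78c0600000, nat_lit 7, nat_lit 742⟩,
  ⟨nat_lit 0x78c0404000, nat_lit 5, nat_lit 749⟩,
  ⟨nat_lit 0x78b0800000, nat_lit 8, nat_lit 754⟩,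
  ⟨nat_lit 0x78b0604000, nat_lit 9, nat_lit 762⟩,
  ⟨nat_lit 0x78b0408000, nat_lit 5, nat_lit 771⟩,
  ⟨nat_lit 0x78b0404080, nat_lit 2, nat_lit 776⟩]

theorem C_5_6_7 : allL ck_5_6 c_5_6_7 = true :=
  (allL_cons k_5_6_162 (allL_cons k_5_6_163 (allL_cons k_5_6_164 (allL_cons k_5_6_165 (allL_cons k_5_6_166 (allL_cons k_5_6_167 (allL_cons k_5_6_168 (allL_cons k_5_6_169 (allL_cons k_5_6_170 (allL_cons k_5_6_171 (allL_cons k_5_6_172 (allL_cons k_5_6_173 (allL_cons k_5_6_174 (allL_cons k_5_6_175 (allL_cons k_5_6_176 (allL_cons k_5_6_177 (allL_cons k_5_6_178 (allL_cons k_5_6_179 (allL_cons k_5_6_180 (allL_cons k_5_6_181 (allL_cons k_5_6_182 (allL_cons k_5_6_183 (allL_cons k_5_6_184 (allL_nil _))))))))))))))))))))))))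

end Crest.Agent.R187.SN.KC
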