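import Crest.Agent.R187.SN.KC.Def

/-!
# Row 187, PLAN S, block E2: sources 185 to 194 of level (5, 6) (generated)
-/

set_option autoImplicit false
set_option maxRecDepth 100000
set_option Elab.async false

namespace Crest.Agent.R187.SN.KC

open Crest.Agent.R187.SN Crest.Agent.R187.SN.Spec Crest.Agent.R187.SN.Kern
open Crest.Agent.R187.SN.KKey Crest.Agent.R187.SN.KD Crest.Agent.R187.SN.KE
open Crest.Agent.R187.SN.KRel Crest.Agent.R187.SN.KDec

theorem k_5_6_185 : ck_5_6 ⟨nat_lit 0x78a0a00000, nat_lit 11, nat_lit 778⟩ = true := by decide +kernel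

theorem k_5_6_186 : ck_5_6 ⟨nat_lit 0x78a0804000, nat_lit 14, nat_lit 789⟩ = true := by decide +kernel

theorem k_5_6_187 : ck_5_6 ⟨nat_lit 0x78a0608000, nat_lit 9, nat_lit 803⟩ = true := by decide +kernel

theorem k_5_6_188 : ck_5_6 ⟨nat_lit 0x78a0604080, nat_lit 3, nat_lit 812⟩ = true := by decide +kernel

theorem k_5_6_189 : ck_5_6 ⟨nat_lit 0x78a0408080, nat_lit 3, nat_lit 815⟩ = true := by decide +kernel

theorem k_5_6_190 : ck_5_6 ⟨nat_lit 0x7890c00000, nat_lit 9, nat_lit 818⟩ = true := by decide +kernel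

theorem k_5_6_191 : ck_5_6 ⟨nat_lit 0x7890a04000, nat_lit 13, nat_lit 827⟩ = true := by decide +kernel

theorem k_5_6_192 : ck_5_6 ⟨nat_lit 0x7890808000, nat_lit 14, nat_lit 840⟩ = true := by decide +kernel

theorem k_5_6_193 : ck_5_6 ⟨nat_lit 0x7890804080, nat_lit 5, nat_lit 854⟩ = true := by decide +kernel

theorem k_5_6_194 : ck_5_6 ⟨nat_lit 0x789060c000, nat_lit 4, nat_lit 859⟩ = true := by decide +kernel

/-- sources 185 to 194 -/
noncomputable def c_5_6_8 : List IE := [⟨nat_lit 0x78a0a00000, nat_lit 11, nat_lit 778⟩,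
  ⟨nat_lit 0x78a0804000, nat_lit 14, nat_lit 789⟩,
  ⟨nat_lit 0x78a0608000, nat_lit 9, nat_lit 803⟩,
  ⟨nat_lit 0x78a0604080, nat_lit 3, nat_lit 812⟩,
  ⟨nat_lit 0x78a0408080, nat_lit 3, nat_lit 815⟩,
  ⟨nat_lit 0x7890c00000, nat_lit 9, nat_lit 818⟩,
  ⟨nat_lit 0x7890a04000, nat_lit 13, nat_lit 827⟩,
  ⟨nat_lit 0x7890808000, nat_lit 14, nat_lit 840⟩,
  ⟨nat_lit 0x7890804080, nat_lit 5, nat_lit 854⟩,
  ⟨nat_lit 0x789060c000, nat_lit 4, nat_lit 859⟩]

theorem C_5_6_8 : allL ck_5_6 c_5_6_8 = true :=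
  (allL_cons k_5_6_185 (allL_cons k_5_6_186 (allL_cons k_5_6_187 (allL_cons k_5_6_188 (allL_cons k_5_6_189 (allL_cons k_5_6_190 (allL_cons k_5_6_191 (allL_cons k_5_6_192 (allL_cons k_5_6_193 (allL_cons k_5_6_194 (allL_nil _)))))))))))

end Crest.Agent.R187.SN.KC
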