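import Crest.Agent.R187.SN.KC.Def

/-!
# Row 187, PLAN S, block E2: sources 195 to 208 of level (5, 6) (generated)
-/

set_option autoImplicit false
set_option maxRecDepth 100000
set_option Elab.async false

namespace Crest.Agent.R187.SN.KC

open Crest.Agent.R187.SN Crest.Agent.R187.SN.Spec Crest.Agent.R187.SN.Kern
open Crest.Agent.R187.SN.KKey Crest.Agent.R187.SN.KD Crest.Agent.R187.SN.KE
open Crest.Agent.R187.SN.KRel Crest.Agent.R187.SN.KDec

theorem k_5_6_195 : ck_5_6 ⟨nat_lit 0x7890608080, nat_lit 4, nat_lit 863⟩ = true := by decide +kernel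

theorem k_5_6_196 : ck_5_6 ⟨nat_lit 0x7890408100, nat_lit 1, nat_lit 867⟩ = true := by decide +kernel

theorem k_5_6_197 : ck_5_6 ⟨nat_lit 0x7880e00000, nat_lit 5, nat_lit 868⟩ = true := by decide +kernel

theorem k_5_6_198 : ck_5_6 ⟨nat_lit 0x7880c04000, nat_lit 13, nat_lit 873⟩ = true := by decide +kernel

theorem k_5_6_199 : ck_5_6 ⟨nat_lit 0x7880a08000, nat_lit 14, nat_lit 886⟩ = true := by decide +kernel

theorem k_5_6_200 : ck_5_6 ⟨nat_lit 0x7880a04080, nat_lit 4, nat_lit 900⟩ = true := by decide +kernel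

theorem k_5_6_201 : ck_5_6 ⟨nat_lit 0x788080c000, nat_lit 9, nat_lit 904⟩ = true := by decide +kernel

theorem k_5_6_202 : ck_5_6 ⟨nat_lit 0x7880808080, nat_lit 7, nat_lit 913⟩ = true := by decide +kernel

theorem k_5_6_203 : ck_5_6 ⟨nat_lit 0x788060c080, nat_lit 1, nat_lit 920⟩ = true := by decide +kernel

theorem k_5_6_204 : ck_5_6 ⟨nat_lit 0x7880608100, nat_lit 2, nat_lit 921⟩ = true := by decide +kernel

theorem k_5_6_205 : ck_5_6 ⟨nat_lit 0x7870e04000, nat_lit 4, nat_lit 923⟩ = true := by decide +kernel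

theorem k_5_6_206 : ck_5_6 ⟨nat_lit 0x7870c08000, nat_lit 9, nat_lit 927⟩ = true := by decide +kernel

theorem k_5_6_207 : ck_5_6 ⟨nat_lit 0x7870c04080, nat_lit 3, nat_lit 936⟩ = true := by decide +kernel

theorem k_5_6_208 : ck_5_6 ⟨nat_lit 0x7870a0c000, nat_lit 7, nat_lit 939⟩ = true := by decide +kernel

/-- sources 195 to 208 -/
noncomputable def c_5_6_9 : List IE := [⟨nat_lit 0x7890608080, nat_lit 4, nat_lit 863⟩,
  ⟨nat_lit 0x7890408100, nat_lit 1, nat_lit 867⟩,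
  ⟨nat_lit 0x7880e00000, nat_lit 5, nat_lit 868⟩,
  ⟨nat_lit 0x7880c04000, nat_lit 13, nat_lit 873⟩,
  ⟨nat_lit 0x7880a08000, nat_lit 14, nat_lit 886⟩,
  ⟨nat_lit 0x7880a04080, nat_lit 4, nat_lit 900⟩,
  ⟨nat_lit 0x788080c000, nat_lit 9, nat_lit 904⟩,
  ⟨nat_lit 0x7880808080, nat_lit 7, nat_lit 913⟩,
  ⟨nat_lit 0x788060c080, nat_lit 1, nat_lit 920⟩,
  ⟨nat_lit 0x7880608100, nat_lit 2, nat_lit 921⟩,
  ⟨nat_lit 0x7870e04000, nat_lit 4, nat_lit 923⟩,
  ⟨nat_lit 0x7870c08000, nat_lit 9, nat_lit 927⟩,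
  ⟨nat_lit 0x7870c04080, nat_lit 3, nat_lit 936⟩,
  ⟨nat_lit 0x7870a0c000, nat_lit 7, nat_lit 939⟩]

theorem C_5_6_9 : allL ck_5_6 c_5_6_9 = true :=
  (allL_cons k_5_6_195 (allL_cons k_5_6_196 (allL_cons k_5_6_197 (allL_cons k_5_6_198 (allL_cons k_5_6_199 (allL_cons k_5_6_200 (allL_cons k_5_6_201 (allL_cons k_5_6_202 (allL_cons k_5_6_203 (allL_cons k_5_6_204 (allL_cons k_5_6_205 (allL_cons k_5_6_206 (allL_cons k_5_6_207 (allL_cons k_5_6_208 (allL_nil _)))))))))))))))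

end Crest.Agent.R187.SN.KC
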