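import Crest.Agent.R187.SN.KC.Def

/-!
# Row 187, PLAN S, block E2: sources of the low levels (generated)
-/

set_option autoImplicit false
set_option maxRecDepth 100000
set_option Elab.async false

namespace Crest.Agent.R187.SN.KC

open Crest.Agent.R187.SN Crest.Agent.R187.SN.Spec Crest.Agent.R187.SN.Kern
open Crest.Agent.R187.SN.KKey Crest.Agent.R187.SN.KD Crest.Agent.R187.SN.KE
open Crest.Agent.R187.SN.KRel Crest.Agent.R187.SN.KDec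

theorem k_1_0_0 : ck_1_0 ⟨nat_lit 0x0, nat_lit 1, nat_lit 0⟩ = true := by decide +kernel

/-- sources 0 to 0 -/
noncomputable def c_1_0_0 : List IE := [⟨nat_lit 0x0, nat_lit 1, nat_lit 0⟩]

theorem C_1_0_0 : allL ck_1_0 c_1_0_0 = true :=
  (allL_cons k_1_0_0 (allL_nil _))

theorem k_1_1_0 : ck_1_1 ⟨nat_lit 0x800000000, nat_lit 1, nat_lit 0⟩ = true := by decide +kernel

/-- sources 0 to 0 -/
noncomputable def c_1_1_0 : List IE := [⟨nat_lit 0x800000000, nat_lit 1, nat_lit 0⟩]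

theorem C_1_1_0 : allL ck_1_1 c_1_1_0 = true :=
  (allL_cons k_1_1_0 (allL_nil _))

theorem k_1_2_0 : ck_1_2 ⟨nat_lit 0x1000000000, nat_lit 1, nat_lit 0⟩ = true := by decide +kernel

/-- sources 0 to 0 -/
noncomputable def c_1_2_0 : List IE := [⟨nat_lit 0x1000000000, nat_lit 1, nat_lit 0⟩]

theorem C_1_2_0 : allL ck_1_2 c_1_2_0 = true :=
  (allL_cons k_1_2_0 (allL_nil _))

theorem k_1_3_0 : ck_1_3 ⟨nat_lit 0x1800000000, nat_lit 1, nat_lit 0⟩ = true := by decide +kernel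

/-- sources 0 to 0 -/
noncomputable def c_1_3_0 : List IE := [⟨nat_lit 0x1800000000, nat_lit 1, nat_lit 0⟩]

theorem C_1_3_0 : allL ck_1_3 c_1_3_0 = true :=
  (allL_cons k_1_3_0 (allL_nil _))

theorem k_1_4_0 : ck_1_4 ⟨nat_lit 0x2000000000, nat_lit 1, nat_lit 0⟩ = true := by decide +kernel

/-- sources 0 to 0 -/
noncomputable def c_1_4_0 : List IE := [⟨nat_lit 0x2000000000, nat_lit 1, nat_lit 0⟩]

theorem C_1_4_0 : allL ck_1_4 c_1_4_0 = true :=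
  (allL_cons k_1_4_0 (allL_nil _))

theorem k_1_5_0 : ck_1_5 ⟨nat_lit 0x2800000000, nat_lit 1, nat_lit 0⟩ = true := by decide +kernel

/-- sources 0 to 0 -/
noncomputable def c_1_5_0 : List IE := [⟨nat_lit 0x2800000000, nat_lit 1, nat_lit 0⟩]

theorem C_1_5_0 : allL ck_1_5 c_1_5_0 = true :=
  (allL_cons k_1_5_0 (allL_nil _))

theorem k_1_6_0 : ck_1_6 ⟨nat_lit 0x3000000000, nat_lit 1, nat_lit 0⟩ = true := by decide +kernel

/-- sources 0 to 0 -/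
noncomputable def c_1_6_0 : List IE := [⟨nat_lit 0x3000000000, nat_lit 1, nat_lit 0⟩]

theorem C_1_6_0 : allL ck_1_6 c_1_6_0 = true :=
  (allL_cons k_1_6_0 (allL_nil _))

theorem k_2_0_0 : ck_2_0 ⟨nat_lit 0x0, nat_lit 1, nat_lit 0⟩ = true := by decide +kernel

/-- sources 0 to 0 -/
noncomputable def c_2_0_0 : List IE := [⟨nat_lit 0x0, nat_lit 1, nat_lit 0⟩]

theorem C_2_0_0 : allL ck_2_0 c_2_0_0 = true :=
  (allL_cons k_2_0_0 (allL_nil _))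

theorem k_2_1_0 : ck_2_1 ⟨nat_lit 0x1000000000, nat_lit 1, nat_lit 0⟩ = true := by decide +kernel

/-- sources 0 to 0 -/
noncomputable def c_2_1_0 : List IE := [⟨nat_lit 0x1000000000, nat_lit 1, nat_lit 0⟩]

theorem C_2_1_0 : allL ck_2_1 c_2_1_0 = true :=
  (allL_cons k_2_1_0 (allL_nil _))

theorem k_2_2_0 : ck_2_2 ⟨nat_lit 0x2000000000, nat_lit 1, nat_lit 0⟩ = true := by decide +kernel

theorem k_2_2_1 : ck_2_2 ⟨nat_lit 0x1020000000, nat_lit 1, nat_lit 1⟩ = true := by decide +kernel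

/-- sources 0 to 1 -/
noncomputable def c_2_2_0 : List IE := [⟨nat_lit 0x2000000000, nat_lit 1, nat_lit 0⟩,
  ⟨nat_lit 0x1020000000, nat_lit 1, nat_lit 1⟩]

theorem C_2_2_0 : allL ck_2_2 c_2_2_0 = true :=
  (allL_cons k_2_2_0 (allL_cons k_2_2_1 (allL_nil _)))

theorem k_2_3_0 : ck_2_3 ⟨nat_lit 0x3000000000, nat_lit 1, nat_lit 0⟩ = true := by decide +kernel

theorem k_2_3_1 : ck_2_3 ⟨nat_lit 0x2020000000, nat_lit 1, nat_lit 1⟩ = true := by decide +kernel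

/-- sources 0 to 1 -/
noncomputable def c_2_3_0 : List IE := [⟨nat_lit 0x3000000000, nat_lit 1, nat_lit 0⟩,
  ⟨nat_lit 0x2020000000, nat_lit 1, nat_lit 1⟩]

theorem C_2_3_0 : allL ck_2_3 c_2_3_0 = true :=
  (allL_cons k_2_3_0 (allL_cons k_2_3_1 (allL_nil _)))

theorem k_2_4_0 : ck_2_4 ⟨nat_lit 0x4000000000, nat_lit 1, nat_lit 0⟩ = true := by decide +kernel

theorem k_2_4_1 : ck_2_4 ⟨nat_lit 0x3020000000, nat_lit 1, nat_lit 1⟩ = true := by decide +kernel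

theorem k_2_4_2 : ck_2_4 ⟨nat_lit 0x2040000000, nat_lit 1, nat_lit 2⟩ = true := by decide +kernel

/-- sources 0 to 2 -/
noncomputable def c_2_4_0 : List IE := [⟨nat_lit 0x4000000000, nat_lit 1, nat_lit 0⟩,
  ⟨nat_lit 0x3020000000, nat_lit 1, nat_lit 1⟩,
  ⟨nat_lit 0x2040000000, nat_lit 1, nat_lit 2⟩]

theorem C_2_4_0 : allL ck_2_4 c_2_4_0 = true :=
  (allL_cons k_2_4_0 (allL_cons k_2_4_1 (allL_cons k_2_4_2 (allL_nil _))))

theorem k_2_5_0 : ck_2_5 ⟨nat_lit 0x5000000000, nat_lit 1, nat_lit 0⟩ = true := by decide +kernel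

theorem k_2_5_1 : ck_2_5 ⟨nat_lit 0x4020000000, nat_lit 1, nat_lit 1⟩ = true := by decide +kernel

theorem k_2_5_2 : ck_2_5 ⟨nat_lit 0x3040000000, nat_lit 1, nat_lit 2⟩ = true := by decide +kernel

/-- sources 0 to 2 -/
noncomputable def c_2_5_0 : List IE := [⟨nat_lit 0x5000000000, nat_lit 1, nat_lit 0⟩,
  ⟨nat_lit 0x4020000000, nat_lit 1, nat_lit 1⟩,
  ⟨nat_lit 0x3040000000, nat_lit 1, nat_lit 2⟩]

theorem C_2_5_0 : allL ck_2_5 c_2_5_0 = true :=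
  (allL_cons k_2_5_0 (allL_cons k_2_5_1 (allL_cons k_2_5_2 (allL_nil _))))

theorem k_2_6_0 : ck_2_6 ⟨nat_lit 0x6000000000, nat_lit 1, nat_lit 0⟩ = true := by decide +kernel

theorem k_2_6_1 : ck_2_6 ⟨nat_lit 0x5020000000, nat_lit 1, nat_lit 1⟩ = true := by decide +kernel

theorem k_2_6_2 : ck_2_6 ⟨nat_lit 0x4040000000, nat_lit 1, nat_lit 2⟩ = true := by decide +kernel

theorem k_2_6_3 : ck_2_6 ⟨nat_lit 0x3060000000, nat_lit 1, nat_lit 3⟩ = true := by decide +kernel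

/-- sources 0 to 3 -/
noncomputable def c_2_6_0 : List IE := [⟨nat_lit 0x6000000000, nat_lit 1, nat_lit 0⟩,
  ⟨nat_lit 0x5020000000, nat_lit 1, nat_lit 1⟩,
  ⟨nat_lit 0x4040000000, nat_lit 1, nat_lit 2⟩,
  ⟨nat_lit 0x3060000000, nat_lit 1, nat_lit 3⟩]

theorem C_2_6_0 : allL ck_2_6 c_2_6_0 = true :=
  (allL_cons k_2_6_0 (allL_cons k_2_6_1 (allL_cons k_2_6_2 (allL_cons k_2_6_3 (allL_nil _)))))

theorem k_3_0_0 : ck_3_0 ⟨nat_lit 0x0, nat_lit 1, nat_lit 0⟩ = true := by decide +kernel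

/-- sources 0 to 0 -/
noncomputable def c_3_0_0 : List IE := [⟨nat_lit 0x0, nat_lit 1, nat_lit 0⟩]

theorem C_3_0_0 : allL ck_3_0 c_3_0_0 = true :=
  (allL_cons k_3_0_0 (allL_nil _))

theorem k_3_1_0 : ck_3_1 ⟨nat_lit 0x1800000000, nat_lit 1, nat_lit 0⟩ = true := by decide +kernel

/-- sources 0 to 0 -/
noncomputable def c_3_1_0 : List IE := [⟨nat_lit 0x1800000000, nat_lit 1, nat_lit 0⟩]

theorem C_3_1_0 : allL ck_3_1 c_3_1_0 = true :=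
  (allL_cons k_3_1_0 (allL_nil _))

theorem k_3_2_0 : ck_3_2 ⟨nat_lit 0x3000000000, nat_lit 1, nat_lit 0⟩ = true := by decide +kernel

theorem k_3_2_1 : ck_3_2 ⟨nat_lit 0x2020000000, nat_lit 1, nat_lit 1⟩ = true := by decide +kernel

/-- sources 0 to 1 -/
noncomputable def c_3_2_0 : List IE := [⟨nat_lit 0x3000000000, nat_lit 1, nat_lit 0⟩,
  ⟨nat_lit 0x2020000000, nat_lit 1, nat_lit 1⟩]

theorem C_3_2_0 : allL ck_3_2 c_3_2_0 = true :=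
  (allL_cons k_3_2_0 (allL_cons k_3_2_1 (allL_nil _)))

theorem k_3_3_0 : ck_3_3 ⟨nat_lit 0x4800000000, nat_lit 1, nat_lit 0⟩ = true := by decide +kernel

theorem k_3_3_1 : ck_3_3 ⟨nat_lit 0x3820000000, nat_lit 1, nat_lit 1⟩ = true := by decide +kernel

theorem k_3_3_2 : ck_3_3 ⟨nat_lit 0x3030000000, nat_lit 1, nat_lit 2⟩ = true := by decide +kernel

theorem k_3_3_3 : ck_3_3 ⟨nat_lit 0x2820400000, nat_lit 1, nat_lit 3⟩ = true := by decide +kernel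

theorem k_3_3_4 : ck_3_3 ⟨nat_lit 0x2040200000, nat_lit 1, nat_lit 4⟩ = true := by decide +kernel

/-- sources 0 to 4 -/
noncomputable def c_3_3_0 : List IE := [⟨nat_lit 0x4800000000, nat_lit 1, nat_lit 0⟩,
  ⟨nat_lit 0x3820000000, nat_lit 1, nat_lit 1⟩,
  ⟨nat_lit 0x3030000000, nat_lit 1, nat_lit 2⟩,
  ⟨nat_lit 0x2820400000, nat_lit 1, nat_lit 3⟩,
  ⟨nat_lit 0x2040200000, nat_lit 1, nat_lit 4⟩]

theorem C_3_3_0 : allL ck_3_3 c_3_3_0 = true :=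
  (allL_cons k_3_3_0 (allL_cons k_3_3_1 (allL_cons k_3_3_2 (allL_cons k_3_3_3 (allL_cons k_3_3_4 (allL_nil _))))))

theorem k_3_4_0 : ck_3_4 ⟨nat_lit 0x6000000000, nat_lit 1, nat_lit 0⟩ = true := by decide +kernel

theorem k_3_4_1 : ck_3_4 ⟨nat_lit 0x5020000000, nat_lit 1, nat_lit 1⟩ = true := by decide +kernel

theorem k_3_4_2 : ck_3_4 ⟨nat_lit 0x4830000000, nat_lit 1, nat_lit 2⟩ = true := by decide +kernel

theorem k_3_4_3 : ck_3_4 ⟨nat_lit 0x4040000000, nat_lit 1, nat_lit 3⟩ = true := by decide +kernel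

theorem k_3_4_4 : ck_3_4 ⟨nat_lit 0x4020400000, nat_lit 1, nat_lit 4⟩ = true := by decide +kernel

theorem k_3_4_5 : ck_3_4 ⟨nat_lit 0x3840200000, nat_lit 1, nat_lit 5⟩ = true := by decide +kernel

theorem k_3_4_6 : ck_3_4 ⟨nat_lit 0x3060000000, nat_lit 1, nat_lit 6⟩ = true := by decide +kernel

theorem k_3_4_7 : ck_3_4 ⟨nat_lit 0x3040400000, nat_lit 1, nat_lit 7⟩ = true := by decide +kernel

theorem k_3_4_8 : ck_3_4 ⟨nat_lit 0x2040800000, nat_lit 1, nat_lit 8⟩ = true := by decide +kernel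

/-- sources 0 to 8 -/
noncomputable def c_3_4_0 : List IE := [⟨nat_lit 0x6000000000, nat_lit 1, nat_lit 0⟩,
  ⟨nat_lit 0x5020000000, nat_lit 1, nat_lit 1⟩,
  ⟨nat_lit 0x4830000000, nat_lit 1, nat_lit 2⟩,
  ⟨nat_lit 0x4040000000, nat_lit 1, nat_lit 3⟩,
  ⟨nat_lit 0x4020400000, nat_lit 1, nat_lit 4⟩,
  ⟨nat_lit 0x3840200000, nat_lit 1, nat_lit 5⟩,
  ⟨nat_lit 0x3060000000, nat_lit 1, nat_lit 6⟩,
  ⟨nat_lit 0x3040400000, nat_lit 1, nat_lit 7⟩,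
  ⟨nat_lit 0x2040800000, nat_lit 1, nat_lit 8⟩]

theorem C_3_4_0 : allL ck_3_4 c_3_4_0 = true :=
  (allL_cons k_3_4_0 (allL_cons k_3_4_1 (allL_cons k_3_4_2 (allL_cons k_3_4_3 (allL_cons k_3_4_4 (allL_cons k_3_4_5 (allL_cons k_3_4_6 (allL_cons k_3_4_7 (allL_cons k_3_4_8 (allL_nil _))))))))))

theorem k_3_5_0 : ck_3_5 ⟨nat_lit 0x7800000000, nat_lit 1, nat_lit 0⟩ = true := by decide +kernel

theorem k_3_5_1 : ck_3_5 ⟨nat_lit 0x6820000000, nat_lit 1, nat_lit 1⟩ = true := by decide +kernel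

theorem k_3_5_2 : ck_3_5 ⟨nat_lit 0x6030000000, nat_lit 1, nat_lit 2⟩ = true := by decide +kernel

theorem k_3_5_3 : ck_3_5 ⟨nat_lit 0x5840000000, nat_lit 1, nat_lit 3⟩ = true := by decide +kernel

theorem k_3_5_4 : ck_3_5 ⟨nat_lit 0x5820400000, nat_lit 1, nat_lit 4⟩ = true := by decide +kernel

theorem k_3_5_5 : ck_3_5 ⟨nat_lit 0x5050000000, nat_lit 1, nat_lit 5⟩ = true := by decide +kernel

theorem k_3_5_6 : ck_3_5 ⟨nat_lit 0x5040200000, nat_lit 1, nat_lit 6⟩ = true := by decide +kernel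

theorem k_3_5_7 : ck_3_5 ⟨nat_lit 0x4860000000, nat_lit 1, nat_lit 7⟩ = true := by decide +kernel

theorem k_3_5_8 : ck_3_5 ⟨nat_lit 0x4840400000, nat_lit 1, nat_lit 8⟩ = true := by decide +kernel

theorem k_3_5_9 : ck_3_5 ⟨nat_lit 0x4060200000, nat_lit 1, nat_lit 9⟩ = true := by decide +kernel

theorem k_3_5_10 : ck_3_5 ⟨nat_lit 0x4050400000, nat_lit 1, nat_lit 10⟩ = true := by decide +kernel

theorem k_3_5_11 : ck_3_5 ⟨nat_lit 0x3840800000, nat_lit 1, nat_lit 11⟩ = true := by decide +kernel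

theorem k_3_5_12 : ck_3_5 ⟨nat_lit 0x3060600000, nat_lit 1, nat_lit 12⟩ = true := by decide +kernel

/-- sources 0 to 12 -/
noncomputable def c_3_5_0 : List IE := [⟨nat_lit 0x7800000000, nat_lit 1, nat_lit 0⟩,
  ⟨nat_lit 0x6820000000, nat_lit 1, nat_lit 1⟩,
  ⟨nat_lit 0x6030000000, nat_lit 1, nat_lit 2⟩,
  ⟨nat_lit 0x5840000000, nat_lit 1, nat_lit 3⟩,
  ⟨nat_lit 0x5820400000, nat_lit 1, nat_lit 4⟩,
  ⟨nat_lit 0x5050000000, nat_lit 1, nat_lit 5⟩,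
  ⟨nat_lit 0x5040200000, nat_lit 1, nat_lit 6⟩,
  ⟨nat_lit 0x4860000000, nat_lit 1, nat_lit 7⟩,
  ⟨nat_lit 0x4840400000, nat_lit 1, nat_lit 8⟩,
  ⟨nat_lit 0x4060200000, nat_lit 1, nat_lit 9⟩,
  ⟨nat_lit 0x4050400000, nat_lit 1, nat_lit 10⟩,
  ⟨nat_lit 0x3840800000, nat_lit 1, nat_lit 11⟩,
  ⟨nat_lit 0x3060600000, nat_lit 1, nat_lit 12⟩]

theorem C_3_5_0 : allL ck_3_5 c_3_5_0 = true :=
  (allL_cons k_3_5_0 (allL_cons k_3_5_1 (allL_cons k_3_5_2 (allL_cons k_3_5_3 (allL_cons k_3_5_4 (allL_cons k_3_5_5 (allL_cons k_3_5_6 (allL_cons k_3_5_7 (allL_cons k_3_5_8 (allL_cons k_3_5_9 (allL_cons k_3_5_10 (allL_cons k_3_5_11 (allL_cons k_3_5_12 (allL_nil _))))))))))))))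

theorem k_3_6_0 : ck_3_6 ⟨nat_lit 0x9000000000, nat_lit 1, nat_lit 0⟩ = true := by decide +kernel

theorem k_3_6_1 : ck_3_6 ⟨nat_lit 0x8020000000, nat_lit 1, nat_lit 1⟩ = true := by decide +kernel

theorem k_3_6_2 : ck_3_6 ⟨nat_lit 0x7830000000, nat_lit 1, nat_lit 2⟩ = true := by decide +kernel

theorem k_3_6_3 : ck_3_6 ⟨nat_lit 0x7040000000, nat_lit 1, nat_lit 3⟩ = true := by decide +kernel

theorem k_3_6_4 : ck_3_6 ⟨nat_lit 0x7020400000, nat_lit 1, nat_lit 4⟩ = true := by decide +kernel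

theorem k_3_6_5 : ck_3_6 ⟨nat_lit 0x6850000000, nat_lit 1, nat_lit 5⟩ = true := by decide +kernel

theorem k_3_6_6 : ck_3_6 ⟨nat_lit 0x6840200000, nat_lit 1, nat_lit 6⟩ = true := by decide +kernel

theorem k_3_6_7 : ck_3_6 ⟨nat_lit 0x6060000000, nat_lit 2, nat_lit 7⟩ = true := by decide +kernel

theorem k_3_6_8 : ck_3_6 ⟨nat_lit 0x6040400000, nat_lit 1, nat_lit 9⟩ = true := by decide +kernel

theorem k_3_6_9 : ck_3_6 ⟨nat_lit 0x5860200000, nat_lit 1, nat_lit 10⟩ = true := by decide +kernel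

theorem k_3_6_10 : ck_3_6 ⟨nat_lit 0x5850400000, nat_lit 1, nat_lit 11⟩ = true := by decide +kernel

theorem k_3_6_11 : ck_3_6 ⟨nat_lit 0x5080000000, nat_lit 1, nat_lit 12⟩ = true := by decide +kernel

theorem k_3_6_12 : ck_3_6 ⟨nat_lit 0x5070200000, nat_lit 1, nat_lit 13⟩ = true := by decide +kernel

theorem k_3_6_13 : ck_3_6 ⟨nat_lit 0x5060400000, nat_lit 1, nat_lit 14⟩ = true := by decide +kernel

theorem k_3_6_14 : ck_3_6 ⟨nat_lit 0x5040800000, nat_lit 1, nat_lit 15⟩ = true := by decide +kernel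

theorem k_3_6_15 : ck_3_6 ⟨nat_lit 0x4860600000, nat_lit 1, nat_lit 16⟩ = true := by decide +kernel

theorem k_3_6_16 : ck_3_6 ⟨nat_lit 0x4080400000, nat_lit 1, nat_lit 17⟩ = true := by decide +kernel

theorem k_3_6_17 : ck_3_6 ⟨nat_lit 0x4060800000, nat_lit 1, nat_lit 18⟩ = true := by decide +kernel

theorem k_3_6_18 : ck_3_6 ⟨nat_lit 0x3060c00000, nat_lit 1, nat_lit 19⟩ = true := by decide +kernel

/-- sources 0 to 18 -/
noncomputable def c_3_6_0 : List IE := [⟨nat_lit 0x9000000000, nat_lit 1, nat_lit 0⟩,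
  ⟨nat_lit 0x8020000000, nat_lit 1, nat_lit 1⟩,
  ⟨nat_lit 0x7830000000, nat_lit 1, nat_lit 2⟩,
  ⟨nat_lit 0x7040000000, nat_lit 1, nat_lit 3⟩,
  ⟨nat_lit 0x7020400000, nat_lit 1, nat_lit 4⟩,
  ⟨nat_lit 0x6850000000, nat_lit 1, nat_lit 5⟩,
  ⟨nat_lit 0x6840200000, nat_lit 1, nat_lit 6⟩,
  ⟨nat_lit 0x6060000000, nat_lit 2, nat_lit 7⟩,
  ⟨nat_lit 0x6040400000, nat_lit 1, nat_lit 9⟩,
  ⟨nat_lit 0x5860200000, nat_lit 1, nat_lit 10⟩,
  ⟨nat_lit 0x5850400000, nat_lit 1, nat_lit 11⟩,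
  ⟨nat_lit 0x5080000000, nat_lit 1, nat_lit 12⟩,
  ⟨nat_lit 0x5070200000, nat_lit 1, nat_lit 13⟩,
  ⟨nat_lit 0x5060400000, nat_lit 1, nat_lit 14⟩,
  ⟨nat_lit 0x5040800000, nat_lit 1, nat_lit 15⟩,
  ⟨nat_lit 0x4860600000, nat_lit 1, nat_lit 16⟩,
  ⟨nat_lit 0x4080400000, nat_lit 1, nat_lit 17⟩,
  ⟨nat_lit 0x4060800000, nat_lit 1, nat_lit 18⟩,
  ⟨nat_lit 0x3060c00000, nat_lit 1, nat_lit 19⟩]

theorem C_3_6_0 : allL ck_3_6 c_3_6_0 = true :=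
  (allL_cons k_3_6_0 (allL_cons k_3_6_1 (allL_cons k_3_6_2 (allL_cons k_3_6_3 (allL_cons k_3_6_4 (allL_cons k_3_6_5 (allL_cons k_3_6_6 (allL_cons k_3_6_7 (allL_cons k_3_6_8 (allL_cons k_3_6_9 (allL_cons k_3_6_10 (allL_cons k_3_6_11 (allL_cons k_3_6_12 (allL_cons k_3_6_13 (allL_cons k_3_6_14 (allL_cons k_3_6_15 (allL_cons k_3_6_16 (allL_cons k_3_6_17 (allL_cons k_3_6_18 (allL_nil _))))))))))))))))))))

theorem k_4_0_0 : ck_4_0 ⟨nat_lit 0x0, nat_lit 1, nat_lit 0⟩ = true := by decide +kernel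

/-- sources 0 to 0 -/
noncomputable def c_4_0_0 : List IE := [⟨nat_lit 0x0, nat_lit 1, nat_lit 0⟩]

theorem C_4_0_0 : allL ck_4_0 c_4_0_0 = true :=
  (allL_cons k_4_0_0 (allL_nil _))

theorem k_4_1_0 : ck_4_1 ⟨nat_lit 0x2000000000, nat_lit 1, nat_lit 0⟩ = true := by decide +kernel

/-- sources 0 to 0 -/
noncomputable def c_4_1_0 : List IE := [⟨nat_lit 0x2000000000, nat_lit 1, nat_lit 0⟩]

theorem C_4_1_0 : allL ck_4_1 c_4_1_0 = true :=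
  (allL_cons k_4_1_0 (allL_nil _))

theorem k_4_2_0 : ck_4_2 ⟨nat_lit 0x4000000000, nat_lit 1, nat_lit 0⟩ = true := by decide +kernel

theorem k_4_2_1 : ck_4_2 ⟨nat_lit 0x3020000000, nat_lit 1, nat_lit 1⟩ = true := by decide +kernel

theorem k_4_2_2 : ck_4_2 ⟨nat_lit 0x2040000000, nat_lit 1, nat_lit 2⟩ = true := by decide +kernel

/-- sources 0 to 2 -/
noncomputable def c_4_2_0 : List IE := [⟨nat_lit 0x4000000000, nat_lit 1, nat_lit 0⟩,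
  ⟨nat_lit 0x3020000000, nat_lit 1, nat_lit 1⟩,
  ⟨nat_lit 0x2040000000, nat_lit 1, nat_lit 2⟩]

theorem C_4_2_0 : allL ck_4_2 c_4_2_0 = true :=
  (allL_cons k_4_2_0 (allL_cons k_4_2_1 (allL_cons k_4_2_2 (allL_nil _))))

theorem k_4_3_0 : ck_4_3 ⟨nat_lit 0x6000000000, nat_lit 1, nat_lit 0⟩ = true := by decide +kernel

theorem k_4_3_1 : ck_4_3 ⟨nat_lit 0x5020000000, nat_lit 1, nat_lit 1⟩ = true := by decide +kernel

theorem k_4_3_2 : ck_4_3 ⟨nat_lit 0x4830000000, nat_lit 1, nat_lit 2⟩ = true := by decide +kernel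

theorem k_4_3_3 : ck_4_3 ⟨nat_lit 0x4040000000, nat_lit 1, nat_lit 3⟩ = true := by decide +kernel

theorem k_4_3_4 : ck_4_3 ⟨nat_lit 0x4020400000, nat_lit 1, nat_lit 4⟩ = true := by decide +kernel

theorem k_4_3_5 : ck_4_3 ⟨nat_lit 0x3840200000, nat_lit 1, nat_lit 5⟩ = true := by decide +kernel

theorem k_4_3_6 : ck_4_3 ⟨nat_lit 0x3060000000, nat_lit 1, nat_lit 6⟩ = true := by decide +kernel

theorem k_4_3_7 : ck_4_3 ⟨nat_lit 0x3040400000, nat_lit 1, nat_lit 7⟩ = true := by decide +kernel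

theorem k_4_3_8 : ck_4_3 ⟨nat_lit 0x2040800000, nat_lit 1, nat_lit 8⟩ = true := by decide +kernel

/-- sources 0 to 8 -/
noncomputable def c_4_3_0 : List IE := [⟨nat_lit 0x6000000000, nat_lit 1, nat_lit 0⟩,
  ⟨nat_lit 0x5020000000, nat_lit 1, nat_lit 1⟩,
  ⟨nat_lit 0x4830000000, nat_lit 1, nat_lit 2⟩,
  ⟨nat_lit 0x4040000000, nat_lit 1, nat_lit 3⟩,
  ⟨nat_lit 0x4020400000, nat_lit 1, nat_lit 4⟩,
  ⟨nat_lit 0x3840200000, nat_lit 1, nat_lit 5⟩,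
  ⟨nat_lit 0x3060000000, nat_lit 1, nat_lit 6⟩,
  ⟨nat_lit 0x3040400000, nat_lit 1, nat_lit 7⟩,
  ⟨nat_lit 0x2040800000, nat_lit 1, nat_lit 8⟩]

theorem C_4_3_0 : allL ck_4_3 c_4_3_0 = true :=
  (allL_cons k_4_3_0 (allL_cons k_4_3_1 (allL_cons k_4_3_2 (allL_cons k_4_3_3 (allL_cons k_4_3_4 (allL_cons k_4_3_5 (allL_cons k_4_3_6 (allL_cons k_4_3_7 (allL_cons k_4_3_8 (allL_nil _))))))))))

theorem k_4_4_0 : ck_4_4 ⟨nat_lit 0x8000000000, nat_lit 1, nat_lit 0⟩ = true := by decide +kernel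

theorem k_4_4_1 : ck_4_4 ⟨nat_lit 0x7020000000, nat_lit 1, nat_lit 1⟩ = true := by decide +kernel

theorem k_4_4_2 : ck_4_4 ⟨nat_lit 0x6830000000, nat_lit 1, nat_lit 2⟩ = true := by decide +kernel

theorem k_4_4_3 : ck_4_4 ⟨nat_lit 0x6040000000, nat_lit 2, nat_lit 3⟩ = true := by decide +kernel

theorem k_4_4_4 : ck_4_4 ⟨nat_lit 0x6020400000, nat_lit 1, nat_lit 5⟩ = true := by decide +kernel

theorem k_4_4_5 : ck_4_4 ⟨nat_lit 0x5840200000, nat_lit 1, nat_lit 6⟩ = true := by decide +kernel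

theorem k_4_4_6 : ck_4_4 ⟨nat_lit 0x5830400000, nat_lit 1, nat_lit 7⟩ = true := by decide +kernel

theorem k_4_4_7 : ck_4_4 ⟨nat_lit 0x5060000000, nat_lit 2, nat_lit 8⟩ = true := by decide +kernel

theorem k_4_4_8 : ck_4_4 ⟨nat_lit 0x5050200000, nat_lit 1, nat_lit 10⟩ = true := by decide +kernel

theorem k_4_4_9 : ck_4_4 ⟨nat_lit 0x5040400000, nat_lit 2, nat_lit 11⟩ = true := by decide +kernel

theorem k_4_4_10 : ck_4_4 ⟨nat_lit 0x5020408000, nat_lit 1, nat_lit 13⟩ = true := by decide +kernel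

theorem k_4_4_11 : ck_4_4 ⟨nat_lit 0x4860200000, nat_lit 1, nat_lit 14⟩ = true := by decide +kernel

theorem k_4_4_12 : ck_4_4 ⟨nat_lit 0x4850400000, nat_lit 1, nat_lit 15⟩ = true := by decide +kernel

theorem k_4_4_13 : ck_4_4 ⟨nat_lit 0x4840600000, nat_lit 1, nat_lit 16⟩ = true := by decide +kernel

theorem k_4_4_14 : ck_4_4 ⟨nat_lit 0x4840404000, nat_lit 1, nat_lit 17⟩ = true := by decide +kernel

theorem k_4_4_15 : ck_4_4 ⟨nat_lit 0x4080000000, nat_lit 1, nat_lit 18⟩ = true := by decide +kernel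

theorem k_4_4_16 : ck_4_4 ⟨nat_lit 0x4060400000, nat_lit 2, nat_lit 19⟩ = true := by decide +kernel

theorem k_4_4_17 : ck_4_4 ⟨nat_lit 0x4050404000, nat_lit 1, nat_lit 21⟩ = true := by decide +kernel

theorem k_4_4_18 : ck_4_4 ⟨nat_lit 0x4040800000, nat_lit 2, nat_lit 22⟩ = true := by decide +kernel

theorem k_4_4_19 : ck_4_4 ⟨nat_lit 0x4040408000, nat_lit 1, nat_lit 24⟩ = true := by decide +kernel

theorem k_4_4_20 : ck_4_4 ⟨nat_lit 0x3870204000, nat_lit 1, nat_lit 25⟩ = true := by decide +kernel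

theorem k_4_4_21 : ck_4_4 ⟨nat_lit 0x3860600000, nat_lit 1, nat_lit 26⟩ = true := by decide +kernel

theorem k_4_4_22 : ck_4_4 ⟨nat_lit 0x3850604000, nat_lit 1, nat_lit 27⟩ = true := by decide +kernel

theorem k_4_4_23 : ck_4_4 ⟨nat_lit 0x3840804000, nat_lit 1, nat_lit 28⟩ = true := by decide +kernel

theorem k_4_4_24 : ck_4_4 ⟨nat_lit 0x3060800000, nat_lit 1, nat_lit 29⟩ = true := by decide +kernel

theorem k_4_4_25 : ck_4_4 ⟨nat_lit 0x3060408000, nat_lit 1, nat_lit 30⟩ = true := by decide +kernel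

theorem k_4_4_26 : ck_4_4 ⟨nat_lit 0x3040808000, nat_lit 1, nat_lit 31⟩ = true := by decide +kernel

theorem k_4_4_27 : ck_4_4 ⟨nat_lit 0x2040810000, nat_lit 1, nat_lit 32⟩ = true := by decide +kernel

/-- sources 0 to 27 -/
noncomputable def c_4_4_0 : List IE := [⟨nat_lit 0x8000000000, nat_lit 1, nat_lit 0⟩,
  ⟨nat_lit 0x7020000000, nat_lit 1, nat_lit 1⟩,
  ⟨nat_lit 0x6830000000, nat_lit 1, nat_lit 2⟩,
  ⟨nat_lit 0x6040000000, nat_lit 2, nat_lit 3⟩,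
  ⟨nat_lit 0x6020400000, nat_lit 1, nat_lit 5⟩,
  ⟨nat_lit 0x5840200000, nat_lit 1, nat_lit 6⟩,
  ⟨nat_lit 0x5830400000, nat_lit 1, nat_lit 7⟩,
  ⟨nat_lit 0x5060000000, nat_lit 2, nat_lit 8⟩,
  ⟨nat_lit 0x5050200000, nat_lit 1, nat_lit 10⟩,
  ⟨nat_lit 0x5040400000, nat_lit 2, nat_lit 11⟩,
  ⟨nat_lit 0x5020408000, nat_lit 1, nat_lit 13⟩,
  ⟨nat_lit 0x4860200000, nat_lit 1, nat_lit 14⟩,
  ⟨nat_lit 0x4850400000, nat_lit 1, nat_lit 15⟩,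
  ⟨nat_lit 0x4840600000, nat_lit 1, nat_lit 16⟩,
  ⟨nat_lit 0x4840404000, nat_lit 1, nat_lit 17⟩,
  ⟨nat_lit 0x4080000000, nat_lit 1, nat_lit 18⟩,
  ⟨nat_lit 0x4060400000, nat_lit 2, nat_lit 19⟩,
  ⟨nat_lit 0x4050404000, nat_lit 1, nat_lit 21⟩,
  ⟨nat_lit 0x4040800000, nat_lit 2, nat_lit 22⟩,
  ⟨nat_lit 0x4040408000, nat_lit 1, nat_lit 24⟩,
  ⟨nat_lit 0x3870204000, nat_lit 1, nat_lit 25⟩,
  ⟨nat_lit 0x3860600000, nat_lit 1, nat_lit 26⟩,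
  ⟨nat_lit 0x3850604000, nat_lit 1, nat_lit 27⟩,
  ⟨nat_lit 0x3840804000, nat_lit 1, nat_lit 28⟩,
  ⟨nat_lit 0x3060800000, nat_lit 1, nat_lit 29⟩,
  ⟨nat_lit 0x3060408000, nat_lit 1, nat_lit 30⟩,
  ⟨nat_lit 0x3040808000, nat_lit 1, nat_lit 31⟩,
  ⟨nat_lit 0x2040810000, nat_lit 1, nat_lit 32⟩]

theorem C_4_4_0 : allL ck_4_4 c_4_4_0 = true :=
  (allL_cons k_4_4_0 (allL_cons k_4_4_1 (allL_cons k_4_4_2 (allL_cons k_4_4_3 (allL_cons k_4_4_4 (allL_cons k_4_4_5 (allL_cons k_4_4_6 (allL_cons k_4_4_7 (allL_cons k_4_4_8 (allL_cons k_4_4_9 (allL_cons k_4_4_10 (allL_cons k_4_4_11 (allL_cons k_4_4_12 (allL_cons k_4_4_13 (allL_cons k_4_4_14 (allL_cons k_4_4_15 (allL_cons k_4_4_16 (allL_cons k_4_4_17 (allL_cons k_4_4_18 (allL_cons k_4_4_19 (allL_cons k_4_4_20 (allL_cons k_4_4_21 (allL_cons k_4_4_22 (allL_cons k_4_4_23 (allL_cons k_4_4_24 (allL_cons k_4_4_25 (allL_cons k_4_4_26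 (allL_cons k_4_4_27 (allL_nil _)))))))))))))))))))))))))))))

theorem k_4_5_0 : ck_4_5 ⟨nat_lit 0xa000000000, nat_lit 1, nat_lit 0⟩ = true := by decide +kernel

theorem k_4_5_1 : ck_4_5 ⟨nat_lit 0x9020000000, nat_lit 1, nat_lit 1⟩ = true := by decide +kernel

theorem k_4_5_2 : ck_4_5 ⟨nat_lit 0x8830000000, nat_lit 1, nat_lit 2⟩ = true := by decide +kernel

theorem k_4_5_3 : ck_4_5 ⟨nat_lit 0x8040000000, nat_lit 2, nat_lit 3⟩ = true := by decide +kernel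

theorem k_4_5_4 : ck_4_5 ⟨nat_lit 0x8020400000, nat_lit 1, nat_lit 5⟩ = true := by decide +kernel

theorem k_4_5_5 : ck_4_5 ⟨nat_lit 0x7850000000, nat_lit 1, nat_lit 6⟩ = true := by decide +kernel

theorem k_4_5_6 : ck_4_5 ⟨nat_lit 0x7840200000, nat_lit 1, nat_lit 7⟩ = true := by decide +kernel

theorem k_4_5_7 : ck_4_5 ⟨nat_lit 0x7830400000, nat_lit 1, nat_lit 8⟩ = true := by decide +kernel

theorem k_4_5_8 : ck_4_5 ⟨nat_lit 0x7060000000, nat_lit 2, nat_lit 9⟩ = true := by decide +kernel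

theorem k_4_5_9 : ck_4_5 ⟨nat_lit 0x7050200000, nat_lit 1, nat_lit 11⟩ = true := by decide +kernel

theorem k_4_5_10 : ck_4_5 ⟨nat_lit 0x7040400000, nat_lit 2, nat_lit 12⟩ = true := by decide +kernel

theorem k_4_5_11 : ck_4_5 ⟨nat_lit 0x7020408000, nat_lit 1, nat_lit 14⟩ = true := by decide +kernel

theorem k_4_5_12 : ck_4_5 ⟨nat_lit 0x6870000000, nat_lit 1, nat_lit 15⟩ = true := by decide +kernel

theorem k_4_5_13 : ck_4_5 ⟨nat_lit 0x6860200000, nat_lit 2, nat_lit 16⟩ = true := by decide +kernel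

theorem k_4_5_14 : ck_4_5 ⟨nat_lit 0x6850400000, nat_lit 2, nat_lit 18⟩ = true := by decide +kernel

theorem k_4_5_15 : ck_4_5 ⟨nat_lit 0x6840600000, nat_lit 1, nat_lit 20⟩ = true := by decide +kernel

theorem k_4_5_16 : ck_4_5 ⟨nat_lit 0x6840404000, nat_lit 1, nat_lit 21⟩ = true := by decide +kernel

theorem k_4_5_17 : ck_4_5 ⟨nat_lit 0x6080000000, nat_lit 2, nat_lit 22⟩ = true := by decide +kernel

theorem k_4_5_18 : ck_4_5 ⟨nat_lit 0x6070200000, nat_lit 1, nat_lit 24⟩ = true := by decide +kernel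

theorem k_4_5_19 : ck_4_5 ⟨nat_lit 0x6060400000, nat_lit 3, nat_lit 25⟩ = true := by decide +kernel

theorem k_4_5_20 : ck_4_5 ⟨nat_lit 0x6050600000, nat_lit 1, nat_lit 28⟩ = true := by decide +kernel

theorem k_4_5_21 : ck_4_5 ⟨nat_lit 0x6050404000, nat_lit 1, nat_lit 29⟩ = true := by decide +kernel

theorem k_4_5_22 : ck_4_5 ⟨nat_lit 0x6040800000, nat_lit 2, nat_lit 30⟩ = true := by decide +kernel

theorem k_4_5_23 : ck_4_5 ⟨nat_lit 0x6040408000, nat_lit 1, nat_lit 32⟩ = true := by decide +kernel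

theorem k_4_5_24 : ck_4_5 ⟨nat_lit 0x5880200000, nat_lit 1, nat_lit 33⟩ = true := by decide +kernel

theorem k_4_5_25 : ck_4_5 ⟨nat_lit 0x5870400000, nat_lit 2, nat_lit 34⟩ = true := by decide +kernel

theorem k_4_5_26 : ck_4_5 ⟨nat_lit 0x5870204000, nat_lit 1, nat_lit 36⟩ = true := by decide +kernel

theorem k_4_5_27 : ck_4_5 ⟨nat_lit 0x5860600000, nat_lit 2, nat_lit 37⟩ = true := by decide +kernel

theorem k_4_5_28 : ck_4_5 ⟨nat_lit 0x5860404000, nat_lit 1, nat_lit 39⟩ = true := by decide +kernel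

theorem k_4_5_29 : ck_4_5 ⟨nat_lit 0x5850800000, nat_lit 1, nat_lit 40⟩ = true := by decide +kernel

theorem k_4_5_30 : ck_4_5 ⟨nat_lit 0x5850604000, nat_lit 1, nat_lit 41⟩ = true := by decide +kernel

theorem k_4_5_31 : ck_4_5 ⟨nat_lit 0x5850408000, nat_lit 1, nat_lit 42⟩ = true := by decide +kernel

theorem k_4_5_32 : ck_4_5 ⟨nat_lit 0x5840804000, nat_lit 1, nat_lit 43⟩ = true := by decide +kernel

theorem k_4_5_33 : ck_4_5 ⟨nat_lit 0x50a0000000, nat_lit 1, nat_lit 44⟩ = true := by decide +kernel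

theorem k_4_5_34 : ck_4_5 ⟨nat_lit 0x5090200000, nat_lit 1, nat_lit 45⟩ = true := by decide +kernel

theorem k_4_5_35 : ck_4_5 ⟨nat_lit 0x5080400000, nat_lit 2, nat_lit 46⟩ = true := by decide +kernel

theorem k_4_5_36 : ck_4_5 ⟨nat_lit 0x5070600000, nat_lit 1, nat_lit 48⟩ = true := by decide +kernel

theorem k_4_5_37 : ck_4_5 ⟨nat_lit 0x5070404000, nat_lit 1, nat_lit 49⟩ = true := by decide +kernel

theorem k_4_5_38 : ck_4_5 ⟨nat_lit 0x5060800000, nat_lit 3, nat_lit 50⟩ = true := by decide +kernel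

theorem k_4_5_39 : ck_4_5 ⟨nat_lit 0x5060604000, nat_lit 1, nat_lit 53⟩ = true := by decide +kernel

theorem k_4_5_40 : ck_4_5 ⟨nat_lit 0x5060408000, nat_lit 1, nat_lit 54⟩ = true := by decide +kernel

theorem k_4_5_41 : ck_4_5 ⟨nat_lit 0x5050804000, nat_lit 1, nat_lit 55⟩ = true := by decide +kernel

theorem k_4_5_42 : ck_4_5 ⟨nat_lit 0x5040808000, nat_lit 1, nat_lit 56⟩ = true := by decide +kernel

theorem k_4_5_43 : ck_4_5 ⟨nat_lit 0x4880600000, nat_lit 1, nat_lit 57⟩ = true := by decide +kernel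

theorem k_4_5_44 : ck_4_5 ⟨nat_lit 0x4880404000, nat_lit 1, nat_lit 58⟩ = true := by decide +kernel

theorem k_4_5_45 : ck_4_5 ⟨nat_lit 0x4870800000, nat_lit 1, nat_lit 59⟩ = true := by decide +kernel

theorem k_4_5_46 : ck_4_5 ⟨nat_lit 0x4870604000, nat_lit 1, nat_lit 60⟩ = true := by decide +kernel

theorem k_4_5_47 : ck_4_5 ⟨nat_lit 0x4860a00000, nat_lit 1, nat_lit 61⟩ = true := by decide +kernel

theorem k_4_5_48 : ck_4_5 ⟨nat_lit 0x4860804000, nat_lit 1, nat_lit 62⟩ = true := by decide +kernel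

theorem k_4_5_49 : ck_4_5 ⟨nat_lit 0x4860608000, nat_lit 1, nat_lit 63⟩ = true := by decide +kernel

theorem k_4_5_50 : ck_4_5 ⟨nat_lit 0x4850808000, nat_lit 1, nat_lit 64⟩ = true := by decide +kernel

theorem k_4_5_51 : ck_4_5 ⟨nat_lit 0x4080800000, nat_lit 1, nat_lit 65⟩ = true := by decide +kernel

theorem k_4_5_52 : ck_4_5 ⟨nat_lit 0x4080408000, nat_lit 1, nat_lit 66⟩ = true := by decide +kernel

theorem k_4_5_53 : ck_4_5 ⟨nat_lit 0x4070804000, nat_lit 1, nat_lit 67⟩ = true := by decide +kernel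

theorem k_4_5_54 : ck_4_5 ⟨nat_lit 0x4060c00000, nat_lit 1, nat_lit 68⟩ = true := by decide +kernel

theorem k_4_5_55 : ck_4_5 ⟨nat_lit 0x4060a04000, nat_lit 1, nat_lit 69⟩ = true := by decide +kernel

theorem k_4_5_56 : ck_4_5 ⟨nat_lit 0x4060808000, nat_lit 1, nat_lit 70⟩ = true := by decide +kernel

theorem k_4_5_57 : ck_4_5 ⟨nat_lit 0x4040810000, nat_lit 1, nat_lit 71⟩ = true := by decide +kernel

theorem k_4_5_58 : ck_4_5 ⟨nat_lit 0x386080c000, nat_lit 1, nat_lit 72⟩ = true := by decide +kernel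

theorem k_4_5_59 : ck_4_5 ⟨nat_lit 0x3060c08000, nat_lit 1, nat_lit 73⟩ = true := by decide +kernel

/-- sources 0 to 59 -/
noncomputable def c_4_5_0 : List IE := [⟨nat_lit 0xa000000000, nat_lit 1, nat_lit 0⟩,
  ⟨nat_lit 0x9020000000, nat_lit 1, nat_lit 1⟩,
  ⟨nat_lit 0x8830000000, nat_lit 1, nat_lit 2⟩,
  ⟨nat_lit 0x8040000000, nat_lit 2, nat_lit 3⟩,
  ⟨nat_lit 0x8020400000, nat_lit 1, nat_lit 5⟩,
  ⟨nat_lit 0x7850000000, nat_lit 1, nat_lit 6⟩,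
  ⟨nat_lit 0x7840200000, nat_lit 1, nat_lit 7⟩,
  ⟨nat_lit 0x7830400000, nat_lit 1, nat_lit 8⟩,
  ⟨nat_lit 0x7060000000, nat_lit 2, nat_lit 9⟩,
  ⟨nat_lit 0x7050200000, nat_lit 1, nat_lit 11⟩,
  ⟨nat_lit 0x7040400000, nat_lit 2, nat_lit 12⟩,
  ⟨nat_lit 0x7020408000, nat_lit 1, nat_lit 14⟩,
  ⟨nat_lit 0x6870000000, nat_lit 1, nat_lit 15⟩,
  ⟨nat_lit 0x6860200000, nat_lit 2, nat_lit 16⟩,
  ⟨nat_lit 0x6850400000, nat_lit 2, nat_lit 18⟩,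
  ⟨nat_lit 0x6840600000, nat_lit 1, nat_lit 20⟩,
  ⟨nat_lit 0x6840404000, nat_lit 1, nat_lit 21⟩,
  ⟨nat_lit 0x6080000000, nat_lit 2, nat_lit 22⟩,
  ⟨nat_lit 0x6070200000, nat_lit 1, nat_lit 24⟩,
  ⟨nat_lit 0x6060400000, nat_lit 3, nat_lit 25⟩,
  ⟨nat_lit 0x6050600000, nat_lit 1, nat_lit 28⟩,
  ⟨nat_lit 0x6050404000, nat_lit 1, nat_lit 29⟩,
  ⟨nat_lit 0x6040800000, nat_lit 2, nat_lit 30⟩,
  ⟨nat_lit 0x6040408000, nat_lit 1, nat_lit 32⟩,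
  ⟨nat_lit 0x5880200000, nat_lit 1, nat_lit 33⟩,
  ⟨nat_lit 0x5870400000, nat_lit 2, nat_lit 34⟩,
  ⟨nat_lit 0x5870204000, nat_lit 1, nat_lit 36⟩,
  ⟨nat_lit 0x5860600000, nat_lit 2, nat_lit 37⟩,
  ⟨nat_lit 0x5860404000, nat_lit 1, nat_lit 39⟩,
  ⟨nat_lit 0x5850800000, nat_lit 1, nat_lit 40⟩,
  ⟨nat_lit 0x5850604000, nat_lit 1, nat_lit 41⟩,
  ⟨nat_lit 0x5850408000, nat_lit 1, nat_lit 42⟩,
  ⟨nat_lit 0x5840804000, nat_lit 1, nat_lit 43⟩,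
  ⟨nat_lit 0x50a0000000, nat_lit 1, nat_lit 44⟩,
  ⟨nat_lit 0x5090200000, nat_lit 1, nat_lit 45⟩,
  ⟨nat_lit 0x5080400000, nat_lit 2, nat_lit 46⟩,
  ⟨nat_lit 0x5070600000, nat_lit 1, nat_lit 48⟩,
  ⟨nat_lit 0x5070404000, nat_lit 1, nat_lit 49⟩,
  ⟨nat_lit 0x5060800000, nat_lit 3, nat_lit 50⟩,
  ⟨nat_lit 0x5060604000, nat_lit 1, nat_lit 53⟩,
  ⟨nat_lit 0x5060408000, nat_lit 1, nat_lit 54⟩,
  ⟨nat_lit 0x5050804000, nat_lit 1, nat_lit 55⟩,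
  ⟨nat_lit 0x5040808000, nat_lit 1, nat_lit 56⟩,
  ⟨nat_lit 0x4880600000, nat_lit 1, nat_lit 57⟩,
  ⟨nat_lit 0x4880404000, nat_lit 1, nat_lit 58⟩,
  ⟨nat_lit 0x4870800000, nat_lit 1, nat_lit 59⟩,
  ⟨nat_lit 0x4870604000, nat_lit 1, nat_lit 60⟩,
  ⟨nat_lit 0x4860a00000, nat_lit 1, nat_lit 61⟩,
  ⟨nat_lit 0x4860804000, nat_lit 1, nat_lit 62⟩,
  ⟨nat_lit 0x4860608000, nat_lit 1, nat_lit 63⟩,
  ⟨nat_lit 0x4850808000, nat_lit 1, nat_lit 64⟩,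
  ⟨nat_lit 0x4080800000, nat_lit 1, nat_lit 65⟩,
  ⟨nat_lit 0x4080408000, nat_lit 1, nat_lit 66⟩,
  ⟨nat_lit 0x4070804000, nat_lit 1, nat_lit 67⟩,
  ⟨nat_lit 0x4060c00000, nat_lit 1, nat_lit 68⟩,
  ⟨nat_lit 0x4060a04000, nat_lit 1, nat_lit 69⟩,
  ⟨nat_lit 0x4060808000, nat_lit 1, nat_lit 70⟩,
  ⟨nat_lit 0x4040810000, nat_lit 1, nat_lit 71⟩,
  ⟨nat_lit 0x386080c000, nat_lit 1, nat_lit 72⟩,
  ⟨nat_lit 0x3060c08000, nat_lit 1, nat_lit 73⟩]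

theorem C_4_5_0 : allL ck_4_5 c_4_5_0 = true :=
  (allL_cons k_4_5_0 (allL_cons k_4_5_1 (allL_cons k_4_5_2 (allL_cons k_4_5_3 (allL_cons k_4_5_4 (allL_cons k_4_5_5 (allL_cons k_4_5_6 (allL_cons k_4_5_7 (allL_cons k_4_5_8 (allL_cons k_4_5_9 (allL_cons k_4_5_10 (allL_cons k_4_5_11 (allL_cons k_4_5_12 (allL_cons k_4_5_13 (allL_cons k_4_5_14 (allL_cons k_4_5_15 (allL_cons k_4_5_16 (allL_cons k_4_5_17 (allL_cons k_4_5_18 (allL_cons k_4_5_19 (allL_cons k_4_5_20 (allL_cons k_4_5_21 (allL_cons k_4_5_22 (allL_cons k_4_5_23 (allL_cons k_4_5_24 (allL_cons k_4_5_25 (allL_cons k_4_5_26 (allL_cons k_4_5_27 (allL_cons k_4_5_28 (allL_cons k_4_5_29 (allL_cons k_4_5_30 (allL_cons k_4_5_31 (allL_cons k_4_5_32 (allL_cons k_4_5_33 (allL_cons k_4_5_34 (allL_cons k_4_5_35 (allL_cons k_4_5_36 (allL_cons k_4_5_37 (allL_cons k_4_5_38 (allL_cons k_4_5_39 (allL_cons k_4_5_40 (allL_cons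 k_4_5_41 (allL_cons k_4_5_42 (allL_cons k_4_5_43 (allL_cons k_4_5_44 (allL_cons k_4_5_45 (allL_cons k_4_5_46 (allL_cons k_4_5_47 (allL_cons k_4_5_48 (allL_cons k_4_5_49 (allL_cons k_4_5_50 (allL_cons k_4_5_51 (allL_cons k_4_5_52 (allL_cons k_4_5_53 (allL_cons k_4_5_54 (allL_cons k_4_5_55 (allL_cons k_4_5_56 (allL_cons k_4_5_57 (allL_cons k_4_5_58 (allL_cons k_4_5_59 (allL_nil _)))))))))))))))))))))))))))))))))))))))))))))))))))))))))))))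

theorem k_5_0_0 : ck_5_0 ⟨nat_lit 0x0, nat_lit 1, nat_lit 0⟩ = true := by decide +kernel

/-- sources 0 to 0 -/
noncomputable def c_5_0_0 : List IE := [⟨nat_lit 0x0, nat_lit 1, nat_lit 0⟩]

theorem C_5_0_0 : allL ck_5_0 c_5_0_0 = true :=
  (allL_cons k_5_0_0 (allL_nil _))

theorem k_5_1_0 : ck_5_1 ⟨nat_lit 0x2800000000, nat_lit 1, nat_lit 0⟩ = true := by decide +kernel

/-- sources 0 to 0 -/
noncomputable def c_5_1_0 : List IE := [⟨nat_lit 0x2800000000, nat_lit 1, nat_lit 0⟩]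

theorem C_5_1_0 : allL ck_5_1 c_5_1_0 = true :=
  (allL_cons k_5_1_0 (allL_nil _))

theorem k_5_2_0 : ck_5_2 ⟨nat_lit 0x5000000000, nat_lit 1, nat_lit 0⟩ = true := by decide +kernel

theorem k_5_2_1 : ck_5_2 ⟨nat_lit 0x4020000000, nat_lit 1, nat_lit 1⟩ = true := by decide +kernel

theorem k_5_2_2 : ck_5_2 ⟨nat_lit 0x3040000000, nat_lit 1, nat_lit 2⟩ = true := by decide +kernel

/-- sources 0 to 2 -/
noncomputable def c_5_2_0 : List IE := [⟨nat_lit 0x5000000000, nat_lit 1, nat_lit 0⟩,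
  ⟨nat_lit 0x4020000000, nat_lit 1, nat_lit 1⟩,
  ⟨nat_lit 0x3040000000, nat_lit 1, nat_lit 2⟩]

theorem C_5_2_0 : allL ck_5_2 c_5_2_0 = true :=
  (allL_cons k_5_2_0 (allL_cons k_5_2_1 (allL_cons k_5_2_2 (allL_nil _))))

theorem k_5_3_0 : ck_5_3 ⟨nat_lit 0x7800000000, nat_lit 1, nat_lit 0⟩ = true := by decide +kernel

theorem k_5_3_1 : ck_5_3 ⟨nat_lit 0x6820000000, nat_lit 1, nat_lit 1⟩ = true := by decide +kernel

theorem k_5_3_2 : ck_5_3 ⟨nat_lit 0x6030000000, nat_lit 1, nat_lit 2⟩ = true := by decide +kernel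

theorem k_5_3_3 : ck_5_3 ⟨nat_lit 0x5840000000, nat_lit 1, nat_lit 3⟩ = true := by decide +kernel

theorem k_5_3_4 : ck_5_3 ⟨nat_lit 0x5820400000, nat_lit 1, nat_lit 4⟩ = true := by decide +kernel

theorem k_5_3_5 : ck_5_3 ⟨nat_lit 0x5050000000, nat_lit 1, nat_lit 5⟩ = true := by decide +kernel

theorem k_5_3_6 : ck_5_3 ⟨nat_lit 0x5040200000, nat_lit 1, nat_lit 6⟩ = true := by decide +kernel

theorem k_5_3_7 : ck_5_3 ⟨nat_lit 0x4860000000, nat_lit 1, nat_lit 7⟩ = true := by decide +kernel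

theorem k_5_3_8 : ck_5_3 ⟨nat_lit 0x4840400000, nat_lit 1, nat_lit 8⟩ = true := by decide +kernel

theorem k_5_3_9 : ck_5_3 ⟨nat_lit 0x4060200000, nat_lit 1, nat_lit 9⟩ = true := by decide +kernel

theorem k_5_3_10 : ck_5_3 ⟨nat_lit 0x4050400000, nat_lit 1, nat_lit 10⟩ = true := by decide +kernel

theorem k_5_3_11 : ck_5_3 ⟨nat_lit 0x3840800000, nat_lit 1, nat_lit 11⟩ = true := by decide +kernel

theorem k_5_3_12 : ck_5_3 ⟨nat_lit 0x3060600000, nat_lit 1, nat_lit 12⟩ = true := by decide +kernel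

/-- sources 0 to 12 -/
noncomputable def c_5_3_0 : List IE := [⟨nat_lit 0x7800000000, nat_lit 1, nat_lit 0⟩,
  ⟨nat_lit 0x6820000000, nat_lit 1, nat_lit 1⟩,
  ⟨nat_lit 0x6030000000, nat_lit 1, nat_lit 2⟩,
  ⟨nat_lit 0x5840000000, nat_lit 1, nat_lit 3⟩,
  ⟨nat_lit 0x5820400000, nat_lit 1, nat_lit 4⟩,
  ⟨nat_lit 0x5050000000, nat_lit 1, nat_lit 5⟩,
  ⟨nat_lit 0x5040200000, nat_lit 1, nat_lit 6⟩,
  ⟨nat_lit 0x4860000000, nat_lit 1, nat_lit 7⟩,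
  ⟨nat_lit 0x4840400000, nat_lit 1, nat_lit 8⟩,
  ⟨nat_lit 0x4060200000, nat_lit 1, nat_lit 9⟩,
  ⟨nat_lit 0x4050400000, nat_lit 1, nat_lit 10⟩,
  ⟨nat_lit 0x3840800000, nat_lit 1, nat_lit 11⟩,
  ⟨nat_lit 0x3060600000, nat_lit 1, nat_lit 12⟩]

theorem C_5_3_0 : allL ck_5_3 c_5_3_0 = true :=
  (allL_cons k_5_3_0 (allL_cons k_5_3_1 (allL_cons k_5_3_2 (allL_cons k_5_3_3 (allL_cons k_5_3_4 (allL_cons k_5_3_5 (allL_cons k_5_3_6 (allL_cons k_5_3_7 (allL_cons k_5_3_8 (allL_cons k_5_3_9 (allL_cons k_5_3_10 (allL_cons k_5_3_11 (allL_cons k_5_3_12 (allL_nil _))))))))))))))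

end Crest.Agent.R187.SN.KC
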