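import Crest.Agent.R187.SN.KC.SV
import Crest.Agent.R187.SN.KC.KLow
import Crest.Agent.R187.SN.KC.K46_0
import Crest.Agent.R187.SN.KC.K46_1
import Crest.Agent.R187.SN.KC.K54_0
import Crest.Agent.R187.SN.KC.K55_0
import Crest.Agent.R187.SN.KC.K55_1
import Crest.Agent.R187.SN.KC.K55_2
import Crest.Agent.R187.SN.KC.K55_3
import Crest.Agent.R187.SN.KC.K55_4
import Crest.Agent.R187.SN.KC.K55_5
import Crest.Agent.R187.SN.KC.K55_6
import Crest.Agent.R187.SN.KC.K55_7
import Crest.Agent.R187.SN.KC.K56_0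
import Crest.Agent.R187.SN.KC.K56_1
import Crest.Agent.R187.SN.KC.K56_2
import Crest.Agent.R187.SN.KC.K56_3
import Crest.Agent.R187.SN.KC.K56_4
import Crest.Agent.R187.SN.KC.K56_5
import Crest.Agent.R187.SN.KC.K56_6
import Crest.Agent.R187.SN.KC.K56_7
import Crest.Agent.R187.SN.KC.K56_8
import Crest.Agent.R187.SN.KC.K56_9
import Crest.Agent.R187.SN.KC.K56_10
import Crest.Agent.R187.SN.KC.K56_11
import Crest.Agent.R187.SN.KC.K56_12
import Crest.Agent.R187.SN.KC.K56_13
import Crest.Agent.R187.SN.KC.K56_14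
import Crest.Agent.R187.SN.KC.K56_15
import Crest.Agent.R187.SN.KC.K56_16
import Crest.Agent.R187.SN.KC.K56_17
import Crest.Agent.R187.SN.KC.K56_18
import Crest.Agent.R187.SN.KC.K56_19
import Crest.Agent.R187.SN.KC.K56_20
import Crest.Agent.R187.SN.KC.K56_21
import Crest.Agent.R187.SN.KC.K56_22
import Crest.Agent.R187.SN.KC.K56_23

/-!
# Row 187, PLAN S, block E2: all level checks (generated)
-/

set_option autoImplicit false
set_option maxRecDepth 100000
set_option Elab.async false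

namespace Crest.Agent.R187.SN.KC

open Crest.Agent.R187.SN Crest.Agent.R187.SN.Spec Crest.Agent.R187.SN.Kern
open Crest.Agent.R187.SN.KKey Crest.Agent.R187.SN.KD Crest.Agent.R187.SN.KE
open Crest.Agent.R187.SN.KRel Crest.Agent.R187.SN.KDec

/-- equality of index entries -/
def eqI (e e' : IE) : Bool :=
  and (Nat.beq (IE.key e) (IE.key e')) (and (Nat.beq (IE.m e) (IE.m e')) (Nat.beq (IE.off e) (IE.off e')))

theorem eqI_sound {e e' : IE} (h : eqI e e' = true) : e = e' := by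
  unfold eqI at h
  rw [Bool.and_eq_true, Bool.and_eq_true] at h
  obtain ⟨h1, h2, h3⟩ := h
  have e1 := Nat.eq_of_beq_eq_true h1
  have e2 := Nat.eq_of_beq_eq_true h2
  have e3 := Nat.eq_of_beq_eq_true h3
  cases e; cases e'
  simp only at e1 e2 e3
  rw [e1, e2, e3]

/-- equality of index lists -/
def eqL (L : List IE) : List IE → Bool :=
  List.rec (motive := fun _ => List IE → Bool)
    (fun L' => List.rec (motive := fun _ => Bool) true (fun _ _ _ => false) L')
    (fun e _ ih L' => List.rec (motive := fun _ => Bool) false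
      (fun e' T' _ => and (eqI e e') (ih T')) L') L

theorem eqL_sound : ∀ {L L' : List IE}, eqL L L' = true → L = L'
  | [], [], _ => rfl
  | [], _ :: _, h => absurd h (by intro h; exact Bool.noConfusion h)
  | _ :: _, [], h => absurd h (by intro h; exact Bool.noConfusion h)
  | e :: L, e' :: L', h => by
    have h0 : and (eqI e e') (eqL L L') = true := h
    rw [Bool.and_eq_true] at h0
    rw [eqI_sound h0.1, eqL_sound h0.2]

theorem allL_of_eq {P : IE → Bool} {L L' : List IE} (h : eqL L L' = true)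
    (h' : allL P L' = true) : allL P L = true := by
  rw [eqL_sound h]; exact h'

theorem K_1_0 : allL ck_1_0 ix_1_0 = true :=
  allL_of_eq (by decide +kernel) C_1_0_0

theorem K_1_1 : allL ck_1_1 ix_1_1 = true :=
  allL_of_eq (by decide +kernel) C_1_1_0

theorem K_1_2 : allL ck_1_2 ix_1_2 = true :=
  allL_of_eq (by decide +kernel) C_1_2_0

theorem K_1_3 : allL ck_1_3 ix_1_3 = true :=
  allL_of_eq (by decide +kernel) C_1_3_0

theorem K_1_4 : allL ck_1_4 ix_1_4 = true :=
  allL_of_eq (by decide +kernel) C_1_4_0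

theorem K_1_5 : allL ck_1_5 ix_1_5 = true :=
  allL_of_eq (by decide +kernel) C_1_5_0

theorem K_1_6 : allL ck_1_6 ix_1_6 = true :=
  allL_of_eq (by decide +kernel) C_1_6_0

theorem K_2_0 : allL ck_2_0 ix_2_0 = true :=
  allL_of_eq (by decide +kernel) C_2_0_0

theorem K_2_1 : allL ck_2_1 ix_2_1 = true :=
  allL_of_eq (by decide +kernel) C_2_1_0

theorem K_2_2 : allL ck_2_2 ix_2_2 = true :=
  allL_of_eq (by decide +kernel) C_2_2_0

theorem K_2_3 : allL ck_2_3 ix_2_3 = true :=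
  allL_of_eq (by decide +kernel) C_2_3_0

theorem K_2_4 : allL ck_2_4 ix_2_4 = true :=
  allL_of_eq (by decide +kernel) C_2_4_0

theorem K_2_5 : allL ck_2_5 ix_2_5 = true :=
  allL_of_eq (by decide +kernel) C_2_5_0

theorem K_2_6 : allL ck_2_6 ix_2_6 = true :=
  allL_of_eq (by decide +kernel) C_2_6_0

theorem K_3_0 : allL ck_3_0 ix_3_0 = true :=
  allL_of_eq (by decide +kernel) C_3_0_0

theorem K_3_1 : allL ck_3_1 ix_3_1 = true :=
  allL_of_eq (by decide +kernel) C_3_1_0

theorem K_3_2 : allL ck_3_2 ix_3_2 = true :=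
  allL_of_eq (by decide +kernel) C_3_2_0

theorem K_3_3 : allL ck_3_3 ix_3_3 = true :=
  allL_of_eq (by decide +kernel) C_3_3_0

theorem K_3_4 : allL ck_3_4 ix_3_4 = true :=
  allL_of_eq (by decide +kernel) C_3_4_0

theorem K_3_5 : allL ck_3_5 ix_3_5 = true :=
  allL_of_eq (by decide +kernel) C_3_5_0

theorem K_3_6 : allL ck_3_6 ix_3_6 = true :=
  allL_of_eq (by decide +kernel) C_3_6_0

theorem K_4_0 : allL ck_4_0 ix_4_0 = true :=
  allL_of_eq (by decide +kernel) C_4_0_0

theorem K_4_1 : allL ck_4_1 ix_4_1 = true :=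
  allL_of_eq (by decide +kernel) C_4_1_0

theorem K_4_2 : allL ck_4_2 ix_4_2 = true :=
  allL_of_eq (by decide +kernel) C_4_2_0

theorem K_4_3 : allL ck_4_3 ix_4_3 = true :=
  allL_of_eq (by decide +kernel) C_4_3_0

theorem K_4_4 : allL ck_4_4 ix_4_4 = true :=
  allL_of_eq (by decide +kernel) C_4_4_0

theorem K_4_5 : allL ck_4_5 ix_4_5 = true :=
  allL_of_eq (by decide +kernel) C_4_5_0

theorem K_4_6 : allL ck_4_6 ix_4_6 = true :=
  allL_of_eq (by decide +kernel) (allL_app C_4_6_0 C_4_6_1)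

theorem K_5_0 : allL ck_5_0 ix_5_0 = true :=
  allL_of_eq (by decide +kernel) C_5_0_0

theorem K_5_1 : allL ck_5_1 ix_5_1 = true :=
  allL_of_eq (by decide +kernel) C_5_1_0

theorem K_5_2 : allL ck_5_2 ix_5_2 = true :=
  allL_of_eq (by decide +kernel) C_5_2_0

theorem K_5_3 : allL ck_5_3 ix_5_3 = true :=
  allL_of_eq (by decide +kernel) C_5_3_0

theorem K_5_4 : allL ck_5_4 ix_5_4 = true :=
  allL_of_eq (by decide +kernel) C_5_4_0

theorem K_5_5 : allL ck_5_5 ix_5_5 = true :=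
  allL_of_eq (by decide +kernel) (allL_app C_5_5_0 (allL_app C_5_5_1 (allL_app C_5_5_2 (allL_app C_5_5_3 (allL_app C_5_5_4 (allL_app C_5_5_5 (allL_app C_5_5_6 C_5_5_7)))))))

theorem K_5_6 : allL ck_5_6 ix_5_6 = true :=
  allL_of_eq (by decide +kernel) (allL_app C_5_6_0 (allL_app C_5_6_1 (allL_app C_5_6_2 (allL_app C_5_6_3 (allL_app C_5_6_4 (allL_app C_5_6_5 (allL_app C_5_6_6 (allL_app C_5_6_7 (allL_app C_5_6_8 (allL_app C_5_6_9 (allL_app C_5_6_10 (allL_app C_5_6_11 (allL_app C_5_6_12 (allL_app C_5_6_13 (allL_app C_5_6_14 (allL_app C_5_6_15 (allL_app C_5_6_16 (allL_app C_5_6_17 (allL_app C_5_6_18 (allL_app C_5_6_19 (allL_app C_5_6_20 (allL_app C_5_6_21 (allL_app C_5_6_22 C_5_6_23)))))))))))))))))))))))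

end Crest.Agent.R187.SN.KC
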