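import Crest.Agent.R187.SN.KRel
import Crest.Agent.R187.SN.KDec
import Crest.Agent.R187.SN.KD.Low
import Crest.Agent.R187.SN.KD.L_5_5
import Crest.Agent.R187.SN.KD.L_5_6
import Crest.Agent.R187.SN.KD.L_5_7
import Crest.Agent.R187.SN.KE.Low
import Crest.Agent.R187.SN.KE.V55
import Crest.Agent.R187.SN.KE.V56
import Crest.Agent.R187.SN.KE.V57
import Crest.Agent.R187.SN.KE.B55
import Crest.Agent.R187.SN.KE.B56

/-!
# Row 187, PLAN S, block E2: the kernel checks `ck_A_b` of the level steps (generated)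
-/

set_option autoImplicit false
set_option maxRecDepth 100000
set_option Elab.async false

namespace Crest.Agent.R187.SN.KC

open Crest.Agent.R187.SN Crest.Agent.R187.SN.Spec Crest.Agent.R187.SN.Kern
open Crest.Agent.R187.SN.KKey Crest.Agent.R187.SN.KD Crest.Agent.R187.SN.KE
open Crest.Agent.R187.SN.KRel Crest.Agent.R187.SN.KDec

theorem allL_nil (P : IE → Bool) : allL P [] = true := rfl

theorem allL_cons {P : IE → Bool} {e : IE} {L : List IE} (h : P e = true)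
    (hL : allL P L = true) : allL P (e :: L) = true := by
  show (Bool.rec false (allL P L) (P e) : Bool) = true
  rw [h]; exact hL

theorem allL_app {P : IE → Bool} {L1 L2 : List IE} (h1 : allL P L1 = true)
    (h2 : allL P L2 = true) : allL P (L1 ++ L2) = true := by
  rw [allL_iff] at h1 h2 ⊢
  intro e he
  rcases List.mem_append.1 he with h | h
  · exact h1 e h
  · exact h2 e h

/-- check of the sources of level (1, 0) -/
noncomputable def ck_1_0 : IE → Bool :=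
  chkK 1 1 ix_0_0 ix_0_1 ix_1_1 (vtDec 1 gV_1_0)
    (vtDec 1 gV_1_1) (vtDec 1 gN_0_0) (ngBlk 1 gN_1_0)

/-- check of the sources of level (1, 1) -/
noncomputable def ck_1_1 : IE → Bool :=
  chkK 1 1 ix_0_1 ix_0_2 ix_1_2 (vtDec 1 gV_1_1)
    (vtDec 1 gV_1_2) (vtDec 1 gN_0_1) (ngBlk 1 gN_1_1)

/-- check of the sources of level (1, 2) -/
noncomputable def ck_1_2 : IE → Bool :=
  chkK 1 1 ix_0_2 ix_0_3 ix_1_3 (vtDec 1 gV_1_2)
    (vtDec 1 gV_1_3) (vtDec 1 gN_0_2) (ngBlk 1 gN_1_2)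

/-- check of the sources of level (1, 3) -/
noncomputable def ck_1_3 : IE → Bool :=
  chkK 1 1 ix_0_3 ix_0_4 ix_1_4 (vtDec 1 gV_1_3)
    (vtDec 1 gV_1_4) (vtDec 1 gN_0_3) (ngBlk 1 gN_1_3)

/-- check of the sources of level (1, 4) -/
noncomputable def ck_1_4 : IE → Bool :=
  chkK 1 1 ix_0_4 ix_0_5 ix_1_5 (vtDec 1 gV_1_4)
    (vtDec 1 gV_1_5) (vtDec 1 gN_0_4) (ngBlk 1 gN_1_4)

/-- check of the sources of level (1, 5) -/
noncomputable def ck_1_5 : IE → Bool :=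
  chkK 1 1 ix_0_5 ix_0_6 ix_1_6 (vtDec 1 gV_1_5)
    (vtDec 1 gV_1_6) (vtDec 1 gN_0_5) (ngBlk 1 gN_1_5)

/-- check of the sources of level (1, 6) -/
noncomputable def ck_1_6 : IE → Bool :=
  chkK 1 1 ix_0_6 ix_0_7 ix_1_7 (vtDec 1 gV_1_6)
    (vtDec 1 gV_1_7) (vtDec 1 gN_0_6) (ngBlk 1 gN_1_6)

/-- check of the sources of level (2, 0) -/
noncomputable def ck_2_0 : IE → Bool :=
  chkK 1 2 ix_1_0 ix_1_1 ix_2_1 (vtDec 1 gV_2_0)
    (vtDec 1 gV_2_1) (vtDec 1 gN_1_0) (ngBlk 1 gN_2_0)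

/-- check of the sources of level (2, 1) -/
noncomputable def ck_2_1 : IE → Bool :=
  chkK 1 2 ix_1_1 ix_1_2 ix_2_2 (vtDec 1 gV_2_1)
    (vtDec 1 gV_2_2) (vtDec 1 gN_1_1) (ngBlk 2 gN_2_1)

/-- check of the sources of level (2, 2) -/
noncomputable def ck_2_2 : IE → Bool :=
  chkK 1 2 ix_1_2 ix_1_3 ix_2_3 (vtDec 1 gV_2_2)
    (vtDec 1 gV_2_3) (vtDec 1 gN_1_2) (ngBlk 2 gN_2_2)

/-- check of the sources of level (2, 3) -/
noncomputable def ck_2_3 : IE → Bool :=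
  chkK 1 2 ix_1_3 ix_1_4 ix_2_4 (vtDec 1 gV_2_3)
    (vtDec 1 gV_2_4) (vtDec 1 gN_1_3) (ngBlk 3 gN_2_3)

/-- check of the sources of level (2, 4) -/
noncomputable def ck_2_4 : IE → Bool :=
  chkK 1 2 ix_1_4 ix_1_5 ix_2_5 (vtDec 1 gV_2_4)
    (vtDec 1 gV_2_5) (vtDec 1 gN_1_4) (ngBlk 3 gN_2_4)

/-- check of the sources of level (2, 5) -/
noncomputable def ck_2_5 : IE → Bool :=
  chkK 1 2 ix_1_5 ix_1_6 ix_2_6 (vtDec 1 gV_2_5)
    (vtDec 1 gV_2_6) (vtDec 1 gN_1_5) (ngBlk 4 gN_2_5)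

/-- check of the sources of level (2, 6) -/
noncomputable def ck_2_6 : IE → Bool :=
  chkK 1 2 ix_1_6 ix_1_7 ix_2_7 (vtDec 1 gV_2_6)
    (vtDec 1 gV_2_7) (vtDec 1 gN_1_6) (ngBlk 4 gN_2_6)

/-- check of the sources of level (3, 0) -/
noncomputable def ck_3_0 : IE → Bool :=
  chkK 1 3 ix_2_0 ix_2_1 ix_3_1 (vtDec 1 gV_3_0)
    (vtDec 1 gV_3_1) (vtDec 1 gN_2_0) (ngBlk 1 gN_3_0)

/-- check of the sources of level (3, 1) -/
noncomputable def ck_3_1 : IE → Bool :=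
  chkK 2 3 ix_2_1 ix_2_2 ix_3_2 (vtDec 1 gV_3_1)
    (vtDec 2 gV_3_2) (vtDec 2 gN_2_1) (ngBlk 2 gN_3_1)

/-- check of the sources of level (3, 2) -/
noncomputable def ck_3_2 : IE → Bool :=
  chkK 2 3 ix_2_2 ix_2_3 ix_3_3 (vtDec 2 gV_3_2)
    (vtDec 2 gV_3_3) (vtDec 2 gN_2_2) (ngBlk 5 gN_3_2)

/-- check of the sources of level (3, 3) -/
noncomputable def ck_3_3 : IE → Bool :=
  chkK 3 3 ix_2_3 ix_2_4 ix_3_4 (vtDec 2 gV_3_3)
    (vtDec 3 gV_3_4) (vtDec 3 gN_2_3) (ngBlk 9 gN_3_3)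

/-- check of the sources of level (3, 4) -/
noncomputable def ck_3_4 : IE → Bool :=
  chkK 3 3 ix_2_4 ix_2_5 ix_3_5 (vtDec 3 gV_3_4)
    (vtDec 3 gV_3_5) (vtDec 3 gN_2_4) (ngBlk 13 gN_3_4)

/-- check of the sources of level (3, 5) -/
noncomputable def ck_3_5 : IE → Bool :=
  chkK 4 3 ix_2_5 ix_2_6 ix_3_6 (vtDec 3 gV_3_5)
    (vtDec 4 gV_3_6) (vtDec 4 gN_2_5) (ngBlk 20 gN_3_5)

/-- check of the sources of level (3, 6) -/
noncomputable def ck_3_6 : IE → Bool :=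
  chkK 4 3 ix_2_6 ix_2_7 ix_3_7 (vtDec 4 gV_3_6)
    (vtDec 4 gV_3_7) (vtDec 4 gN_2_6) (ngBlk 28 gN_3_6)

/-- check of the sources of level (4, 0) -/
noncomputable def ck_4_0 : IE → Bool :=
  chkK 1 4 ix_3_0 ix_3_1 ix_4_1 (vtDec 1 gV_4_0)
    (vtDec 1 gV_4_1) (vtDec 1 gN_3_0) (ngBlk 1 gN_4_0)

/-- check of the sources of level (4, 1) -/
noncomputable def ck_4_1 : IE → Bool :=
  chkK 2 4 ix_3_1 ix_3_2 ix_4_2 (vtDec 1 gV_4_1)
    (vtDec 2 gV_4_2) (vtDec 2 gN_3_1) (ngBlk 3 gN_4_1)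

/-- check of the sources of level (4, 2) -/
noncomputable def ck_4_2 : IE → Bool :=
  chkK 5 4 ix_3_2 ix_3_3 ix_4_3 (vtDec 2 gV_4_2)
    (vtDec 5 gV_4_3) (vtDec 5 gN_3_2) (ngBlk 9 gN_4_2)

/-- check of the sources of level (4, 3) -/
noncomputable def ck_4_3 : IE → Bool :=
  chkK 9 4 ix_3_3 ix_3_4 ix_4_4 (vtDec 5 gV_4_3)
    (vtDec 9 gV_4_4) (vtDec 9 gN_3_3) (ngBlk 33 gN_4_3)

/-- check of the sources of level (4, 4) -/
noncomputable def ck_4_4 : IE → Bool :=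
  chkK 13 4 ix_3_4 ix_3_5 ix_4_5 (vtDec 9 gV_4_4)
    (vtDec 13 gV_4_5) (vtDec 13 gN_3_4) (ngBlk 74 gN_4_4)

/-- check of the sources of level (4, 5) -/
noncomputable def ck_4_5 : IE → Bool :=
  chkK 20 4 ix_3_5 ix_3_6 ix_4_6 (vtDec 13 gV_4_5)
    (vtDec 20 gV_4_6) (vtDec 20 gN_3_5) (ngBlk 163 gN_4_5)

/-- check of the sources of level (4, 6) -/
noncomputable def ck_4_6 : IE → Bool :=
  chkK 28 4 ix_3_6 ix_3_7 ix_4_7 (vtDec 20 gV_4_6)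
    (vtDec 28 gV_4_7) (vtDec 28 gN_3_6) (ngBlk 319 gN_4_6)

/-- check of the sources of level (5, 0) -/
noncomputable def ck_5_0 : IE → Bool :=
  chkK 1 5 ix_4_0 ix_4_1 ix_5_1 (vtDec 1 gV_5_0)
    (vtDec 1 gV_5_1) (vtDec 1 gN_4_0) (nbDec bN_5_0)

/-- check of the sources of level (5, 1) -/
noncomputable def ck_5_1 : IE → Bool :=
  chkK 3 5 ix_4_1 ix_4_2 ix_5_2 (vtDec 1 gV_5_1)
    (vtDec 3 gV_5_2) (vtDec 3 gN_4_1) (nbDec bN_5_1)

/-- check of the sources of level (5, 2) -/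
noncomputable def ck_5_2 : IE → Bool :=
  chkK 9 5 ix_4_2 ix_4_3 ix_5_3 (vtDec 3 gV_5_2)
    (vtDec 9 gV_5_3) (vtDec 9 gN_4_2) (nbDec bN_5_2)

/-- check of the sources of level (5, 3) -/
noncomputable def ck_5_3 : IE → Bool :=
  chkK 33 5 ix_4_3 ix_4_4 ix_5_4 (vtDec 9 gV_5_3)
    (vtDec 33 gV_5_4) (vtDec 33 gN_4_3) (nbDec bN_5_3)

/-- check of the sources of level (5, 4) -/
noncomputable def ck_5_4 : IE → Bool :=
  chkK 74 5 ix_4_4 ix_4_5 ix_5_5 (vtDec 33 gV_5_4)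
    (vtDec 74 gV_5_5) (vtDec 74 gN_4_4) (nbDec bN_5_4)

/-- check of the sources of level (5, 5) -/
noncomputable def ck_5_5 : IE → Bool :=
  chkK 163 5 ix_4_5 ix_4_6 ix_5_6 (vtDec 74 gV_5_5)
    (vtDec 163 gV_5_6) (vtDec 163 gN_4_5) (nbDec bN_5_5)

/-- check of the sources of level (5, 6) -/
noncomputable def ck_5_6 : IE → Bool :=
  chkK 319 5 ix_4_6 ix_4_7 ix_5_7 (vtDec 163 gV_5_6)
    (vtDec 319 gV_5_7) (vtDec 319 gN_4_6) (nbDec bN_5_6)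

end Crest.Agent.R187.SN.KC
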