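import Crest.Agent.R187.SN.KRel

/-!
# Row 187, PLAN S, block E2: kernel equality test of index lists
-/

set_option autoImplicit false

namespace Crest.Agent.R187.SN.KC

open Crest.Agent.R187.SN Crest.Agent.R187.SN.KD Crest.Agent.R187.SN.KRel

/-- equality of entries -/
def eqE (e f : IE) : Bool :=
  and (Nat.beq (IE.key e) (IE.key f)) (and (Nat.beq (IE.m e) (IE.m f))
    (Nat.beq (IE.off e) (IE.off f)))

theorem eqE_sound {e f : IE} (h : eqE e f = true) : e = f := by
  unfold eqE at h
  rw [Bool.and_eq_true, Bool.and_eq_true] at h
  obtain ⟨h1, h2, h3⟩ := h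
  have h1 := Nat.eq_of_beq_eq_true h1
  have h2 := Nat.eq_of_beq_eq_true h2
  have h3 := Nat.eq_of_beq_eq_true h3
  cases e; cases f
  simp_all

/-- equality of lists -/
def eqL (L : List IE) : List IE → Bool :=
  List.rec (fun M => List.rec true (fun _ _ _ => false) M)
    (fun e _ ih M => List.rec false (fun f M' _ => Bool.rec false (ih M') (eqE e f)) M) L

theorem eqL_sound (L : List IE) : ∀ M, eqL L M = true → L = M := by
  induction L with
  | nil =>
    intro M h
    cases M with
    | nil => rfl
    | cons f M => exact absurd h (by show ¬ (false = true); simp)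
  | cons e L ih =>
    intro M h
    cases M with
    | nil => exact absurd h (by show ¬ (false = true); simp)
    | cons f M =>
      have h' : (Bool.rec false (eqL L M) (eqE e f) : Bool) = true := h
      cases h1 : eqE e f with
      | false => rw [h1] at h'; exact absurd h' (by show ¬ (false = true); simp)
      | true =>
        rw [h1] at h'
        rw [eqE_sound h1, ih M h']

theorem allL_of_eqL {P : IE → Bool} {L M : List IE} (h : eqL L M = true)
    (hM : allL P M = true) : allL P L = true := by
  rw [eqL_sound L M h]; exact hM

end Crest.Agent.R187.SN.KC
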