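import Crest.Agent.R187.SN.KC.Def

/-!
# Row 187, PLAN S, block E2: sources 0 to 40 of level (5, 6) (generated)
-/

set_option autoImplicit false
set_option maxRecDepth 100000
set_option Elab.async false

namespace Crest.Agent.R187.SN.KC

open Crest.Agent.R187.SN Crest.Agent.R187.SN.Spec Crest.Agent.R187.SN.Kern
open Crest.Agent.R187.SN.KKey Crest.Agent.R187.SN.KD Crest.Agent.R187.SN.KE
open Crest.Agent.R187.SN.KRel Crest.Agent.R187.SN.KDec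

theorem k_5_6_0 : ck_5_6 ⟨nat_lit 0xf000000000, nat_lit 1, nat_lit 0⟩ = true := by decide +kernel

theorem k_5_6_1 : ck_5_6 ⟨nat_lit 0xe020000000, nat_lit 1, nat_lit 1⟩ = true := by decide +kernel

theorem k_5_6_2 : ck_5_6 ⟨nat_lit 0xd830000000, nat_lit 1, nat_lit 2⟩ = true := by decide +kernel

theorem k_5_6_3 : ck_5_6 ⟨nat_lit 0xd040000000, nat_lit 2, nat_lit 3⟩ = true := by decide +kernel

theorem k_5_6_4 : ck_5_6 ⟨nat_lit 0xd020400000, nat_lit 1, nat_lit 5⟩ = true := by decide +kernel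

theorem k_5_6_5 : ck_5_6 ⟨nat_lit 0xc850000000, nat_lit 2, nat_lit 6⟩ = true := by decide +kernel

theorem k_5_6_6 : ck_5_6 ⟨nat_lit 0xc840200000, nat_lit 1, nat_lit 8⟩ = true := by decide +kernel

theorem k_5_6_7 : ck_5_6 ⟨nat_lit 0xc830400000, nat_lit 1, nat_lit 9⟩ = true := by decide +kernel

theorem k_5_6_8 : ck_5_6 ⟨nat_lit 0xc060000000, nat_lit 3, nat_lit 10⟩ = true := by decide +kernel

theorem k_5_6_9 : ck_5_6 ⟨nat_lit 0xc050200000, nat_lit 1, nat_lit 13⟩ = true := by decide +kernel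

theorem k_5_6_10 : ck_5_6 ⟨nat_lit 0xc040400000, nat_lit 3, nat_lit 14⟩ = true := by decide +kernel

theorem k_5_6_11 : ck_5_6 ⟨nat_lit 0xc020408000, nat_lit 1, nat_lit 17⟩ = true := by decide +kernel

theorem k_5_6_12 : ck_5_6 ⟨nat_lit 0xb870000000, nat_lit 2, nat_lit 18⟩ = true := by decide +kernel

theorem k_5_6_13 : ck_5_6 ⟨nat_lit 0xb860200000, nat_lit 3, nat_lit 20⟩ = true := by decide +kernel

theorem k_5_6_14 : ck_5_6 ⟨nat_lit 0xb850400000, nat_lit 3, nat_lit 23⟩ = true := by decide +kernel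

theorem k_5_6_15 : ck_5_6 ⟨nat_lit 0xb840600000, nat_lit 2, nat_lit 26⟩ = true := by decide +kernel

theorem k_5_6_16 : ck_5_6 ⟨nat_lit 0xb840404000, nat_lit 1, nat_lit 28⟩ = true := by decide +kernel

theorem k_5_6_17 : ck_5_6 ⟨nat_lit 0xb830408000, nat_lit 1, nat_lit 29⟩ = true := by decide +kernel

theorem k_5_6_18 : ck_5_6 ⟨nat_lit 0xb080000000, nat_lit 4, nat_lit 30⟩ = true := by decide +kernel

theorem k_5_6_19 : ck_5_6 ⟨nat_lit 0xb070200000, nat_lit 3, nat_lit 34⟩ = true := by decide +kernel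

theorem k_5_6_20 : ck_5_6 ⟨nat_lit 0xb060400000, nat_lit 6, nat_lit 37⟩ = true := by decide +kernel

theorem k_5_6_21 : ck_5_6 ⟨nat_lit 0xb050600000, nat_lit 2, nat_lit 43⟩ = true := by decide +kernel

theorem k_5_6_22 : ck_5_6 ⟨nat_lit 0xb050404000, nat_lit 2, nat_lit 45⟩ = true := by decide +kernel

theorem k_5_6_23 : ck_5_6 ⟨nat_lit 0xb040800000, nat_lit 3, nat_lit 47⟩ = true := by decide +kernel

theorem k_5_6_24 : ck_5_6 ⟨nat_lit 0xb040604000, nat_lit 1, nat_lit 50⟩ = true := by decide +kernel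

theorem k_5_6_25 : ck_5_6 ⟨nat_lit 0xb040408000, nat_lit 2, nat_lit 51⟩ = true := by decide +kernel

theorem k_5_6_26 : ck_5_6 ⟨nat_lit 0xb020408100, nat_lit 1, nat_lit 53⟩ = true := by decide +kernel

theorem k_5_6_27 : ck_5_6 ⟨nat_lit 0xa890000000, nat_lit 3, nat_lit 54⟩ = true := by decide +kernel

theorem k_5_6_28 : ck_5_6 ⟨nat_lit 0xa880200000, nat_lit 4, nat_lit 57⟩ = true := by decide +kernel

theorem k_5_6_29 : ck_5_6 ⟨nat_lit 0xa870400000, nat_lit 6, nat_lit 61⟩ = true := by decide +kernel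

theorem k_5_6_30 : ck_5_6 ⟨nat_lit 0xa870204000, nat_lit 1, nat_lit 67⟩ = true := by decide +kernel

theorem k_5_6_31 : ck_5_6 ⟨nat_lit 0xa860600000, nat_lit 6, nat_lit 68⟩ = true := by decide +kernel

theorem k_5_6_32 : ck_5_6 ⟨nat_lit 0xa860404000, nat_lit 3, nat_lit 74⟩ = true := by decide +kernel

theorem k_5_6_33 : ck_5_6 ⟨nat_lit 0xa850800000, nat_lit 3, nat_lit 77⟩ = true := by decide +kernel

theorem k_5_6_34 : ck_5_6 ⟨nat_lit 0xa850604000, nat_lit 2, nat_lit 80⟩ = true := by decide +kernel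

theorem k_5_6_35 : ck_5_6 ⟨nat_lit 0xa850408000, nat_lit 3, nat_lit 82⟩ = true := by decide +kernel

theorem k_5_6_36 : ck_5_6 ⟨nat_lit 0xa840804000, nat_lit 2, nat_lit 85⟩ = true := by decide +kernel

theorem k_5_6_37 : ck_5_6 ⟨nat_lit 0xa840608000, nat_lit 1, nat_lit 87⟩ = true := by decide +kernel

theorem k_5_6_38 : ck_5_6 ⟨nat_lit 0xa840408080, nat_lit 1, nat_lit 88⟩ = true := by decide +kernel

theorem k_5_6_39 : ck_5_6 ⟨nat_lit 0xa0a0000000, nat_lit 4, nat_lit 89⟩ = true := by decide +kernel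

theorem k_5_6_40 : ck_5_6 ⟨nat_lit 0xa090200000, nat_lit 4, nat_lit 93⟩ = true := by decide +kernel

/-- sources 0 to 40 -/
noncomputable def c_5_6_0 : List IE := [⟨nat_lit 0xf000000000, nat_lit 1, nat_lit 0⟩,
  ⟨nat_lit 0xe020000000, nat_lit 1, nat_lit 1⟩,
  ⟨nat_lit 0xd830000000, nat_lit 1, nat_lit 2⟩,
  ⟨nat_lit 0xd040000000, nat_lit 2, nat_lit 3⟩,
  ⟨nat_lit 0xd020400000, nat_lit 1, nat_lit 5⟩,
  ⟨nat_lit 0xc850000000, nat_lit 2, nat_lit 6⟩,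
  ⟨nat_lit 0xc840200000, nat_lit 1, nat_lit 8⟩,
  ⟨nat_lit 0xc830400000, nat_lit 1, nat_lit 9⟩,
  ⟨nat_lit 0xc060000000, nat_lit 3, nat_lit 10⟩,
  ⟨nat_lit 0xc050200000, nat_lit 1, nat_lit 13⟩,
  ⟨nat_lit 0xc040400000, nat_lit 3, nat_lit 14⟩,
  ⟨nat_lit 0xc020408000, nat_lit 1, nat_lit 17⟩,
  ⟨nat_lit 0xb870000000, nat_lit 2, nat_lit 18⟩,
  ⟨nat_lit 0xb860200000, nat_lit 3, nat_lit 20⟩,
  ⟨nat_lit 0xb850400000, nat_lit 3, nat_lit 23⟩,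
  ⟨nat_lit 0xb840600000, nat_lit 2, nat_lit 26⟩,
  ⟨nat_lit 0xb840404000, nat_lit 1, nat_lit 28⟩,
  ⟨nat_lit 0xb830408000, nat_lit 1, nat_lit 29⟩,
  ⟨nat_lit 0xb080000000, nat_lit 4, nat_lit 30⟩,
  ⟨nat_lit 0xb070200000, nat_lit 3, nat_lit 34⟩,
  ⟨nat_lit 0xb060400000, nat_lit 6, nat_lit 37⟩,
  ⟨nat_lit 0xb050600000, nat_lit 2, nat_lit 43⟩,
  ⟨nat_lit 0xb050404000, nat_lit 2, nat_lit 45⟩,
  ⟨nat_lit 0xb040800000, nat_lit 3, nat_lit 47⟩,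
  ⟨nat_lit 0xb040604000, nat_lit 1, nat_lit 50⟩,
  ⟨nat_lit 0xb040408000, nat_lit 2, nat_lit 51⟩,
  ⟨nat_lit 0xb020408100, nat_lit 1, nat_lit 53⟩,
  ⟨nat_lit 0xa890000000, nat_lit 3, nat_lit 54⟩,
  ⟨nat_lit 0xa880200000, nat_lit 4, nat_lit 57⟩,
  ⟨nat_lit 0xa870400000, nat_lit 6, nat_lit 61⟩,
  ⟨nat_lit 0xa870204000, nat_lit 1, nat_lit 67⟩,
  ⟨nat_lit 0xa860600000, nat_lit 6, nat_lit 68⟩,
  ⟨nat_lit 0xa860404000, nat_lit 3, nat_lit 74⟩,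
  ⟨nat_lit 0xa850800000, nat_lit 3, nat_lit 77⟩,
  ⟨nat_lit 0xa850604000, nat_lit 2, nat_lit 80⟩,
  ⟨nat_lit 0xa850408000, nat_lit 3, nat_lit 82⟩,
  ⟨nat_lit 0xa840804000, nat_lit 2, nat_lit 85⟩,
  ⟨nat_lit 0xa840608000, nat_lit 1, nat_lit 87⟩,
  ⟨nat_lit 0xa840408080, nat_lit 1, nat_lit 88⟩,
  ⟨nat_lit 0xa0a0000000, nat_lit 4, nat_lit 89⟩,
  ⟨nat_lit 0xa090200000, nat_lit 4, nat_lit 93⟩]

theorem C_5_6_0 : allL ck_5_6 c_5_6_0 = true :=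
  (allL_cons k_5_6_0 (allL_cons k_5_6_1 (allL_cons k_5_6_2 (allL_cons k_5_6_3 (allL_cons k_5_6_4 (allL_cons k_5_6_5 (allL_cons k_5_6_6 (allL_cons k_5_6_7 (allL_cons k_5_6_8 (allL_cons k_5_6_9 (allL_cons k_5_6_10 (allL_cons k_5_6_11 (allL_cons k_5_6_12 (allL_cons k_5_6_13 (allL_cons k_5_6_14 (allL_cons k_5_6_15 (allL_cons k_5_6_16 (allL_cons k_5_6_17 (allL_cons k_5_6_18 (allL_cons k_5_6_19 (allL_cons k_5_6_20 (allL_cons k_5_6_21 (allL_cons k_5_6_22 (allL_cons k_5_6_23 (allL_cons k_5_6_24 (allL_cons k_5_6_25 (allL_cons k_5_6_26 (allL_cons k_5_6_27 (allL_cons k_5_6_28 (allL_cons k_5_6_29 (allL_cons k_5_6_30 (allL_cons k_5_6_31 (allL_cons k_5_6_32 (allL_cons k_5_6_33 (allL_cons k_5_6_34 (allL_cons k_5_6_35 (allL_cons k_5_6_36 (allL_cons k_5_6_37 (allL_cons k_5_6_38 (allL_cons k_5_6_39 (allL_cons k_5_6_40 (allL_nil _))))))))))))))))))))))))))))))))))))))))))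

end Crest.Agent.R187.SN.KC
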