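import Crest.Agent.R187.SN.KC.Def

/-!
# Row 187, PLAN S, block E2: sources 280 to 292 of level (5, 6) (generated)
-/

set_option autoImplicit false
set_option maxRecDepth 100000
set_option Elab.async false

namespace Crest.Agent.R187.SN.KC

open Crest.Agent.R187.SN Crest.Agent.R187.SN.Spec Crest.Agent.R187.SN.Kern
open Crest.Agent.R187.SN.KKey Crest.Agent.R187.SN.KD Crest.Agent.R187.SN.KE
open Crest.Agent.R187.SN.KRel Crest.Agent.R187.SN.KDec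

theorem k_5_6_280 : ck_5_6 ⟨nat_lit 0x68c0408080, nat_lit 1, nat_lit 1282⟩ = true := by decide +kernel

theorem k_5_6_281 : ck_5_6 ⟨nat_lit 0x68b0c00000, nat_lit 5, nat_lit 1283⟩ = true := by decide +kernel

theorem k_5_6_282 : ck_5_6 ⟨nat_lit 0x68b0a04000, nat_lit 9, nat_lit 1288⟩ = true := by decide +kernel

theorem k_5_6_283 : ck_5_6 ⟨nat_lit 0x68b0808000, nat_lit 8, nat_lit 1297⟩ = true := by decide +kernel

theorem k_5_6_284 : ck_5_6 ⟨nat_lit 0x68b0804080, nat_lit 4, nat_lit 1305⟩ = true := by decide +kernel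

theorem k_5_6_285 : ck_5_6 ⟨nat_lit 0x68b060c000, nat_lit 3, nat_lit 1309⟩ = true := by decide +kernel

theorem k_5_6_286 : ck_5_6 ⟨nat_lit 0x68b0608080, nat_lit 3, nat_lit 1312⟩ = true := by decide +kernel

theorem k_5_6_287 : ck_5_6 ⟨nat_lit 0x68a0e00000, nat_lit 6, nat_lit 1315⟩ = true := by decide +kernel

theorem k_5_6_288 : ck_5_6 ⟨nat_lit 0x68a0c04000, nat_lit 12, nat_lit 1321⟩ = true := by decide +kernel

theorem k_5_6_289 : ck_5_6 ⟨nat_lit 0x68a0a08000, nat_lit 12, nat_lit 1333⟩ = true := by decide +kernel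

theorem k_5_6_290 : ck_5_6 ⟨nat_lit 0x68a0a04080, nat_lit 4, nat_lit 1345⟩ = true := by decide +kernel

theorem k_5_6_291 : ck_5_6 ⟨nat_lit 0x68a080c000, nat_lit 8, nat_lit 1349⟩ = true := by decide +kernel

theorem k_5_6_292 : ck_5_6 ⟨nat_lit 0x68a0808080, nat_lit 6, nat_lit 1357⟩ = true := by decide +kernel

/-- sources 280 to 292 -/
noncomputable def c_5_6_14 : List IE := [⟨nat_lit 0x68c0408080, nat_lit 1, nat_lit 1282⟩,
  ⟨nat_lit 0x68b0c00000, nat_lit 5, nat_lit 1283⟩,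
  ⟨nat_lit 0x68b0a04000, nat_lit 9, nat_lit 1288⟩,
  ⟨nat_lit 0x68b0808000, nat_lit 8, nat_lit 1297⟩,
  ⟨nat_lit 0x68b0804080, nat_lit 4, nat_lit 1305⟩,
  ⟨nat_lit 0x68b060c000, nat_lit 3, nat_lit 1309⟩,
  ⟨nat_lit 0x68b0608080, nat_lit 3, nat_lit 1312⟩,
  ⟨nat_lit 0x68a0e00000, nat_lit 6, nat_lit 1315⟩,
  ⟨nat_lit 0x68a0c04000, nat_lit 12, nat_lit 1321⟩,
  ⟨nat_lit 0x68a0a08000, nat_lit 12, nat_lit 1333⟩,
  ⟨nat_lit 0x68a0a04080, nat_lit 4, nat_lit 1345⟩,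
  ⟨nat_lit 0x68a080c000, nat_lit 8, nat_lit 1349⟩,
  ⟨nat_lit 0x68a0808080, nat_lit 6, nat_lit 1357⟩]

theorem C_5_6_14 : allL ck_5_6 c_5_6_14 = true :=
  (allL_cons k_5_6_280 (allL_cons k_5_6_281 (allL_cons k_5_6_282 (allL_cons k_5_6_283 (allL_cons k_5_6_284 (allL_cons k_5_6_285 (allL_cons k_5_6_286 (allL_cons k_5_6_287 (allL_cons k_5_6_288 (allL_cons k_5_6_289 (allL_cons k_5_6_290 (allL_cons k_5_6_291 (allL_cons k_5_6_292 (allL_nil _))))))))))))))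

end Crest.Agent.R187.SN.KC
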