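import Crest.Agent.R187.SN.KC.Def

/-!
# Row 187, PLAN S, block E2: support checks (generated)
-/

set_option autoImplicit false
set_option maxRecDepth 100000
set_option Elab.async false

namespace Crest.Agent.R187.SN.KC

open Crest.Agent.R187.SN Crest.Agent.R187.SN.Spec Crest.Agent.R187.SN.Kern
open Crest.Agent.R187.SN.KKey Crest.Agent.R187.SN.KD Crest.Agent.R187.SN.KE
open Crest.Agent.R187.SN.KRel Crest.Agent.R187.SN.KDec

theorem SV_1_0 : allL (suppb ix_0_0 (vtDec 1 gV_1_0)) ix_1_0 = true := by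
  decide +kernel

theorem SV_1_1 : allL (suppb ix_0_1 (vtDec 1 gV_1_1)) ix_1_1 = true := by
  decide +kernel

theorem SV_1_2 : allL (suppb ix_0_2 (vtDec 1 gV_1_2)) ix_1_2 = true := by
  decide +kernel

theorem SV_1_3 : allL (suppb ix_0_3 (vtDec 1 gV_1_3)) ix_1_3 = true := by
  decide +kernel

theorem SV_1_4 : allL (suppb ix_0_4 (vtDec 1 gV_1_4)) ix_1_4 = true := by
  decide +kernel

theorem SV_1_5 : allL (suppb ix_0_5 (vtDec 1 gV_1_5)) ix_1_5 = true := by
  decide +kernel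

theorem SV_1_6 : allL (suppb ix_0_6 (vtDec 1 gV_1_6)) ix_1_6 = true := by
  decide +kernel

theorem SV_1_7 : allL (suppb ix_0_7 (vtDec 1 gV_1_7)) ix_1_7 = true := by
  decide +kernel

theorem SV_2_0 : allL (suppb ix_1_0 (vtDec 1 gV_2_0)) ix_2_0 = true := by
  decide +kernel

theorem SV_2_1 : allL (suppb ix_1_1 (vtDec 1 gV_2_1)) ix_2_1 = true := by
  decide +kernel

theorem SV_2_2 : allL (suppb ix_1_2 (vtDec 1 gV_2_2)) ix_2_2 = true := by
  decide +kernel

theorem SV_2_3 : allL (suppb ix_1_3 (vtDec 1 gV_2_3)) ix_2_3 = true := by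
  decide +kernel

theorem SV_2_4 : allL (suppb ix_1_4 (vtDec 1 gV_2_4)) ix_2_4 = true := by
  decide +kernel

theorem SV_2_5 : allL (suppb ix_1_5 (vtDec 1 gV_2_5)) ix_2_5 = true := by
  decide +kernel

theorem SV_2_6 : allL (suppb ix_1_6 (vtDec 1 gV_2_6)) ix_2_6 = true := by
  decide +kernel

theorem SV_2_7 : allL (suppb ix_1_7 (vtDec 1 gV_2_7)) ix_2_7 = true := by
  decide +kernel

theorem SV_3_0 : allL (suppb ix_2_0 (vtDec 1 gV_3_0)) ix_3_0 = true := by
  decide +kernel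

theorem SV_3_1 : allL (suppb ix_2_1 (vtDec 1 gV_3_1)) ix_3_1 = true := by
  decide +kernel

theorem SV_3_2 : allL (suppb ix_2_2 (vtDec 2 gV_3_2)) ix_3_2 = true := by
  decide +kernel

theorem SV_3_3 : allL (suppb ix_2_3 (vtDec 2 gV_3_3)) ix_3_3 = true := by
  decide +kernel

theorem SV_3_4 : allL (suppb ix_2_4 (vtDec 3 gV_3_4)) ix_3_4 = true := by
  decide +kernel

theorem SV_3_5 : allL (suppb ix_2_5 (vtDec 3 gV_3_5)) ix_3_5 = true := by
  decide +kernel

theorem SV_3_6 : allL (suppb ix_2_6 (vtDec 4 gV_3_6)) ix_3_6 = true := by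
  decide +kernel

theorem SV_3_7 : allL (suppb ix_2_7 (vtDec 4 gV_3_7)) ix_3_7 = true := by
  decide +kernel

theorem SV_4_0 : allL (suppb ix_3_0 (vtDec 1 gV_4_0)) ix_4_0 = true := by
  decide +kernel

theorem SV_4_1 : allL (suppb ix_3_1 (vtDec 1 gV_4_1)) ix_4_1 = true := by
  decide +kernel

theorem SV_4_2 : allL (suppb ix_3_2 (vtDec 2 gV_4_2)) ix_4_2 = true := by
  decide +kernel

theorem SV_4_3 : allL (suppb ix_3_3 (vtDec 5 gV_4_3)) ix_4_3 = true := by
  decide +kernel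

theorem SV_4_4 : allL (suppb ix_3_4 (vtDec 9 gV_4_4)) ix_4_4 = true := by
  decide +kernel

theorem SV_4_5 : allL (suppb ix_3_5 (vtDec 13 gV_4_5)) ix_4_5 = true := by
  decide +kernel

theorem SV_4_6 : allL (suppb ix_3_6 (vtDec 20 gV_4_6)) ix_4_6 = true := by
  decide +kernel

theorem SV_4_7 : allL (suppb ix_3_7 (vtDec 28 gV_4_7)) ix_4_7 = true := by
  decide +kernel

theorem SV_5_0 : allL (suppb ix_4_0 (vtDec 1 gV_5_0)) ix_5_0 = true := by
  decide +kernel

theorem SV_5_1 : allL (suppb ix_4_1 (vtDec 1 gV_5_1)) ix_5_1 = true := by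
  decide +kernel

theorem SV_5_2 : allL (suppb ix_4_2 (vtDec 3 gV_5_2)) ix_5_2 = true := by
  decide +kernel

theorem SV_5_3 : allL (suppb ix_4_3 (vtDec 9 gV_5_3)) ix_5_3 = true := by
  decide +kernel

theorem SV_5_4 : allL (suppb ix_4_4 (vtDec 33 gV_5_4)) ix_5_4 = true := by
  decide +kernel

theorem SV_5_5 : allL (suppb ix_4_5 (vtDec 74 gV_5_5)) ix_5_5 = true := by
  decide +kernel

theorem SV_5_6 : allL (suppb ix_4_6 (vtDec 163 gV_5_6)) ix_5_6 = true := by
  decide +kernel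

theorem SV_5_7 : allL (suppb ix_4_7 (vtDec 319 gV_5_7)) ix_5_7 = true := by
  decide +kernel

end Crest.Agent.R187.SN.KC
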